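import Mathlib.Algebra.Order.Archimedean.Real.Hom
import Mathlib.Analysis.InnerProductSpace.PiL2
import Mathlib.LinearAlgebra.Complex.FiniteDimensional
import Vale.Agent.Lib.P250.NFdefs

/-!
# P250, all dimensions: definitions

The fibre `ℂ` of the Hartogs domain is replaced by `ℂ^(m+1)`; complex dimension `m + 3`.
-/

open scoped ContDiff
open Complex Metric Set

namespace P250

noncomputable section

/-- `ℂ^m` -/
abbrev Fb (m : ℕ) := EuclideanSpace ℂ (Fin m)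

/-- ambient space of the Hartogs domain -/
abbrev VH (m : ℕ) := (ℂ × ℂ) × Fb (m + 1)

/-- the Hartogs domain with fibre in `ℂ^(m+1)` -/
def MG (e δ : ℝ) (N m : ℕ) : Set (VH m) :=
  {p | p.1 ∈ U2 ∧ ‖p.2‖ ^ 2 * Real.exp (phiL e δ N 0 p.1) < 1}

/-- its Kaehler potential -/
def PotG (A e δ : ℝ) (N m : ℕ) (p : VH m) : ℝ :=
  A * (-Real.log (rho p.1)) - Real.log (1 - ‖p.2‖ ^ 2 * Real.exp (phiL e δ N 0 p.1))

/-! ## polarised potentials on a general space with a conjugation `c` -/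

variable {E : Type*} [NormedAddCommGroup E] [NormedSpace ℂ E]

/-- mixed derivatives; `c` is a conjugate linear map -/
def K11g (c : E →L[ℝ] E) (K : E × E → ℂ) (z : E × E) (u v : E) : ℂ :=
  dd (dd K (0, c v)) (u, 0) z

def K21g (c : E →L[ℝ] E) (K : E × E → ℂ) (z : E × E) (u v w : E) : ℂ :=
  dd (dd (dd K (0, c w)) (v, 0)) (u, 0) z

def K12g (c : E →L[ℝ] E) (K : E × E → ℂ) (z : E × E) (u v w : E) : ℂ :=
  dd (dd (dd K (0, c w)) (0, c v)) (u, 0) z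

def K22g (c : E →L[ℝ] E) (K : E × E → ℂ) (z : E × E) (u u' v v' : E) : ℂ :=
  dd (dd (dd (dd K (0, c v')) (0, c v)) (u', 0)) (u, 0) z

/-! ## the general model potential over a base `B` -/

variable {B : Type*} [NormedAddCommGroup B] [NormedSpace ℂ B]

/-- conjugation on `B × ℂ` -/
def cV (c : B →L[ℝ] B) : B × ℂ →L[ℝ] B × ℂ :=
  (c.comp (ContinuousLinearMap.fst ℝ B ℂ)).prod
    ((Complex.conjCLE : ℂ →L[ℝ] ℂ).comp (ContinuousLinearMap.snd ℝ B ℂ))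

/-- `b (x, y) - log (1 - exp (τ + t + f (x, y)))` -/
def Kgen (b f : B × B → ℂ) (z : (B × ℂ) × (B × ℂ)) : ℂ :=
  b (z.1.1, z.2.1) - Complex.log (1 - Complex.exp (z.1.2 + z.2.2 + f (z.1.1, z.2.1)))

/-- its domain -/
def Ugen (S : Set (B × B)) (f : B × B → ℂ) : Set ((B × ℂ) × (B × ℂ)) :=
  {z | (z.1.1, z.2.1) ∈ S ∧ ‖Complex.exp (z.1.2 + z.2.2 + f (z.1.1, z.2.1))‖ < 1}

/-! ## the concrete model: base `(ℂ × ℂ) × ℂ^m` -/

/-- base of the model -/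
abbrev Bm (m : ℕ) := (ℂ × ℂ) × Fb m

/-- componentwise conjugation on `ℂ^m` -/
def cFb (m : ℕ) : Fb m →L[ℝ] Fb m :=
  LinearMap.toContinuousLinearMap
    { toFun := fun v => WithLp.toLp 2 (fun i => starRingEnd ℂ (v i))
      map_add' := by intro v w; ext i; simp
      map_smul' := by intro a v; ext i; simp }

/-- conjugation on the base of the model -/
def cBm (m : ℕ) : Bm m →L[ℝ] Bm m :=
  (((Complex.conjCLE : ℂ →L[ℝ] ℂ).prodMap (Complex.conjCLE : ℂ →L[ℝ] ℂ)).prodMap (cFb m))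

/-- bilinear form on `ℂ^m` -/
def bil {m : ℕ} (v w : Fb m) : ℂ := ∑ i, v i * w i

/-- hermitian form on `ℂ^m` -/
def ipn {m : ℕ} (v w : Fb m) : ℂ := ∑ i, v i * starRingEnd ℂ (w i)

/-- base potential -/
def bG (A : ℝ) {m : ℕ} (z : Bm m × Bm m) : ℂ :=
  A * (-Complex.log (1 - z.1.1.1 * z.2.1.1 - z.1.1.2 * z.2.1.2))

/-- line bundle potential -/
def fG (fh : (ℂ × ℂ) × (ℂ × ℂ) → ℂ) {m : ℕ} (z : Bm m × Bm m) : ℂ :=
  fh (z.1.1, z.2.1) + Complex.log (1 + bil z.1.2 z.2.2)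

/-- where they are smooth -/
def SG (r0 : ℝ) (m : ℕ) : Set (Bm m × Bm m) :=
  {z | (z.1.1, z.2.1) ∈ ball (0 : (ℂ × ℂ) × (ℂ × ℂ)) r0 ∧ ‖bil z.1.2 z.2.2‖ < 1}

/-- the real model potential -/
def PhiG (A : ℝ) (fh : (ℂ × ℂ) × (ℂ × ℂ) → ℂ) {m : ℕ} (p : Bm m × ℂ) : ℝ :=
  A * (-Real.log (1 - ‖p.1.1.1‖ ^ 2 - ‖p.1.1.2‖ ^ 2))
    - Real.log (1 - Real.exp (2 * p.2.re + (fh (p.1.1, cj p.1.1)).re) * (1 + ‖p.1.2‖ ^ 2))

end

end P250
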