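import Vale.Agent.Lib.P250.AlgDefs
import Vale.Agent.Lib.P250.G.GDefs

/-! # P250-G: definitions of the model algebra with tangential fibre directions -/

open Complex

namespace P250

noncomputable section

/-- tangent vectors: base `ℂ × ℂ`, tangential fibre part in `ℂ^m`, radial part -/
abbrev TV (m : ℕ) := Bm m × ℂ

/-- forget the tangential part -/
def pr {m : ℕ} (u : TV m) : (ℂ × ℂ) × ℂ := (u.1.1, u.2)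

/-- metric -/
def g11 (A s c1 c2 : ℝ) {m : ℕ} (u v : TV m) : ℂ :=
  m11 A s c1 c2 (pr u) (pr v) + s * ipn u.1.2 v.1.2

/-- the (1,1) jet of the line bundle potential -/
def cg (c1 c2 : ℝ) {m : ℕ} (u v : TV m) : ℂ := cdiag c1 c2 u.1.1 v.1.1 + ipn u.1.2 v.1.2

/-- fourth derivatives of type (2,2) -/
def g22 (A s c1 c2 : ℝ) (a3 : Fin 2 → Fin 2 → Fin 2 → ℂ)
    (a4 : Fin 2 → Fin 2 → Fin 2 → Fin 2 → ℂ) {m : ℕ} (u u' v v' : TV m) : ℂ :=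
  A * (ip u.1.1 v.1.1 * ip u'.1.1 v'.1.1 + ip u.1.1 v'.1.1 * ip u'.1.1 v.1.1)
  + s * (1 + s) * ((1 + 2 * s) ^ 2 + 2 * s * (1 + s)) *
      (u.2 * u'.2 * starRingEnd ℂ v.2 * starRingEnd ℂ v'.2)
  + s * (1 + s) * (1 + 2 * s) *
      (cg c1 c2 u v * u'.2 * starRingEnd ℂ v'.2
        + cg c1 c2 u v' * u'.2 * starRingEnd ℂ v.2
        + cg c1 c2 u' v * u.2 * starRingEnd ℂ v'.2
        + cg c1 c2 u' v' * u.2 * starRingEnd ℂ v.2)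
  + s * (1 + s) *
      (cg c1 c2 u v * cg c1 c2 u' v' + cg c1 c2 u v' * cg c1 c2 u' v
        + c21 a3 u.1.1 u'.1.1 v.1.1 * starRingEnd ℂ v'.2
        + c21 a3 u.1.1 u'.1.1 v'.1.1 * starRingEnd ℂ v.2
        + starRingEnd ℂ (c21 a3 v.1.1 v'.1.1 u.1.1) * u'.2
        + starRingEnd ℂ (c21 a3 v.1.1 v'.1.1 u'.1.1) * u.2)
  + s * (c22 a4 u.1.1 u'.1.1 v.1.1 v'.1.1
      - (ipn u.1.2 v.1.2 * ipn u'.1.2 v'.1.2 + ipn u.1.2 v'.1.2 * ipn u'.1.2 v.1.2))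

/-- third derivatives of type (2,1) -/
def g21 (s c1 c2 : ℝ) (a3 : Fin 2 → Fin 2 → Fin 2 → ℂ) {m : ℕ} (u u' v : TV m) : ℂ :=
  s * (1 + s) * (1 + 2 * s) * (u.2 * u'.2 * starRingEnd ℂ v.2)
  + s * (1 + s) * (u.2 * cg c1 c2 u' v + u'.2 * cg c1 c2 u v)
  + s * c21 a3 u.1.1 u'.1.1 v.1.1

/-- the Christoffel vector -/
def gGam (A s c1 c2 : ℝ) (a3 : Fin 2 → Fin 2 → Fin 2 → ℂ) {m : ℕ} (u u' : TV m) : TV m :=
  (((mGam A s c1 c2 a3 (pr u) (pr u')).1,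
    ((1 + s : ℝ) : ℂ) • (u.2 • u'.1.2 + u'.2 • u.1.2)),
   (1 + 2 * s) * u.2 * u'.2)

/-- the curvature numerator -/
def gN (A s c1 c2 : ℝ) (a3 : Fin 2 → Fin 2 → Fin 2 → ℂ)
    (a4 : Fin 2 → Fin 2 → Fin 2 → Fin 2 → ℂ) {m : ℕ} (u v : TV m) : ℝ :=
  (1 / 2 : ℝ) * (g22 A s c1 c2 a3 a4 u u v v).re + (1 / 2 : ℝ) * (g22 A s c1 c2 a3 a4 v v u u).re
    - (g22 A s c1 c2 a3 a4 u v u v).re
    + (g11 A s c1 c2 (gGam A s c1 c2 a3 u v) (gGam A s c1 c2 a3 u v)).re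
    - (g11 A s c1 c2 (gGam A s c1 c2 a3 u u) (gGam A s c1 c2 a3 v v)).re

/-- squared area -/
def gArea (A s c1 c2 : ℝ) {m : ℕ} (u v : TV m) : ℝ :=
  (g11 A s c1 c2 u u).re * (g11 A s c1 c2 v v).re - (g11 A s c1 c2 u v).re ^ 2

/-- `T' = 2 Im r`, `V2 = 2 (p q - Re r²)`, `r = ⟨ν, ν'⟩`, `p = |ν|²`, `q = |ν'|²` -/
def gT {m : ℕ} (u v : TV m) : ℝ := 2 * (ipn u.1.2 v.1.2).im

def gV2 {m : ℕ} (u v : TV m) : ℝ :=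
  2 * (‖u.1.2‖ ^ 2 * ‖v.1.2‖ ^ 2 - ((ipn u.1.2 v.1.2) ^ 2).re)

/-- cross term between `a` (component of `u`, with `b` the one of `v`) and the tangential part -/
def gcr {m : ℕ} (a b : ℂ) (u v : TV m) : ℝ :=
  ‖a‖ ^ 2 * ‖v.1.2‖ ^ 2 + ‖b‖ ^ 2 * ‖u.1.2‖ ^ 2 - 2 * (a * starRingEnd ℂ b * ipn u.1.2 v.1.2).re

/-- extra terms: `2 gN = 2 mN + Qextra` -/
def Qextra (s c1 c2 Y t T V2 ha1 ha2 hv : ℝ) : ℝ :=
  -s ^ 2 * (T ^ 2 + V2) - 2 * s * (1 + s) * Y * T - 2 * s * (1 + s) * (c1 * ha1 + c2 * ha2)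
    - 2 * s * t * T - 2 * s * hv

/-- extra terms of the norm -/
def Hextra (A s c1 c2 V2 ha1 ha2 hv : ℝ) : ℝ :=
  s ^ 2 * V2 + 2 * s * ((A + s * c1) * ha1 + (A + s * c2) * ha2) + 2 * s * hv

end

end P250
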