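import Mathlib.Analysis.CStarAlgebra.Module.Constructions
import Vale.Agent.Lib.P250.AlgA
import Vale.Agent.Lib.P250.G.AlgGdefs

/-! # P250-G module AlgG1: algebra of the general model -/

open Complex

namespace P250

/-! ## the hermitian form `ipn` -/

private theorem ag_ipn_inner {m : ℕ} (v w : Fb m) : ipn v w = inner ℂ w v := by
  rw [PiLp.inner_apply]
  unfold ipn
  refine Finset.sum_congr rfl fun i _ => ?_
  simp

private theorem ag_ipn_add_left {m : ℕ} (x y w : Fb m) : ipn (x + y) w = ipn x w + ipn y w := by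
  simp only [ag_ipn_inner, inner_add_right]

private theorem ag_ipn_smul_left {m : ℕ} (a : ℂ) (x w : Fb m) : ipn (a • x) w = a * ipn x w := by
  simp only [ag_ipn_inner, inner_smul_right]

private theorem ag_ipn_add_right {m : ℕ} (x y w : Fb m) : ipn w (x + y) = ipn w x + ipn w y := by
  simp only [ag_ipn_inner, inner_add_left]

private theorem ag_ipn_smul_right {m : ℕ} (a : ℂ) (x w : Fb m) :
    ipn w (a • x) = starRingEnd ℂ a * ipn w x := by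
  simp only [ag_ipn_inner, inner_smul_left]

private theorem ag_ipn_conj {m : ℕ} (v w : Fb m) : starRingEnd ℂ (ipn v w) = ipn w v := by
  simp only [ag_ipn_inner, inner_conj_symm]

private theorem ag_ipn_self {m : ℕ} (v : Fb m) : ipn v v = ((‖v‖ ^ 2 : ℝ) : ℂ) := by
  rw [ag_ipn_inner, inner_self_eq_norm_sq_to_K]
  norm_num

private theorem ag_ipn_cs {m : ℕ} (v w : Fb m) : ‖ipn v w‖ ≤ ‖v‖ * ‖w‖ := by
  rw [ag_ipn_inner, mul_comm]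
  exact norm_inner_le_norm w v

/-- the Christoffel vector -/
theorem g11_gGam {A s c1 c2 : ℝ} (hA : 0 < A) (hs : 0 < s) (h1 : 0 < c1) (h2 : 0 < c2)
    (a3 : Fin 2 → Fin 2 → Fin 2 → ℂ) {m : ℕ} (u u' v : TV m) :
    g11 A s c1 c2 (gGam A s c1 c2 a3 u u') v = g21 s c1 c2 a3 u u' v := by
  have h := m11_mGam hA hs h1 h2 a3 (pr u) (pr u') (pr v)
  have e : pr (gGam A s c1 c2 a3 u u') = mGam A s c1 c2 a3 (pr u) (pr u') := rfl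
  unfold g11
  rw [e, h]
  have e2 : (gGam A s c1 c2 a3 u u').1.2 = ((1 + s : ℝ) : ℂ) • (u.2 • u'.1.2 + u'.2 • u.1.2) := rfl
  rw [e2, ag_ipn_smul_left, ag_ipn_add_left, ag_ipn_smul_left, ag_ipn_smul_left]
  unfold m21 g21 cg pr
  push_cast
  ring

/-! ## the numerator -/

private theorem ag_g22_split (A s c1 c2 : ℝ) (a3 : Fin 2 → Fin 2 → Fin 2 → ℂ)
    (a4 : Fin 2 → Fin 2 → Fin 2 → Fin 2 → ℂ) {m : ℕ} (u u' v v' : TV m) :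
    g22 A s c1 c2 a3 a4 u u' v v' = m22 A s c1 c2 a3 a4 (pr u) (pr u') (pr v) (pr v')
      + (s * (1 + s) * (1 + 2 * s) *
          (ipn u.1.2 v.1.2 * u'.2 * starRingEnd ℂ v'.2
            + ipn u.1.2 v'.1.2 * u'.2 * starRingEnd ℂ v.2
            + ipn u'.1.2 v.1.2 * u.2 * starRingEnd ℂ v'.2
            + ipn u'.1.2 v'.1.2 * u.2 * starRingEnd ℂ v.2)
        + s * (1 + s) *
          (cdiag c1 c2 u.1.1 v.1.1 * ipn u'.1.2 v'.1.2 + ipn u.1.2 v.1.2 * cdiag c1 c2 u'.1.1 v'.1.1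
            + cdiag c1 c2 u.1.1 v'.1.1 * ipn u'.1.2 v.1.2
            + ipn u.1.2 v'.1.2 * cdiag c1 c2 u'.1.1 v.1.1)
        + s ^ 2 * (ipn u.1.2 v.1.2 * ipn u'.1.2 v'.1.2 + ipn u.1.2 v'.1.2 * ipn u'.1.2 v.1.2)) := by
  unfold g22 m22 cg pr
  ring

private theorem ag_g11_split (A s c1 c2 : ℝ) (a3 : Fin 2 → Fin 2 → Fin 2 → ℂ) {m : ℕ}
    (u u' v v' : TV m) :
    g11 A s c1 c2 (gGam A s c1 c2 a3 u u') (gGam A s c1 c2 a3 v v') =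
      m11 A s c1 c2 (mGam A s c1 c2 a3 (pr u) (pr u')) (mGam A s c1 c2 a3 (pr v) (pr v'))
      + s * (1 + s) ^ 2 *
        (u.2 * starRingEnd ℂ v.2 * ipn u'.1.2 v'.1.2 + u.2 * starRingEnd ℂ v'.2 * ipn u'.1.2 v.1.2
          + u'.2 * starRingEnd ℂ v.2 * ipn u.1.2 v'.1.2
          + u'.2 * starRingEnd ℂ v'.2 * ipn u.1.2 v.1.2) := by
  have e : pr (gGam A s c1 c2 a3 u u') = mGam A s c1 c2 a3 (pr u) (pr u') := rfl
  have e' : pr (gGam A s c1 c2 a3 v v') = mGam A s c1 c2 a3 (pr v) (pr v') := rfl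
  have e2 : (gGam A s c1 c2 a3 u u').1.2 = ((1 + s : ℝ) : ℂ) • (u.2 • u'.1.2 + u'.2 • u.1.2) := rfl
  have e2' : (gGam A s c1 c2 a3 v v').1.2 = ((1 + s : ℝ) : ℂ) • (v.2 • v'.1.2 + v'.2 • v.1.2) := rfl
  unfold g11
  rw [e, e', e2, e2']
  simp only [ag_ipn_smul_left, ag_ipn_add_left, ag_ipn_smul_right, ag_ipn_add_right,
    Complex.conj_ofReal]
  push_cast
  ring

/-- the pure real polynomial identity behind `gN_eq` -/
private theorem ag_core (s c1 c2 p q : ℝ) (a1 a2 b1 b2 l n r : ℂ) :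
    (((s : ℂ) * (1 + s) * (1 + 2 * s) * (4 * (r * l * starRingEnd ℂ n))
        + s * (1 + s) * (4 * ((c1 * a1 * starRingEnd ℂ b1 + c2 * a2 * starRingEnd ℂ b2) * r))
        + s ^ 2 * (2 * r ^ 2)).re) * 2
      - 2 * (((s : ℂ) * (1 + s) * (1 + 2 * s) *
          (p * n * starRingEnd ℂ n + r * n * starRingEnd ℂ l
            + starRingEnd ℂ r * l * starRingEnd ℂ n + q * l * starRingEnd ℂ l)
        + s * (1 + s) *
          ((c1 * a1 * starRingEnd ℂ a1 + c2 * a2 * starRingEnd ℂ a2) * q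
            + p * (c1 * b1 * starRingEnd ℂ b1 + c2 * b2 * starRingEnd ℂ b2)
            + (c1 * a1 * starRingEnd ℂ b1 + c2 * a2 * starRingEnd ℂ b2) * starRingEnd ℂ r
            + r * (c1 * b1 * starRingEnd ℂ a1 + c2 * b2 * starRingEnd ℂ a2))
        + s ^ 2 * (p * q + r * starRingEnd ℂ r)).re)
      + 2 * (((s : ℂ) * (1 + s) ^ 2 *
        (l * starRingEnd ℂ l * q + l * starRingEnd ℂ n * starRingEnd ℂ r
          + n * starRingEnd ℂ l * r + n * starRingEnd ℂ n * p)).re)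
      - 2 * (((s : ℂ) * (1 + s) ^ 2 * (4 * (l * starRingEnd ℂ n * r))).re)
      = -s ^ 2 * ((2 * r.im) ^ 2 + 2 * (p * q - (r ^ 2).re))
        - 2 * s * (1 + s) * (c1 * (2 * (a1 * starRingEnd ℂ b1).im)
            + c2 * (2 * (a2 * starRingEnd ℂ b2).im)) * (2 * r.im)
        - 2 * s * (1 + s) * (c1 * (normSq a1 * q + normSq b1 * p
              - 2 * (a1 * starRingEnd ℂ b1 * r).re)
            + c2 * (normSq a2 * q + normSq b2 * p - 2 * (a2 * starRingEnd ℂ b2 * r).re))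
        - 2 * s * (2 * (s * (1 + s)) * (l * starRingEnd ℂ n).im) * (2 * r.im)
        - 2 * s * (s * (1 + s) * (normSq l * q + normSq n * p
              - 2 * (l * starRingEnd ℂ n * r).re)) := by
  simp only [Complex.normSq_apply, pow_two, Complex.add_re, Complex.add_im, Complex.mul_re,
    Complex.mul_im, Complex.conj_re, Complex.conj_im, Complex.ofReal_re, Complex.ofReal_im,
    Complex.one_re, Complex.one_im, Complex.re_ofNat, Complex.im_ofNat]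
  ring

/-- `2 gN = 2 mN + Qextra` (polynomial identity; everything depends on the tangential parts only
through `p = |ν|²`, `q = |ν'|²`, `r = ⟨ν, ν'⟩`; numerically verified). -/
theorem gN_eq {A s c1 c2 : ℝ} (hA : 0 < A) (hs : 0 < s) (h1 : 0 < c1) (h2 : 0 < c2)
    (a3 : Fin 2 → Fin 2 → Fin 2 → ℂ) (a4 : Fin 2 → Fin 2 → Fin 2 → Fin 2 → ℂ) {m : ℕ}
    (u v : TV m) :
    2 * gN A s c1 c2 a3 a4 u v = 2 * mN A s c1 c2 a3 a4 (pr u) (pr v) +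
      Qextra s c1 c2 (c1 * (2 * (u.1.1.1 * starRingEnd ℂ v.1.1.1).im)
          + c2 * (2 * (u.1.1.2 * starRingEnd ℂ v.1.1.2).im))
        (2 * (s * (1 + s)) * (u.2 * starRingEnd ℂ v.2).im) (gT u v) (gV2 u v)
        (gcr u.1.1.1 v.1.1.1 u v) (gcr u.1.1.2 v.1.1.2 u v) (s * (1 + s) * gcr u.2 v.2 u v) := by
  have hcore := ag_core s c1 c2 (‖u.1.2‖ ^ 2) (‖v.1.2‖ ^ 2) u.1.1.1 u.1.1.2 v.1.1.1 v.1.1.2
    u.2 v.2 (ipn u.1.2 v.1.2)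
  simp only [Complex.normSq_eq_norm_sq] at hcore
  have hQ : Qextra s c1 c2 (c1 * (2 * (u.1.1.1 * starRingEnd ℂ v.1.1.1).im)
          + c2 * (2 * (u.1.1.2 * starRingEnd ℂ v.1.1.2).im))
        (2 * (s * (1 + s)) * (u.2 * starRingEnd ℂ v.2).im) (gT u v) (gV2 u v)
        (gcr u.1.1.1 v.1.1.1 u v) (gcr u.1.1.2 v.1.1.2 u v) (s * (1 + s) * gcr u.2 v.2 u v) =
      -s ^ 2 * ((2 * (ipn u.1.2 v.1.2).im) ^ 2
          + 2 * (‖u.1.2‖ ^ 2 * ‖v.1.2‖ ^ 2 - ((ipn u.1.2 v.1.2) ^ 2).re))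
        - 2 * s * (1 + s) * (c1 * (2 * (u.1.1.1 * starRingEnd ℂ v.1.1.1).im)
            + c2 * (2 * (u.1.1.2 * starRingEnd ℂ v.1.1.2).im)) * (2 * (ipn u.1.2 v.1.2).im)
        - 2 * s * (1 + s) * (c1 * (‖u.1.1.1‖ ^ 2 * ‖v.1.2‖ ^ 2 + ‖v.1.1.1‖ ^ 2 * ‖u.1.2‖ ^ 2
              - 2 * (u.1.1.1 * starRingEnd ℂ v.1.1.1 * ipn u.1.2 v.1.2).re)
            + c2 * (‖u.1.1.2‖ ^ 2 * ‖v.1.2‖ ^ 2 + ‖v.1.1.2‖ ^ 2 * ‖u.1.2‖ ^ 2
              - 2 * (u.1.1.2 * starRingEnd ℂ v.1.1.2 * ipn u.1.2 v.1.2).re))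
        - 2 * s * (2 * (s * (1 + s)) * (u.2 * starRingEnd ℂ v.2).im) * (2 * (ipn u.1.2 v.1.2).im)
        - 2 * s * (s * (1 + s) * (‖u.2‖ ^ 2 * ‖v.1.2‖ ^ 2 + ‖v.2‖ ^ 2 * ‖u.1.2‖ ^ 2
              - 2 * (u.2 * starRingEnd ℂ v.2 * ipn u.1.2 v.1.2).re)) := rfl
  rw [hQ, ← hcore]
  have e1 := congrArg Complex.re (ag_g22_split A s c1 c2 a3 a4 u u v v)
  have e2 := congrArg Complex.re (ag_g22_split A s c1 c2 a3 a4 v v u u)
  have e3 := congrArg Complex.re (ag_g22_split A s c1 c2 a3 a4 u v u v)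
  have e4 := congrArg Complex.re (ag_g11_split A s c1 c2 a3 u v u v)
  have e5 := congrArg Complex.re (ag_g11_split A s c1 c2 a3 u u v v)
  rw [Complex.add_re] at e1 e2 e3 e4 e5
  unfold gN mN
  rw [e1, e2, e3, e4, e5]
  have f1 : (s * (1 + s) * (1 + 2 * s) *
          (ipn u.1.2 v.1.2 * u.2 * starRingEnd ℂ v.2
            + ipn u.1.2 v.1.2 * u.2 * starRingEnd ℂ v.2
            + ipn u.1.2 v.1.2 * u.2 * starRingEnd ℂ v.2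
            + ipn u.1.2 v.1.2 * u.2 * starRingEnd ℂ v.2)
        + s * (1 + s) *
          (cdiag c1 c2 u.1.1 v.1.1 * ipn u.1.2 v.1.2 + ipn u.1.2 v.1.2 * cdiag c1 c2 u.1.1 v.1.1
            + cdiag c1 c2 u.1.1 v.1.1 * ipn u.1.2 v.1.2
            + ipn u.1.2 v.1.2 * cdiag c1 c2 u.1.1 v.1.1)
        + s ^ 2 * (ipn u.1.2 v.1.2 * ipn u.1.2 v.1.2 + ipn u.1.2 v.1.2 * ipn u.1.2 v.1.2) : ℂ) =
      (s : ℂ) * (1 + s) * (1 + 2 * s) * (4 * (ipn u.1.2 v.1.2 * u.2 * starRingEnd ℂ v.2))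
        + s * (1 + s) * (4 * ((c1 * u.1.1.1 * starRingEnd ℂ v.1.1.1
          + c2 * u.1.1.2 * starRingEnd ℂ v.1.1.2) * ipn u.1.2 v.1.2))
        + s ^ 2 * (2 * (ipn u.1.2 v.1.2) ^ 2) := by
    unfold cdiag; ring
  have f2 : (s * (1 + s) * (1 + 2 * s) *
          (ipn v.1.2 u.1.2 * v.2 * starRingEnd ℂ u.2
            + ipn v.1.2 u.1.2 * v.2 * starRingEnd ℂ u.2
            + ipn v.1.2 u.1.2 * v.2 * starRingEnd ℂ u.2
            + ipn v.1.2 u.1.2 * v.2 * starRingEnd ℂ u.2)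
        + s * (1 + s) *
          (cdiag c1 c2 v.1.1 u.1.1 * ipn v.1.2 u.1.2 + ipn v.1.2 u.1.2 * cdiag c1 c2 v.1.1 u.1.1
            + cdiag c1 c2 v.1.1 u.1.1 * ipn v.1.2 u.1.2
            + ipn v.1.2 u.1.2 * cdiag c1 c2 v.1.1 u.1.1)
        + s ^ 2 * (ipn v.1.2 u.1.2 * ipn v.1.2 u.1.2 + ipn v.1.2 u.1.2 * ipn v.1.2 u.1.2) : ℂ) =
      starRingEnd ℂ ((s : ℂ) * (1 + s) * (1 + 2 * s) *
          (4 * (ipn u.1.2 v.1.2 * u.2 * starRingEnd ℂ v.2))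
        + s * (1 + s) * (4 * ((c1 * u.1.1.1 * starRingEnd ℂ v.1.1.1
          + c2 * u.1.1.2 * starRingEnd ℂ v.1.1.2) * ipn u.1.2 v.1.2))
        + s ^ 2 * (2 * (ipn u.1.2 v.1.2) ^ 2)) := by
    rw [← ag_ipn_conj u.1.2 v.1.2]
    unfold cdiag
    simp only [map_add, map_mul, map_pow, map_one, map_ofNat, Complex.conj_conj,
      Complex.conj_ofReal]
    ring
  have f3 : (s * (1 + s) * (1 + 2 * s) *
          (ipn u.1.2 u.1.2 * v.2 * starRingEnd ℂ v.2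
            + ipn u.1.2 v.1.2 * v.2 * starRingEnd ℂ u.2
            + ipn v.1.2 u.1.2 * u.2 * starRingEnd ℂ v.2
            + ipn v.1.2 v.1.2 * u.2 * starRingEnd ℂ u.2)
        + s * (1 + s) *
          (cdiag c1 c2 u.1.1 u.1.1 * ipn v.1.2 v.1.2 + ipn u.1.2 u.1.2 * cdiag c1 c2 v.1.1 v.1.1
            + cdiag c1 c2 u.1.1 v.1.1 * ipn v.1.2 u.1.2
            + ipn u.1.2 v.1.2 * cdiag c1 c2 v.1.1 u.1.1)
        + s ^ 2 * (ipn u.1.2 u.1.2 * ipn v.1.2 v.1.2 + ipn u.1.2 v.1.2 * ipn v.1.2 u.1.2) : ℂ) =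
      ((s : ℂ) * (1 + s) * (1 + 2 * s) *
          ((‖u.1.2‖ ^ 2 : ℝ) * v.2 * starRingEnd ℂ v.2 + ipn u.1.2 v.1.2 * v.2 * starRingEnd ℂ u.2
            + starRingEnd ℂ (ipn u.1.2 v.1.2) * u.2 * starRingEnd ℂ v.2
            + (‖v.1.2‖ ^ 2 : ℝ) * u.2 * starRingEnd ℂ u.2)
        + s * (1 + s) *
          ((c1 * u.1.1.1 * starRingEnd ℂ u.1.1.1 + c2 * u.1.1.2 * starRingEnd ℂ u.1.1.2)
              * (‖v.1.2‖ ^ 2 : ℝ)
            + (‖u.1.2‖ ^ 2 : ℝ) * (c1 * v.1.1.1 * starRingEnd ℂ v.1.1.1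
              + c2 * v.1.1.2 * starRingEnd ℂ v.1.1.2)
            + (c1 * u.1.1.1 * starRingEnd ℂ v.1.1.1 + c2 * u.1.1.2 * starRingEnd ℂ v.1.1.2)
              * starRingEnd ℂ (ipn u.1.2 v.1.2)
            + ipn u.1.2 v.1.2 * (c1 * v.1.1.1 * starRingEnd ℂ u.1.1.1
              + c2 * v.1.1.2 * starRingEnd ℂ u.1.1.2))
        + s ^ 2 * ((‖u.1.2‖ ^ 2 : ℝ) * (‖v.1.2‖ ^ 2 : ℝ)
            + ipn u.1.2 v.1.2 * starRingEnd ℂ (ipn u.1.2 v.1.2))) := by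
    rw [← ag_ipn_conj u.1.2 v.1.2, ag_ipn_self, ag_ipn_self]
    unfold cdiag
    ring
  have f4 : (s * (1 + s) ^ 2 *
        (u.2 * starRingEnd ℂ u.2 * ipn v.1.2 v.1.2 + u.2 * starRingEnd ℂ v.2 * ipn v.1.2 u.1.2
          + v.2 * starRingEnd ℂ u.2 * ipn u.1.2 v.1.2
          + v.2 * starRingEnd ℂ v.2 * ipn u.1.2 u.1.2) : ℂ) =
      ((s : ℂ) * (1 + s) ^ 2 *
        (u.2 * starRingEnd ℂ u.2 * (‖v.1.2‖ ^ 2 : ℝ)
          + u.2 * starRingEnd ℂ v.2 * starRingEnd ℂ (ipn u.1.2 v.1.2)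
          + v.2 * starRingEnd ℂ u.2 * ipn u.1.2 v.1.2
          + v.2 * starRingEnd ℂ v.2 * (‖u.1.2‖ ^ 2 : ℝ))) := by
    rw [← ag_ipn_conj u.1.2 v.1.2, ag_ipn_self, ag_ipn_self]
  have f5 : (s * (1 + s) ^ 2 *
        (u.2 * starRingEnd ℂ v.2 * ipn u.1.2 v.1.2 + u.2 * starRingEnd ℂ v.2 * ipn u.1.2 v.1.2
          + u.2 * starRingEnd ℂ v.2 * ipn u.1.2 v.1.2
          + u.2 * starRingEnd ℂ v.2 * ipn u.1.2 v.1.2) : ℂ) =
      ((s : ℂ) * (1 + s) ^ 2 * (4 * (u.2 * starRingEnd ℂ v.2 * ipn u.1.2 v.1.2))) := by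
    ring
  rw [f1, f2, f3, f4, f5, Complex.conj_re]
  ring

/-- sign facts -/
theorem gV2_ge {m : ℕ} (u v : TV m) : gT u v ^ 2 ≤ gV2 u v := by
  have h := ag_ipn_cs u.1.2 v.1.2
  have h2 : ‖ipn u.1.2 v.1.2‖ ^ 2 ≤ (‖u.1.2‖ * ‖v.1.2‖) ^ 2 :=
    pow_le_pow_left₀ (norm_nonneg _) h 2
  rw [← Complex.normSq_eq_norm_sq, Complex.normSq_apply] at h2
  unfold gT gV2
  rw [pow_two (ipn u.1.2 v.1.2), Complex.mul_re]
  nlinarith

private theorem ag_cross {m : ℕ} (a b : ℂ) (u v : TV m) (r : ℂ) (hr : ‖r‖ ≤ ‖u.1.2‖ * ‖v.1.2‖) :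
    0 ≤ ‖a‖ ^ 2 * ‖v.1.2‖ ^ 2 + ‖b‖ ^ 2 * ‖u.1.2‖ ^ 2 - 2 * (a * starRingEnd ℂ b * r).re := by
  have h1 : (a * starRingEnd ℂ b * r).re ≤ ‖a‖ * ‖b‖ * (‖u.1.2‖ * ‖v.1.2‖) := by
    refine (Complex.re_le_norm _).trans ?_
    rw [norm_mul, norm_mul, Complex.norm_conj]
    exact mul_le_mul_of_nonneg_left hr (by positivity)
  nlinarith [sq_nonneg (‖a‖ * ‖v.1.2‖ - ‖b‖ * ‖u.1.2‖)]

theorem gcr_nonneg {m : ℕ} (a b : ℂ) (u v : TV m) : 0 ≤ gcr a b u v := by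
  unfold gcr
  exact ag_cross a b u v _ (ag_ipn_cs _ _)

private theorem ag_m11_re (A s c1 c2 : ℝ) (u v : (ℂ × ℂ) × ℂ) :
    (m11 A s c1 c2 u v).re = (A + s * c1) * (u.1.1.re * v.1.1.re + u.1.1.im * v.1.1.im)
      + (A + s * c2) * (u.1.2.re * v.1.2.re + u.1.2.im * v.1.2.im)
      + s * (1 + s) * (u.2.re * v.2.re + u.2.im * v.2.im) := by
  simp [m11, ip, cdiag]
  ring

private theorem ag_ns_sub (a b c d : ℂ) :
    ‖a * starRingEnd ℂ b - c * starRingEnd ℂ d‖ ^ 2 =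
      (a.re * b.re + a.im * b.im - c.re * d.re - c.im * d.im) ^ 2
        + (a.im * b.re - a.re * b.im - c.im * d.re + c.re * d.im) ^ 2 := by
  rw [← Complex.normSq_eq_norm_sq, Complex.normSq_apply]
  simp
  ring

/-- the imaginary part of `m11` -/
private def ag_mim (A s c1 c2 : ℝ) (u v : (ℂ × ℂ) × ℂ) : ℝ :=
  (A + s * c1) * (u.1.1.im * v.1.1.re - u.1.1.re * v.1.1.im)
      + (A + s * c2) * (u.1.2.im * v.1.2.re - u.1.2.re * v.1.2.im)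
      + s * (1 + s) * (u.2.im * v.2.re - u.2.re * v.2.im)

private theorem ag_Hnorm_eq (A s c1 c2 : ℝ) (u v : (ℂ × ℂ) × ℂ) :
    Hnorm A s c1 c2 (2 * (u.1.1 * starRingEnd ℂ v.1.1).im) (2 * (u.1.2 * starRingEnd ℂ v.1.2).im)
        (‖u.1.1 * starRingEnd ℂ v.1.2 - v.1.1 * starRingEnd ℂ u.1.2‖ ^ 2)
        (s * (1 + s) * ‖u.1.1 * starRingEnd ℂ v.2 - v.1.1 * starRingEnd ℂ u.2‖ ^ 2)
        (s * (1 + s) * ‖u.1.2 * starRingEnd ℂ v.2 - v.1.2 * starRingEnd ℂ u.2‖ ^ 2)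
        (2 * (s * (1 + s)) * (u.2 * starRingEnd ℂ v.2).im) =
      2 * mArea A s c1 c2 u v + 2 * ag_mim A s c1 c2 u v ^ 2 := by
  rw [ag_ns_sub, ag_ns_sub, ag_ns_sub]
  unfold Hnorm mArea ag_mim
  rw [ag_m11_re, ag_m11_re, ag_m11_re]
  simp only [Complex.mul_im, Complex.conj_re, Complex.conj_im]
  ring

/-- the squared area of the general metric, expanded -/
private theorem ag_gArea (A s c1 c2 : ℝ) {m : ℕ} (u v : TV m) :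
    gArea A s c1 c2 u v =
      ((m11 A s c1 c2 (pr u) (pr u)).re + s * ‖u.1.2‖ ^ 2)
        * ((m11 A s c1 c2 (pr v) (pr v)).re + s * ‖v.1.2‖ ^ 2)
      - ((m11 A s c1 c2 (pr u) (pr v)).re + s * (ipn u.1.2 v.1.2).re) ^ 2 := by
  have e : ∀ (r : ℝ) (z w : ℂ), (z + (r : ℂ) * w).re = z.re + r * w.re := fun r z w => by simp
  unfold gArea g11
  rw [e, e, e, ag_ipn_self, ag_ipn_self, Complex.ofReal_re, Complex.ofReal_re]

/-- expansion of the sum of the three cross terms, `σ = 1` for `r`, `σ = -1` for `conj r` -/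
private theorem ag_cross_sum (A s c1 c2 σ : ℝ) {m : ℕ} (u v : TV m) (r : ℂ) :
    (A + s * c1) * (‖u.1.1.1‖ ^ 2 * ‖v.1.2‖ ^ 2 + ‖v.1.1.1‖ ^ 2 * ‖u.1.2‖ ^ 2
        - 2 * (u.1.1.1 * starRingEnd ℂ v.1.1.1 * (⟨r.re, σ * r.im⟩ : ℂ)).re)
      + (A + s * c2) * (‖u.1.1.2‖ ^ 2 * ‖v.1.2‖ ^ 2 + ‖v.1.1.2‖ ^ 2 * ‖u.1.2‖ ^ 2
        - 2 * (u.1.1.2 * starRingEnd ℂ v.1.1.2 * (⟨r.re, σ * r.im⟩ : ℂ)).re)
      + s * (1 + s) * (‖u.2‖ ^ 2 * ‖v.1.2‖ ^ 2 + ‖v.2‖ ^ 2 * ‖u.1.2‖ ^ 2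
        - 2 * (u.2 * starRingEnd ℂ v.2 * (⟨r.re, σ * r.im⟩ : ℂ)).re)
    = (m11 A s c1 c2 (pr u) (pr u)).re * ‖v.1.2‖ ^ 2 + (m11 A s c1 c2 (pr v) (pr v)).re * ‖u.1.2‖ ^ 2
      - 2 * ((m11 A s c1 c2 (pr u) (pr v)).re * r.re
        - σ * (ag_mim A s c1 c2 (pr u) (pr v)) * r.im) := by
  rw [ag_m11_re, ag_m11_re, ag_m11_re]
  unfold ag_mim pr
  simp only [← Complex.normSq_eq_norm_sq, Complex.normSq_apply, Complex.mul_re, Complex.mul_im,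
    Complex.conj_re, Complex.conj_im]
  ring

/-- `2 area ≤ |H|² ≤ 4 area`: `|H|² = 2 (|u|²|v|² - Re (h(u,v)²))` in the metric `g11`. -/
theorem Hnorm_area_g {A s c1 c2 : ℝ} (hA : 0 < A) (hs : 0 < s) (h1 : 0 < c1) (h2 : 0 < c2)
    {m : ℕ} (u v : TV m) (H : ℝ)
    (hH : H = Hnorm A s c1 c2 (2 * (u.1.1.1 * starRingEnd ℂ v.1.1.1).im)
        (2 * (u.1.1.2 * starRingEnd ℂ v.1.1.2).im)
        (‖u.1.1.1 * starRingEnd ℂ v.1.1.2 - v.1.1.1 * starRingEnd ℂ u.1.1.2‖ ^ 2)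
        (s * (1 + s) * ‖u.1.1.1 * starRingEnd ℂ v.2 - v.1.1.1 * starRingEnd ℂ u.2‖ ^ 2)
        (s * (1 + s) * ‖u.1.1.2 * starRingEnd ℂ v.2 - v.1.1.2 * starRingEnd ℂ u.2‖ ^ 2)
        (2 * (s * (1 + s)) * (u.2 * starRingEnd ℂ v.2).im) +
      Hextra A s c1 c2 (gV2 u v) (gcr u.1.1.1 v.1.1.1 u v) (gcr u.1.1.2 v.1.1.2 u v)
        (s * (1 + s) * gcr u.2 v.2 u v)) :
    2 * gArea A s c1 c2 u v ≤ H ∧ H ≤ 4 * gArea A s c1 c2 u v := by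
  have g1 : (0 : ℝ) < A + s * c1 := by positivity
  have g2 : (0 : ℝ) < A + s * c2 := by positivity
  have g3 : (0 : ℝ) < s * (1 + s) := by positivity
  set r := ipn u.1.2 v.1.2 with hr
  have hrn : ‖r‖ ≤ ‖u.1.2‖ * ‖v.1.2‖ := ag_ipn_cs _ _
  have hrn2 : r.re ^ 2 + r.im ^ 2 ≤ ‖u.1.2‖ ^ 2 * ‖v.1.2‖ ^ 2 := by
    have h := pow_le_pow_left₀ (norm_nonneg _) hrn 2
    rw [← Complex.normSq_eq_norm_sq, Complex.normSq_apply] at h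
    nlinarith
  have er : (⟨r.re, 1 * r.im⟩ : ℂ) = r := by apply Complex.ext <;> simp
  have er' : (⟨r.re, -1 * r.im⟩ : ℂ) = starRingEnd ℂ r := by apply Complex.ext <;> simp
  -- the value of `H`
  have hHn := ag_Hnorm_eq A s c1 c2 (pr u) (pr v)
  have hcs := ag_cross_sum A s c1 c2 1 u v r
  rw [er] at hcs
  have hcs' := ag_cross_sum A s c1 c2 (-1) u v r
  rw [er'] at hcs'
  have hpos : 0 ≤ (A + s * c1) * (‖u.1.1.1‖ ^ 2 * ‖v.1.2‖ ^ 2 + ‖v.1.1.1‖ ^ 2 * ‖u.1.2‖ ^ 2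
        - 2 * (u.1.1.1 * starRingEnd ℂ v.1.1.1 * starRingEnd ℂ r).re)
      + (A + s * c2) * (‖u.1.1.2‖ ^ 2 * ‖v.1.2‖ ^ 2 + ‖v.1.1.2‖ ^ 2 * ‖u.1.2‖ ^ 2
        - 2 * (u.1.1.2 * starRingEnd ℂ v.1.1.2 * starRingEnd ℂ r).re)
      + s * (1 + s) * (‖u.2‖ ^ 2 * ‖v.1.2‖ ^ 2 + ‖v.2‖ ^ 2 * ‖u.1.2‖ ^ 2
        - 2 * (u.2 * starRingEnd ℂ v.2 * starRingEnd ℂ r).re) := by
    have hrc : ‖starRingEnd ℂ r‖ ≤ ‖u.1.2‖ * ‖v.1.2‖ := by rw [Complex.norm_conj]; exact hrn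
    have k1 := mul_nonneg g1.le (ag_cross u.1.1.1 v.1.1.1 u v _ hrc)
    have k2 := mul_nonneg g2.le (ag_cross u.1.1.2 v.1.1.2 u v _ hrc)
    have k3 := mul_nonneg g3.le (ag_cross u.2 v.2 u v _ hrc)
    linarith
  rw [hcs'] at hpos
  have hmA : ag_mim A s c1 c2 (pr u) (pr v) ^ 2 ≤ mArea A s c1 c2 (pr u) (pr v) := by
    have h := (Hnorm_area hA hs h1 h2 (pr u) (pr v)).2
    rw [hHn] at h
    linarith
  have hH2 : H = 2 * mArea A s c1 c2 (pr u) (pr v) + 2 * ag_mim A s c1 c2 (pr u) (pr v) ^ 2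
      + (2 * s ^ 2 * (‖u.1.2‖ ^ 2 * ‖v.1.2‖ ^ 2 - r.re ^ 2 + r.im ^ 2)
      + 2 * s * ((m11 A s c1 c2 (pr u) (pr u)).re * ‖v.1.2‖ ^ 2
          + (m11 A s c1 c2 (pr v) (pr v)).re * ‖u.1.2‖ ^ 2
          - 2 * ((m11 A s c1 c2 (pr u) (pr v)).re * r.re
          - 1 * (ag_mim A s c1 c2 (pr u) (pr v)) * r.im))) := by
    rw [hH, ← hHn, ← hcs]
    have e0 : (r ^ 2).re = r.re ^ 2 - r.im ^ 2 := by rw [pow_two, Complex.mul_re]; ring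
    unfold Hextra gV2 gcr pr
    rw [← hr, e0]
    ring
  have hg := ag_gArea A s c1 c2 u v
  rw [← hr] at hg
  have hm : mArea A s c1 c2 (pr u) (pr v) = (m11 A s c1 c2 (pr u) (pr u)).re *
      (m11 A s c1 c2 (pr v) (pr v)).re - (m11 A s c1 c2 (pr u) (pr v)).re ^ 2 := rfl
  have hH3 : H = 2 * gArea A s c1 c2 u v
      + 2 * (ag_mim A s c1 c2 (pr u) (pr v) + s * r.im) ^ 2 := by
    rw [hH2, hg, hm]
    ring
  have hle : (ag_mim A s c1 c2 (pr u) (pr v) + s * r.im) ^ 2 ≤ gArea A s c1 c2 u v := by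
    have e : gArea A s c1 c2 u v - (ag_mim A s c1 c2 (pr u) (pr v) + s * r.im) ^ 2 =
        (mArea A s c1 c2 (pr u) (pr v) - ag_mim A s c1 c2 (pr u) (pr v) ^ 2)
        + s ^ 2 * (‖u.1.2‖ ^ 2 * ‖v.1.2‖ ^ 2 - (r.re ^ 2 + r.im ^ 2))
        + s * ((m11 A s c1 c2 (pr u) (pr u)).re * ‖v.1.2‖ ^ 2
          + (m11 A s c1 c2 (pr v) (pr v)).re * ‖u.1.2‖ ^ 2
          - 2 * ((m11 A s c1 c2 (pr u) (pr v)).re * r.re
          - (-1) * (ag_mim A s c1 c2 (pr u) (pr v)) * r.im)) := by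
      rw [hg, hm]
      ring
    have k1 : 0 ≤ mArea A s c1 c2 (pr u) (pr v) - ag_mim A s c1 c2 (pr u) (pr v) ^ 2 := by linarith
    have k2 : 0 ≤ s ^ 2 * (‖u.1.2‖ ^ 2 * ‖v.1.2‖ ^ 2 - (r.re ^ 2 + r.im ^ 2)) :=
      mul_nonneg (by positivity) (by linarith)
    have k3 := mul_nonneg hs.le hpos
    linarith
  have hsq := sq_nonneg (ag_mim A s c1 c2 (pr u) (pr v) + s * r.im)
  constructor <;> linarith

end P250
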