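import Vale.Agent.Lib.P250.AlgD
import Vale.Agent.Lib.P250.G.AlgGdefs

/-! # P250-G module AlgG3: lower bound (adapt `AlgD.lean`) -/

open Complex

namespace P250

private theorem algG3_cross {s Y T V2 : ℝ} (hT : T ^ 2 ≤ V2) :
    2 * s * (1 + s) * Y * T ≤ s ^ 2 * V2 + (1 + s) ^ 2 * Y ^ 2 := by
  have h1 : s ^ 2 * T ^ 2 ≤ s ^ 2 * V2 := mul_le_mul_of_nonneg_left hT (sq_nonneg s)
  nlinarith [sq_nonneg (s * T - (1 + s) * Y)]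

private theorem algG3_tT {s t T V2 : ℝ} (hT : T ^ 2 ≤ V2) :
    2 * s * t * T ≤ s ^ 2 * V2 + t ^ 2 := by
  have h1 : s ^ 2 * T ^ 2 ≤ s ^ 2 * V2 := mul_le_mul_of_nonneg_left hT (sq_nonneg s)
  nlinarith [sq_nonneg (s * T - t)]

private theorem algG3_c {A s c C1 : ℝ} (hA : 0 < A) (hs : 0 < s) (hc : 0 < c) (hC : c ≤ C1) :
    (1 + s) * c ≤ (C1 / A + 1) * (A + s * c) := by
  have h1 : (C1 / A + 1) * (A + s * c) = C1 + C1 / A * (s * c) + A + s * c := by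
    field_simp
    ring
  have h2 : 0 ≤ C1 / A * (s * c) := by
    have : 0 < C1 := hc.trans_le hC
    positivity
  rw [h1]
  nlinarith

private theorem algG3_ha {K s g1 g2 d1 d2 ha1 ha2 : ℝ} (hs : 0 < s) (k1 : (1 + s) * d1 ≤ K * g1)
    (k2 : (1 + s) * d2 ≤ K * g2) (hh1 : 0 ≤ ha1) (hh2 : 0 ≤ ha2) :
    2 * s * (1 + s) * (d1 * ha1 + d2 * ha2) ≤ K * (2 * s * (g1 * ha1 + g2 * ha2)) := by
  have a1 : (1 + s) * d1 * ha1 ≤ K * g1 * ha1 := mul_le_mul_of_nonneg_right k1 hh1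
  have a2 : (1 + s) * d2 * ha2 ≤ K * g2 * ha2 := mul_le_mul_of_nonneg_right k2 hh2
  have a3 : 2 * s * ((1 + s) * d1 * ha1 + (1 + s) * d2 * ha2) ≤
      2 * s * (K * g1 * ha1 + K * g2 * ha2) :=
    mul_le_mul_of_nonneg_left (add_le_add a1 a2) (by positivity)
  calc 2 * s * (1 + s) * (d1 * ha1 + d2 * ha2)
      = 2 * s * ((1 + s) * d1 * ha1 + (1 + s) * d2 * ha2) := by ring
    _ ≤ 2 * s * (K * g1 * ha1 + K * g2 * ha2) := a3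
    _ = K * (2 * s * (g1 * ha1 + g2 * ha2)) := by ring

private theorem algG3_Y {K s g1 g2 d1 d2 B1 B2 : ℝ} (hs : 0 < s) (hd1 : 0 < d1) (hd2 : 0 < d2)
    (k1 : (1 + s) * d1 ≤ K * g1) (k2 : (1 + s) * d2 ≤ K * g2) :
    (1 + s) ^ 2 * (d1 * B1 + d2 * B2) ^ 2 ≤ 2 * K ^ 2 * (g1 ^ 2 * B1 ^ 2 + g2 ^ 2 * B2 ^ 2) := by
  have a1 : ((1 + s) * d1) ^ 2 ≤ (K * g1) ^ 2 := pow_le_pow_left₀ (by positivity) k1 2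
  have a2 : ((1 + s) * d2) ^ 2 ≤ (K * g2) ^ 2 := pow_le_pow_left₀ (by positivity) k2 2
  have a3 : ((1 + s) * d1) ^ 2 * B1 ^ 2 ≤ (K * g1) ^ 2 * B1 ^ 2 :=
    mul_le_mul_of_nonneg_right a1 (sq_nonneg _)
  have a4 : ((1 + s) * d2) ^ 2 * B2 ^ 2 ≤ (K * g2) ^ 2 * B2 ^ 2 :=
    mul_le_mul_of_nonneg_right a2 (sq_nonneg _)
  have a5 : (1 + s) ^ 2 * (d1 * B1 + d2 * B2) ^ 2 =
      2 * (((1 + s) * d1) ^ 2 * B1 ^ 2 + ((1 + s) * d2) ^ 2 * B2 ^ 2)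
        - ((1 + s) * d1 * B1 - (1 + s) * d2 * B2) ^ 2 := by ring
  have a6 : 2 * ((K * g1) ^ 2 * B1 ^ 2 + (K * g2) ^ 2 * B2 ^ 2) =
      2 * K ^ 2 * (g1 ^ 2 * B1 ^ 2 + g2 ^ 2 * B2 ^ 2) := by ring
  have a7 := sq_nonneg ((1 + s) * d1 * B1 - (1 + s) * d2 * B2)
  linarith

private theorem algG3_extra {A s c1 c2 C1 K B11 B22 β η1 η2 t T V2 ha1 ha2 hv : ℝ} (hA : 0 < A)
    (hK : K = C1 / A + 1) (hC1 : 0 < C1) (hs : 0 < s) (hc1 : 0 < c1) (hc2 : 0 < c2)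
    (h1' : c1 ≤ C1) (h2' : c2 ≤ C1) (hβ : 0 ≤ β) (hη1 : 0 ≤ η1) (hη2 : 0 ≤ η2)
    (hT : T ^ 2 ≤ V2) (hh1 : 0 ≤ ha1) (hh2 : 0 ≤ ha2) (hhv : 0 ≤ hv) :
    0 ≤ Hnorm A s c1 c2 B11 B22 β η1 η2 t ∧ 0 ≤ Hextra A s c1 c2 V2 ha1 ha2 hv ∧
    -((5 + K) * Hextra A s c1 c2 V2 ha1 ha2 hv
      + (1 + 2 * K ^ 2) * Hnorm A s c1 c2 B11 B22 β η1 η2 t) ≤
      Qextra s c1 c2 (c1 * B11 + c2 * B22) t T V2 ha1 ha2 hv := by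
  have hK0 : 0 ≤ K := by rw [hK]; positivity
  have hV : 0 ≤ V2 := (sq_nonneg T).trans hT
  have k1 := algG3_c hA hs hc1 h1'
  have k2 := algG3_c hA hs hc2 h2'
  rw [← hK] at k1 k2
  have r0 := mul_le_mul_of_nonneg_left hT (sq_nonneg s)
  have r1 := algG3_tT (s := s) (t := t) hT
  have r2 := algG3_ha hs k1 k2 hh1 hh2
  have r3 := algG3_Y (B1 := B11) (B2 := B22) hs hc1 hc2 k1 k2
  have r4 := algG3_cross (s := s) (Y := c1 * B11 + c2 * B22) hT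
  have g1 : 0 < A + s * c1 := by positivity
  have g2 : 0 < A + s * c2 := by positivity
  have p1 : 0 ≤ (A + s * c1) ^ 2 * B11 ^ 2 := by positivity
  have p2 : 0 ≤ (A + s * c2) ^ 2 * B22 ^ 2 := by positivity
  have p3 : 0 ≤ 2 * (A + s * c1) * (A + s * c2) * β := by positivity
  have p4 : 0 ≤ 2 * ((A + s * c1) * η1 + (A + s * c2) * η2) := by positivity
  have p5 : 0 ≤ t ^ 2 := sq_nonneg t
  have q1 : 0 ≤ s ^ 2 * V2 := by positivity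
  have q2 : 0 ≤ 2 * s * ((A + s * c1) * ha1 + (A + s * c2) * ha2) := by positivity
  have q3 : 0 ≤ 2 * s * hv := by positivity
  clear k1 k2 g1 g2 hV hT hh1 hh2 hhv hη1 hη2 hβ h1' h2' hc1 hc2 hs hC1 hA
  unfold Hnorm Hextra Qextra
  obtain ⟨a1, ha1'⟩ : ∃ a : ℝ, a = (A + s * c1) ^ 2 * B11 ^ 2 := ⟨_, rfl⟩
  obtain ⟨a2, ha2'⟩ : ∃ a : ℝ, a = (A + s * c2) ^ 2 * B22 ^ 2 := ⟨_, rfl⟩
  obtain ⟨a3, ha3'⟩ : ∃ a : ℝ, a = 2 * (A + s * c1) * (A + s * c2) * β := ⟨_, rfl⟩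
  obtain ⟨a4, ha4'⟩ : ∃ a : ℝ, a = 2 * ((A + s * c1) * η1 + (A + s * c2) * η2) := ⟨_, rfl⟩
  obtain ⟨a6, ha6'⟩ : ∃ a : ℝ, a = 2 * s * ((A + s * c1) * ha1 + (A + s * c2) * ha2) := ⟨_, rfl⟩
  obtain ⟨a7, ha7'⟩ : ∃ a : ℝ, a = 2 * s * (1 + s) * (c1 * ha1 + c2 * ha2) := ⟨_, rfl⟩
  obtain ⟨a8, ha8'⟩ : ∃ a : ℝ, a = 2 * s * (1 + s) * (c1 * B11 + c2 * B22) * T := ⟨_, rfl⟩
  obtain ⟨a9, ha9'⟩ : ∃ a : ℝ, a = (1 + s) ^ 2 * (c1 * B11 + c2 * B22) ^ 2 := ⟨_, rfl⟩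
  rw [← ha9', ← ha1', ← ha2'] at r3
  rw [← ha8', ← ha9'] at r4
  rw [← ha7', ← ha6'] at r2
  rw [← ha1'] at p1
  rw [← ha2'] at p2
  rw [← ha3'] at p3
  rw [← ha4'] at p4
  rw [← ha6'] at q2
  rw [← ha1', ← ha2', ← ha3', ← ha4', ← ha6', ← ha7', ← ha8']
  have s1 : 0 ≤ K * (s ^ 2 * V2) := mul_nonneg hK0 q1
  have s2 : 0 ≤ K * (2 * s * hv) := mul_nonneg hK0 q3
  have s3 : 0 ≤ K ^ 2 * a3 := mul_nonneg (sq_nonneg K) p3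
  have s4 : 0 ≤ K ^ 2 * a4 := mul_nonneg (sq_nonneg K) p4
  have s5 : 0 ≤ K ^ 2 * t ^ 2 := mul_nonneg (sq_nonneg K) p5
  have e : -s ^ 2 * (T ^ 2 + V2) = -(s ^ 2 * T ^ 2) - s ^ 2 * V2 := by ring
  rw [e]
  refine ⟨by linarith, by linarith, ?_⟩
  have e2 : -((5 + K) * (s ^ 2 * V2 + a6 + 2 * s * hv)
      + (1 + 2 * K ^ 2) * (a1 + a2 + a3 + a4 + t ^ 2))
      = -5 * (s ^ 2 * V2) - 5 * a6 - 5 * (2 * s * hv) - K * (s ^ 2 * V2) - K * a6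
        - K * (2 * s * hv) - a1 - a2 - a3 - a4 - t ^ 2 - 2 * K ^ 2 * (a1 + a2)
        - 2 * (K ^ 2 * a3) - 2 * (K ^ 2 * a4) - 2 * (K ^ 2 * t ^ 2) := by ring
  rw [e2]
  linarith

theorem Qmain_lower_g (C2 c0 C1 : ℝ) (hC2 : 0 < C2) (hc0 : 0 < c0) (hC1 : c0 ≤ C1) (A : ℝ)
    (hA : 0 < A) : ∃ b : ℝ, 0 < b ∧ ∀ s c1 c2 : ℝ, 0 < s → c0 ≤ c1 →
    c0 ≤ c2 → c1 ≤ C1 → c2 ≤ C1 → ∀ B11 B22 β η1 η2 t err : ℝ, 0 ≤ β → 0 ≤ η1 → 0 ≤ η2 →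
    ∀ T V2 ha1 ha2 hv : ℝ, T ^ 2 ≤ V2 → 0 ≤ ha1 → 0 ≤ ha2 → 0 ≤ hv →
    |err| ≤ C2 * (s + s ^ 2 / (A + c0 * s)) * (B11 ^ 2 + B22 ^ 2 + 2 * β)
      + C2 * Real.sqrt (s * (1 + s)) * Real.sqrt (B11 ^ 2 + B22 ^ 2 + 2 * β)
        * Real.sqrt (η1 + η2) →
    -b * (Hnorm A s c1 c2 B11 B22 β η1 η2 t + Hextra A s c1 c2 V2 ha1 ha2 hv) ≤
      Qmain A s c1 c2 B11 B22 β η1 η2 t + err
        + Qextra s c1 c2 (c1 * B11 + c2 * B22) t T V2 ha1 ha2 hv := by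
  obtain ⟨b0, hb0, hlow⟩ := Qmain_lower C2 c0 C1 hC2 hc0 hC1 A hA
  have hC1p : 0 < C1 := hc0.trans_le hC1
  obtain ⟨K, hK⟩ : ∃ K : ℝ, K = C1 / A + 1 := ⟨_, rfl⟩
  have hK1 : 0 ≤ K := by rw [hK]; positivity
  refine ⟨b0 + (6 + K + 2 * K ^ 2), by positivity, ?_⟩
  intro s c1 c2 hs h1 h2 h1' h2' B11 B22 β η1 η2 t err hβ hη1 hη2 T V2 ha1 ha2 hv hT hh1 hh2 hhv
    herr
  have e0 := hlow s c1 c2 hs h1 h2 h1' h2' B11 B22 β η1 η2 t err hβ hη1 hη2 herr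
  obtain ⟨hH0, hX0, e1⟩ := algG3_extra (B11 := B11) (B22 := B22) (t := t) hA hK hC1p hs
    (hc0.trans_le h1) (hc0.trans_le h2) h1' h2' hβ hη1 hη2 hT hh1 hh2 hhv
  clear herr hlow hT hh1 hh2 hhv hβ hη1 hη2 h1 h2 h1' h2' hs
  obtain ⟨H, hH⟩ : ∃ H : ℝ, H = Hnorm A s c1 c2 B11 B22 β η1 η2 t := ⟨_, rfl⟩
  obtain ⟨X, hX⟩ : ∃ X : ℝ, X = Hextra A s c1 c2 V2 ha1 ha2 hv := ⟨_, rfl⟩
  rw [← hH] at e0 hH0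
  rw [← hX] at hX0
  rw [← hH, ← hX] at e1
  rw [← hH, ← hX]
  have f1 : 0 ≤ b0 * X := by positivity
  have f2 : 0 ≤ (5 + K) * H := by positivity
  have f3 : 0 ≤ (1 + 2 * K ^ 2) * X := by positivity
  have f4 : -(b0 + (6 + K + 2 * K ^ 2)) * (H + X) =
      -b0 * H - ((5 + K) * X + (1 + 2 * K ^ 2) * H)
        - b0 * X - (5 + K) * H - (1 + 2 * K ^ 2) * X := by ring
  rw [f4]
  linarith

end P250
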