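import Vale.Agent.Lib.P250.G.AlgG1
import Vale.Agent.Lib.P250.G.AlgG2
import Vale.Agent.Lib.P250.G.AlgG3

/-! # P250-G: pinching of the general model algebra (assembly) -/

open Complex

namespace P250

theorem model_algebra_g (c0 C1 : ℝ) (hc0 : 0 < c0) (hC1 : c0 ≤ C1) :
    ∃ A0 : ℝ, 0 < A0 ∧ ∀ A : ℝ, A0 ≤ A → ∃ a b : ℝ, 0 < a ∧ a ≤ b ∧
    ∀ s c1 c2 : ℝ, 0 < s → c0 ≤ c1 → c0 ≤ c2 → c1 ≤ C1 → c2 ≤ C1 →
    ∀ (a3 : Fin 2 → Fin 2 → Fin 2 → ℂ) (a4 : Fin 2 → Fin 2 → Fin 2 → Fin 2 → ℂ),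
    (∀ i j k, a3 i j k = a3 j i k) → (∀ i j k, ‖a3 i j k‖ ≤ C1) →
    (∀ i j k l, a4 i j k l = a4 j i k l) → (∀ i j k l, a4 i j k l = a4 i j l k) →
    (∀ i j k l, ‖a4 i j k l‖ ≤ C1) →
    ∀ {m : ℕ} (u v : TV m), -b * gArea A s c1 c2 u v ≤ gN A s c1 c2 a3 a4 u v ∧
      gN A s c1 c2 a3 a4 u v ≤ -a * gArea A s c1 c2 u v := by
  have hC1p : 0 < C1 := hc0.trans_le hC1
  obtain ⟨C2, hC2, hN⟩ := mN_eq C1 hC1p
  obtain ⟨A0, hA0, hneg⟩ := Qmain_neg_g C2 c0 C1 hC2 hc0 hC1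
  refine ⟨A0, hA0, fun A hA => ?_⟩
  have hAp : 0 < A := hA0.trans_le hA
  obtain ⟨a, ha, hneg'⟩ := hneg A hA
  obtain ⟨b, hb, hlow⟩ := Qmain_lower_g C2 c0 C1 hC2 hc0 hC1 A hAp
  refine ⟨a, max a (2 * b), ha, le_max_left _ _, ?_⟩
  intro s c1 c2 hs h1 h2 h1' h2' a3 a4 hs3 hb3 hs4 hs4' hb4 m u v
  obtain ⟨hBβ, herr⟩ := hN A s c1 c2 c0 hAp hs hc0 h1 h2 h1' h2' a3 a4 hs3 hb3 hs4 hs4' hb4
    (pr u) (pr v) _ _ _ _ _ _ rfl rfl rfl rfl rfl rfl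
  have hβ0 : 0 ≤ ‖(pr u).1.1 * starRingEnd ℂ (pr v).1.2 - (pr v).1.1 * starRingEnd ℂ (pr u).1.2‖ ^ 2 := by
    positivity
  have hη1 : 0 ≤ s * (1 + s) * ‖(pr u).1.1 * starRingEnd ℂ (pr v).2
      - (pr v).1.1 * starRingEnd ℂ (pr u).2‖ ^ 2 := by positivity
  have hη2 : 0 ≤ s * (1 + s) * ‖(pr u).1.2 * starRingEnd ℂ (pr v).2
      - (pr v).1.2 * starRingEnd ℂ (pr u).2‖ ^ 2 := by positivity
  have hV := gV2_ge u v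
  have hc1 := gcr_nonneg u.1.1.1 v.1.1.1 u v
  have hc2 := gcr_nonneg u.1.1.2 v.1.1.2 u v
  have hc3 : 0 ≤ s * (1 + s) * gcr u.2 v.2 u v := mul_nonneg (by positivity) (gcr_nonneg _ _ _ _)
  have hn := hneg' s c1 c2 hs h1 h2 h1' h2' _ _ _ _ _
    (2 * (s * (1 + s)) * ((pr u).2 * starRingEnd ℂ (pr v).2).im) _ hβ0 hη1 hη2 hBβ
    _ _ _ _ _ hV hc1 hc2 hc3 herr
  have hl := hlow s c1 c2 hs h1 h2 h1' h2' _ _ _ _ _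
    (2 * (s * (1 + s)) * ((pr u).2 * starRingEnd ℂ (pr v).2).im) _ hβ0 hη1 hη2
    _ _ _ _ _ hV hc1 hc2 hc3 herr
  rw [add_sub_cancel] at hn hl
  have hgN := gN_eq hAp hs (hc0.trans_le h1) (hc0.trans_le h2) a3 a4 u v
  obtain ⟨hA1, hA2⟩ := Hnorm_area_g hAp hs (hc0.trans_le h1) (hc0.trans_le h2) u v _ rfl
  have hn' : 2 * gN A s c1 c2 a3 a4 u v ≤ _ := hgN.le.trans hn
  have hl' := hl.trans hgN.ge
  have hmax : 2 * b ≤ max a (2 * b) := le_max_right _ _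
  have hArea0 : 0 ≤ gArea A s c1 c2 u v := by
    have : 2 * gArea A s c1 c2 u v ≤ 4 * gArea A s c1 c2 u v := hA1.trans hA2
    linarith
  constructor
  · have := mul_le_mul_of_nonneg_left hA2 hb.le
    have h3 := mul_le_mul_of_nonneg_right hmax hArea0
    simp only [pr] at hl'
    linarith
  · have := mul_le_mul_of_nonneg_left hA1 ha.le
    simp only [pr] at hn'
    linarith

end P250
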