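import Mathlib.Analysis.CStarAlgebra.Module.Constructions
import Vale.Agent.Lib.P250.G.GDefs
import Vale.Agent.Lib.P250.HA

/-! # P250-G module HarG1: Levi form of the Hartogs potential, fibre of any dimension
(adapt `HA.lean`) -/

open scoped ContDiff
open Complex Metric Set

namespace P250

private theorem harG1_line {E : Type*} [NormedAddCommGroup E] [NormedSpace ℝ E] (p u : E) (t : ℝ) :
    HasDerivAt (fun t : ℝ => p + t • u) u t := by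
  simpa using ((hasDerivAt_id t).smul_const u).const_add p

private theorem harG1_line_tendsto {E : Type*} [NormedAddCommGroup E] [NormedSpace ℝ E] (p u : E) :
    Filter.Tendsto (fun t : ℝ => p + t • u) (nhds 0) (nhds p) := by
  have h : Continuous fun t : ℝ => p + t • u := by fun_prop
  simpa using h.tendsto 0

private theorem harG1_first {E : Type*} [NormedAddCommGroup E] [NormedSpace ℝ E] {Φ : E → ℝ}
    {p : E} (hΦ : ContDiffAt ℝ 2 Φ p) (u : E) : ∀ᶠ t in nhds (0 : ℝ),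
      HasDerivAt (fun t => Φ (p + t • u)) (fderiv ℝ Φ (p + t • u) u) t := by
  have h1 : ∀ᶠ x in nhds p, ContDiffAt ℝ 2 Φ x := hΦ.eventually (by simp)
  have h2 := (harG1_line_tendsto p u).eventually h1
  filter_upwards [h2] with t ht
  exact (ht.differentiableAt (by norm_num)).hasFDerivAt.comp_hasDerivAt t (harG1_line p u t)

private theorem harG1_snd {E : Type*} [NormedAddCommGroup E] [NormedSpace ℝ E] {Φ : E → ℝ} {p : E}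
    (hΦ : ContDiffAt ℝ 2 Φ p) (u : E) :
    HasDerivAt (fun t : ℝ => fderiv ℝ Φ (p + t • u) u) (fderiv ℝ (fderiv ℝ Φ) p u u) 0 := by
  have h1 : ContDiffAt ℝ 1 (fderiv ℝ Φ) p := hΦ.fderiv_right (by norm_num)
  have h2 : HasFDerivAt (fderiv ℝ Φ) (fderiv ℝ (fderiv ℝ Φ) p) (p + (0 : ℝ) • u) := by
    simpa using (h1.differentiableAt (by norm_num)).hasFDerivAt
  have h3 := h2.comp_hasDerivAt (0 : ℝ) (harG1_line p u 0)
  have h4 := h3.clm_apply (hasDerivAt_const (0 : ℝ) u)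
  simpa using h4

private theorem harG1_second {E : Type*} [NormedAddCommGroup E] [NormedSpace ℝ E] {Φ : E → ℝ}
    {p u : E} (hΦ : ContDiffAt ℝ 2 Φ p) {g1 : ℝ → ℝ} {g2 : ℝ}
    (h1 : ∀ᶠ t in nhds (0 : ℝ), HasDerivAt (fun t => Φ (p + t • u)) (g1 t) t)
    (h2 : HasDerivAt g1 g2 0) : fderiv ℝ (fderiv ℝ Φ) p u u = g2 := by
  have heq : g1 =ᶠ[nhds 0] fun t => fderiv ℝ Φ (p + t • u) u := by
    filter_upwards [h1, harG1_first hΦ u] with t a b using a.unique b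
  exact ((harG1_snd hΦ u).congr_of_eventuallyEq heq).unique h2

variable {F : Type*} [NormedAddCommGroup F] [InnerProductSpace ℂ F]

private theorem harG1_normsq (ζ η : F) (t : ℝ) :
    HasDerivAt (fun t : ℝ => ‖ζ + t • η‖ ^ 2)
      (2 * (inner ℂ ζ η).re + 2 * t * ‖η‖ ^ 2) t := by
  have h0 : (fun t : ℝ => ‖ζ + t • η‖ ^ 2) =
      fun t : ℝ => ‖ζ‖ ^ 2 + 2 * (t * (inner ℂ ζ η).re) + (t * ‖η‖) ^ 2 := by
    ext t
    rw [norm_add_sq (𝕜 := ℂ), ← Complex.coe_smul, inner_smul_right, norm_smul, Complex.norm_real,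
      Real.norm_eq_abs, mul_pow, sq_abs, mul_pow]
    congr 2
    simp
  rw [h0]
  have h1 : HasDerivAt (fun t : ℝ => 2 * (t * (inner ℂ ζ η).re)) (2 * (inner ℂ ζ η).re) t := by
    simpa using ((hasDerivAt_id t).mul_const (inner ℂ ζ η).re).const_mul 2
  have h2 : HasDerivAt (fun t : ℝ => t * ‖η‖) ‖η‖ t := by
    simpa using (hasDerivAt_id t).mul_const ‖η‖
  have h3 := (h1.const_add (‖ζ‖ ^ 2)).add (h2.pow 2)
  refine h3.congr_deriv ?_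
  push_cast
  ring

private theorem harG1_d2 {U : Set (ℂ × ℂ)} (hU : IsOpen U) {φ : ℂ × ℂ → ℝ}
    (hφ : ContDiffOn ℝ ∞ φ U) {p : (ℂ × ℂ) × F} (hp : p.1 ∈ U)
    (hT : ‖p.2‖ ^ 2 * Real.exp (φ p.1) < 1) (u : (ℂ × ℂ) × F) :
    fderiv ℝ (fderiv ℝ (fun q : (ℂ × ℂ) × F => -Real.log (1 - ‖q.2‖ ^ 2 * Real.exp (φ q.1)))) p u u =
      Real.exp (φ p.1) * (2 * ‖u.2‖ ^ 2
          + 2 * (2 * (inner ℂ p.2 u.2).re) * fderiv ℝ φ p.1 u.1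
          + ‖p.2‖ ^ 2 * ((fderiv ℝ φ p.1 u.1) ^ 2 + fderiv ℝ (fderiv ℝ φ) p.1 u.1 u.1)) /
        (1 - ‖p.2‖ ^ 2 * Real.exp (φ p.1))
      + (Real.exp (φ p.1) * (2 * (inner ℂ p.2 u.2).re
          + ‖p.2‖ ^ 2 * fderiv ℝ φ p.1 u.1)) ^ 2 /
        (1 - ‖p.2‖ ^ 2 * Real.exp (φ p.1)) ^ 2 := by
  obtain ⟨y, ζ⟩ := p
  obtain ⟨ξ, η⟩ := u
  simp only at hp hT ⊢
  have hφ2 : ContDiffAt ℝ 2 φ y :=
    ((hφ.contDiffAt (hU.mem_nhds hp))).of_le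
      (WithTop.coe_le_coe.2 le_top)
  have hne : (1 - ‖ζ‖ ^ 2 * Real.exp (φ y)) ≠ 0 := by
    have : 0 < 1 - ‖ζ‖ ^ 2 * Real.exp (φ y) := by linarith
    exact this.ne'
  have hΦ : ContDiffAt ℝ 2 (fun q : (ℂ × ℂ) × F => -Real.log (1 - ‖q.2‖ ^ 2 * Real.exp (φ q.1)))
      (y, ζ) := by
    have h1 : ContDiffAt ℝ 2 (fun q : (ℂ × ℂ) × F => φ q.1) (y, ζ) :=
      ContDiffAt.comp (y, ζ) (f := fun q : (ℂ × ℂ) × F => q.1) hφ2 contDiffAt_fst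
    have h2 : ContDiffAt ℝ 2 (fun q : (ℂ × ℂ) × F => ‖q.2‖ ^ 2) (y, ζ) :=
      (contDiff_snd.norm_sq ℂ).contDiffAt
    exact ((contDiffAt_const.sub (h2.mul h1.exp)).log hne).neg
  -- the functions along the line
  set φ1 : ℝ → ℝ := fun t => fderiv ℝ φ (y + t • ξ) ξ with hφ1
  have hline : ∀ᶠ t in nhds (0 : ℝ), HasDerivAt (fun t => φ (y + t • ξ)) (φ1 t) t :=
    harG1_first hφ2 ξ
  have hφ1d : HasDerivAt φ1 (fderiv ℝ (fderiv ℝ φ) y ξ ξ) 0 := harG1_snd hφ2 ξ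
  set N1 : ℝ → ℝ := fun t => 2 * (inner ℂ ζ η).re + 2 * t * ‖η‖ ^ 2
    with hN1
  set T : ℝ → ℝ := fun t => ‖ζ + t • η‖ ^ 2 * Real.exp (φ (y + t • ξ)) with hTdef
  set T1 : ℝ → ℝ := fun t => N1 t * Real.exp (φ (y + t • ξ)) +
    ‖ζ + t • η‖ ^ 2 * (Real.exp (φ (y + t • ξ)) * φ1 t) with hT1
  have hTd : ∀ᶠ t in nhds (0 : ℝ), HasDerivAt T (T1 t) t := by
    filter_upwards [hline] with t ht
    exact (harG1_normsq ζ η t).mul ht.exp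
  have hTc : ∀ᶠ t in nhds (0 : ℝ), T t < 1 := by
    have h0 := hTd.self_of_nhds
    have h1 : T 0 < 1 := by
      simp only [hTdef, zero_smul, add_zero]
      exact hT
    exact h0.continuousAt.eventually_lt_const h1
  have h1 : ∀ᶠ t in nhds (0 : ℝ), HasDerivAt (fun t : ℝ =>
      (fun q : (ℂ × ℂ) × F => -Real.log (1 - ‖q.2‖ ^ 2 * Real.exp (φ q.1)))
        ((y, ζ) + t • (ξ, η))) (T1 t / (1 - T t)) t := by
    filter_upwards [hTd, hTc] with t h2 h3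
    have h4 : (1 - T t) ≠ 0 := by
      have : 0 < 1 - T t := by linarith
      exact this.ne'
    have h5 := ((h2.const_sub 1).log h4).neg
    refine h5.congr_deriv ?_
    ring
  have hT0 : T 0 = ‖ζ‖ ^ 2 * Real.exp (φ y) := by simp [hTdef]
  have hN10 : N1 0 = 2 * (inner ℂ ζ η).re := by simp [hN1]
  have hφ10 : φ1 0 = fderiv ℝ φ y ξ := by simp [hφ1]
  have hT10 : T1 0 = Real.exp (φ y) * (2 * (inner ℂ ζ η).re
      + ‖ζ‖ ^ 2 * fderiv ℝ φ y ξ) := by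
    simp only [hT1, zero_smul, add_zero, hN10, hφ10]
    ring
  have hN1d : HasDerivAt N1 (2 * ‖η‖ ^ 2) 0 := by
    have h2 : HasDerivAt (fun t : ℝ => 2 * t * ‖η‖ ^ 2)
        (2 * ‖η‖ ^ 2) 0 := by
      simpa using ((hasDerivAt_id (0 : ℝ)).const_mul 2).mul_const (‖η‖ ^ 2)
    exact h2.const_add _
  have hEd := (hline.self_of_nhds).exp
  have hNd := harG1_normsq ζ η 0
  have hT1d : HasDerivAt T1 (Real.exp (φ y) * (2 * ‖η‖ ^ 2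
          + 2 * (2 * (inner ℂ ζ η).re) * fderiv ℝ φ y ξ
          + ‖ζ‖ ^ 2 * ((fderiv ℝ φ y ξ) ^ 2 + fderiv ℝ (fderiv ℝ φ) y ξ ξ))) 0 := by
    have h2 := (hN1d.mul hEd).add (hNd.mul (hEd.mul hφ1d))
    refine h2.congr_deriv ?_
    simp only [Pi.mul_apply, hN10, hφ10, zero_smul, add_zero, mul_zero, zero_mul]
    ring
  have hT1T : (1 - T 0) ≠ 0 := by
    rw [hT0]
    exact hne
  have h2 : HasDerivAt (fun t => T1 t / (1 - T t))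
      (((Real.exp (φ y) * (2 * ‖η‖ ^ 2
          + 2 * (2 * (inner ℂ ζ η).re) * fderiv ℝ φ y ξ
          + ‖ζ‖ ^ 2 * ((fderiv ℝ φ y ξ) ^ 2 + fderiv ℝ (fderiv ℝ φ) y ξ ξ))) * (1 - T 0) -
          T1 0 * (-(T1 0))) / (1 - T 0) ^ 2) 0 :=
    hT1d.div (hTd.self_of_nhds.const_sub 1) hT1T
  rw [harG1_second hΦ h1 h2, hT0, hT10]
  field_simp
  ring

private theorem harG1_gen {U : Set (ℂ × ℂ)} (hU : IsOpen U) {φ : ℂ × ℂ → ℝ}
    (hφ : ContDiffOn ℝ ∞ φ U) {p : (ℂ × ℂ) × F} (hp : p.1 ∈ U)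
    (hT : ‖p.2‖ ^ 2 * Real.exp (φ p.1) < 1) (u : (ℂ × ℂ) × F) :
    potMetric (fun q : (ℂ × ℂ) × F => -Real.log (1 - ‖q.2‖ ^ 2 * Real.exp (φ q.1))) p u u =
      ‖p.2‖ ^ 2 * Real.exp (φ p.1) / (1 - ‖p.2‖ ^ 2 * Real.exp (φ p.1)) *
        potMetric φ p.1 u.1 u.1
      + Real.exp (φ p.1) / (1 - ‖p.2‖ ^ 2 * Real.exp (φ p.1)) *
        ‖u.2 + delta10 φ p.1 u.1 • p.2‖ ^ 2
      + Real.exp (φ p.1) ^ 2 / (1 - ‖p.2‖ ^ 2 * Real.exp (φ p.1)) ^ 2 *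
        ‖inner ℂ p.2 (u.2 + delta10 φ p.1 u.1 • p.2)‖ ^ 2 := by
  have h1 : ∀ v : (ℂ × ℂ) × F,
      potMetric (fun q : (ℂ × ℂ) × F => -Real.log (1 - ‖q.2‖ ^ 2 * Real.exp (φ q.1))) p v v =
      1 / 4 * (fderiv ℝ (fderiv ℝ (fun q : (ℂ × ℂ) × F =>
          -Real.log (1 - ‖q.2‖ ^ 2 * Real.exp (φ q.1)))) p v v +
        fderiv ℝ (fderiv ℝ (fun q : (ℂ × ℂ) × F =>
          -Real.log (1 - ‖q.2‖ ^ 2 * Real.exp (φ q.1)))) p (I • v) (I • v)) := fun v => rfl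
  have h2 : ∀ ξ : ℂ × ℂ, potMetric φ p.1 ξ ξ =
      1 / 4 * (fderiv ℝ (fderiv ℝ φ) p.1 ξ ξ + fderiv ℝ (fderiv ℝ φ) p.1 (I • ξ) (I • ξ)) :=
    fun v => rfl
  rw [h1, h2, harG1_d2 hU hφ hp hT, harG1_d2 hU hφ hp hT]
  obtain ⟨y, ζ⟩ := p
  obtain ⟨ξ, η⟩ := u
  have h3 : (I • ((ξ, η) : (ℂ × ℂ) × F)).1 = I • ξ := rfl
  have h4 : (I • ((ξ, η) : (ℂ × ℂ) × F)).2 = I • η := rfl
  rw [h3, h4]
  simp only at hp hT ⊢
  have hne : (1 - ‖ζ‖ ^ 2 * Real.exp (φ y)) ≠ 0 := by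
    have : 0 < 1 - ‖ζ‖ ^ 2 * Real.exp (φ y) := by linarith
    exact this.ne'
  have hδ : delta10 φ y ξ = (1 / 2 : ℂ) * ((fderiv ℝ φ y ξ : ℂ) - I * (fderiv ℝ φ y (I • ξ) : ℂ)) :=
    rfl
  have hδre : (delta10 φ y ξ).re = fderiv ℝ φ y ξ / 2 := by
    rw [hδ]
    simp
    ring
  have hδim : (delta10 φ y ξ).im = - (fderiv ℝ φ y (I • ξ) / 2) := by
    rw [hδ]
    simp
    ring
  have hX : ‖η + delta10 φ y ξ • ζ‖ ^ 2 =
      ‖η‖ ^ 2 + ((inner ℂ ζ η).re * fderiv ℝ φ y ξ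
        - (inner ℂ ζ η).im * fderiv ℝ φ y (I • ξ))
      + 1 / 4 * ‖ζ‖ ^ 2 *
        ((fderiv ℝ φ y ξ) ^ 2 + (fderiv ℝ φ y (I • ξ)) ^ 2) := by
    rw [norm_add_sq (𝕜 := ℂ), inner_smul_right, norm_smul, mul_pow, ← Complex.normSq_eq_norm_sq,
      Complex.normSq_apply, hδre, hδim]
    have e1 : inner ℂ η ζ = (starRingEnd ℂ) (inner ℂ ζ η) := (inner_conj_symm η ζ).symm
    have e2 : RCLike.re (delta10 φ y ξ * inner ℂ η ζ) =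
        (delta10 φ y ξ).re * (inner ℂ ζ η).re + (delta10 φ y ξ).im * (inner ℂ ζ η).im := by
      rw [e1, RCLike.re_eq_complex_re, Complex.mul_re, Complex.conj_re, Complex.conj_im]
      ring
    rw [e2, hδre, hδim]
    ring
  have hY : ‖inner ℂ ζ (η + delta10 φ y ξ • ζ)‖ ^ 2 =
      ((inner ℂ ζ η).re + fderiv ℝ φ y ξ / 2 * ‖ζ‖ ^ 2) ^ 2 +
      ((inner ℂ ζ η).im - fderiv ℝ φ y (I • ξ) / 2 * ‖ζ‖ ^ 2) ^ 2 := by
    rw [inner_add_right, inner_smul_right, inner_self_eq_norm_sq_to_K,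
      ← Complex.normSq_eq_norm_sq, Complex.normSq_apply]
    have e1 : (inner ℂ ζ η + delta10 φ y ξ * ((‖ζ‖ : ℂ)) ^ 2).re =
        (inner ℂ ζ η).re + fderiv ℝ φ y ξ / 2 * ‖ζ‖ ^ 2 := by
      rw [← Complex.ofReal_pow, Complex.add_re, Complex.re_mul_ofReal, hδre]
    have e2 : (inner ℂ ζ η + delta10 φ y ξ * ((‖ζ‖ : ℂ)) ^ 2).im =
        (inner ℂ ζ η).im - fderiv ℝ φ y (I • ξ) / 2 * ‖ζ‖ ^ 2 := by
      rw [← Complex.ofReal_pow, Complex.add_im, Complex.im_mul_ofReal, hδim]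
      ring
    have e3 : ((‖ζ‖ : ℝ) : ℂ) = RCLike.ofReal ‖ζ‖ := rfl
    rw [← e3, e1, e2]
    ring
  rw [hX, hY]
  have hre : (inner ℂ ζ (I • η)).re = -(inner ℂ ζ η).im := by
    rw [inner_smul_right]
    simp
  have hnI : ‖I • η‖ = ‖η‖ := by
    rw [norm_smul]
    simp
  rw [hre, hnI]
  set P := fderiv ℝ φ y ξ with hP
  set Q := fderiv ℝ φ y (I • ξ) with hQ
  set A := fderiv ℝ (fderiv ℝ φ) y ξ ξ with hA
  set B := fderiv ℝ (fderiv ℝ φ) y (I • ξ) (I • ξ) with hB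
  set W := Real.exp (φ y) with hW
  field_simp
  ring

/-- `T = ‖ζ‖² e^φ`, `∂T(u) = e^φ ⟨λ + ζ ∂φ(ξ), ζ⟩`, `∂∂bar T(u) = e^φ ‖λ + ζ ∂φ(ξ)‖² + T Lev φ(ξ)`,
`∂∂bar (-log (1 - T)) = ∂∂bar T / (1 - T) + |∂T|² / (1 - T)²`. -/
theorem hartogs_metric_g {m : ℕ} {U : Set (ℂ × ℂ)} (hU : IsOpen U) {φ : ℂ × ℂ → ℝ}
    (hφ : ContDiffOn ℝ ∞ φ U) {p : VH m} (hp : p.1 ∈ U)
    (hT : ‖p.2‖ ^ 2 * Real.exp (φ p.1) < 1) (u : VH m) :
    potMetric (fun q : VH m => -Real.log (1 - ‖q.2‖ ^ 2 * Real.exp (φ q.1))) p u u =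
      ‖p.2‖ ^ 2 * Real.exp (φ p.1) / (1 - ‖p.2‖ ^ 2 * Real.exp (φ p.1)) *
        potMetric φ p.1 u.1 u.1
      + Real.exp (φ p.1) / (1 - ‖p.2‖ ^ 2 * Real.exp (φ p.1)) *
        ‖u.2 + delta10 φ p.1 u.1 • p.2‖ ^ 2
      + Real.exp (φ p.1) ^ 2 / (1 - ‖p.2‖ ^ 2 * Real.exp (φ p.1)) ^ 2 *
        ‖inner ℂ p.2 (u.2 + delta10 φ p.1 u.1 • p.2)‖ ^ 2 :=
  harG1_gen (F := Fb (m + 1)) hU hφ hp hT u

end P250
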