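import Vale.Agent.Lib.P250.BPC
import Vale.Agent.Lib.P250.G.HarG1

/-! # P250-G module HarG2: the metric on `MG` (adapt `HB.lean`) -/

open scoped ContDiff
open Complex Metric Set

namespace P250

private theorem HarG2_preopen (m : ℕ) : IsOpen {p : VH m | p.1 ∈ U2} :=
  U2_open.preimage continuous_fst

private theorem HarG2_h_smooth {e δ : ℝ} (N m : ℕ) (he : 0 < e) (he1 : e < 1) (hδ : 0 < δ) :
    ContDiffOn ℝ ∞ (fun p : VH m => ‖p.2‖ ^ 2 * Real.exp (phiL e δ N 0 p.1))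
      {p : VH m | p.1 ∈ U2} := by
  have h1 : ContDiff ℝ ∞ (fun p : VH m => ‖p.2‖ ^ 2) :=
    (contDiff_norm_sq ℂ).comp contDiff_snd
  have h2 : ContDiffOn ℝ ∞ (fun p : VH m => phiL e δ N 0 p.1)
      {p : VH m | p.1 ∈ U2} :=
    (phiL_smooth N he he1 hδ).comp contDiff_fst.contDiffOn (fun p hp => hp)
  exact h1.contDiffOn.mul (Real.contDiff_exp.comp_contDiffOn h2)

theorem MG_open {e δ : ℝ} (N m : ℕ) (he : 0 < e) (he1 : e < 1) (hδ : 0 < δ) :
    IsOpen (MG e δ N m) := by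
  have h := (HarG2_h_smooth N m he he1 hδ).continuousOn.isOpen_inter_preimage (HarG2_preopen m)
    (isOpen_Iio (a := (1 : ℝ)))
  exact h

private theorem HarG2_sub {e δ : ℝ} {N m : ℕ} : MG e δ N m ⊆ {p : VH m | p.1 ∈ U2} :=
  fun _ hp => hp.1

private theorem HarG2_second_smooth {e δ : ℝ} (N m : ℕ) (he : 0 < e) (he1 : e < 1) (hδ : 0 < δ) :
    ContDiffOn ℝ ∞ (fun p : VH m =>
      -Real.log (1 - ‖p.2‖ ^ 2 * Real.exp (phiL e δ N 0 p.1))) (MG e δ N m) := by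
  have h1 : ContDiffOn ℝ ∞ (fun p : VH m =>
      1 - ‖p.2‖ ^ 2 * Real.exp (phiL e δ N 0 p.1)) (MG e δ N m) :=
    contDiffOn_const.sub ((HarG2_h_smooth N m he he1 hδ).mono HarG2_sub)
  exact (h1.log (fun p hp => ne_of_gt (sub_pos.mpr hp.2))).neg

private theorem HarG2_first_smooth {A e δ : ℝ} (N m : ℕ) :
    ContDiffOn ℝ ∞ (fun p : VH m => A * (-Real.log (rho p.1))) (MG e δ N m) := by
  have h2 : ContDiffOn ℝ ∞ (fun p : VH m => -Real.log (rho p.1)) (MG e δ N m) :=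
    logrho_smooth.comp contDiff_fst.contDiffOn (fun p hp => hp.1)
  exact contDiffOn_const.mul h2

theorem PotG_smooth {A e δ : ℝ} (N m : ℕ) (he : 0 < e) (he1 : e < 1) (hδ : 0 < δ) :
    ContDiffOn ℝ ∞ (PotG A e δ N m) (MG e δ N m) := by
  have h := (HarG2_first_smooth (A := A) N m).add (HarG2_second_smooth N m he he1 hδ)
  refine h.congr ?_
  intro p _
  unfold PotG
  ring

private theorem HarG2_fd_add {F : Type*} [NormedAddCommGroup F] [NormedSpace ℝ F]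
    {Φ Ψ : F → ℝ} {M : Set F} (hM : IsOpen M) (h1 : ContDiffOn ℝ ∞ Φ M)
    (h2 : ContDiffOn ℝ ∞ Ψ M) {p : F} (hp : p ∈ M) :
    fderiv ℝ (fderiv ℝ (fun q => Φ q + Ψ q)) p =
      fderiv ℝ (fderiv ℝ Φ) p + fderiv ℝ (fderiv ℝ Ψ) p := by
  have e1 : fderiv ℝ (fun q => Φ q + Ψ q) =ᶠ[nhds p] (fun q => fderiv ℝ Φ q + fderiv ℝ Ψ q) := by
    filter_upwards [hM.mem_nhds hp] with q hq
    exact fderiv_fun_add ((h1.contDiffAt (hM.mem_nhds hq)).differentiableAt (by simp))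
      ((h2.contDiffAt (hM.mem_nhds hq)).differentiableAt (by simp))
  rw [e1.fderiv_eq]
  have d1 : DifferentiableAt ℝ (fderiv ℝ Φ) p :=
    ((h1.fderiv_of_isOpen hM (m := ∞) (by simp)).contDiffAt (hM.mem_nhds hp)).differentiableAt
      (by simp)
  have d2 : DifferentiableAt ℝ (fderiv ℝ Ψ) p :=
    ((h2.fderiv_of_isOpen hM (m := ∞) (by simp)).contDiffAt (hM.mem_nhds hp)).differentiableAt
      (by simp)
  exact fderiv_fun_add d1 d2

private theorem HarG2_fd_mul {F : Type*} [NormedAddCommGroup F] [NormedSpace ℝ F]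
    {Φ : F → ℝ} {M : Set F} (hM : IsOpen M) (h1 : ContDiffOn ℝ ∞ Φ M) (A : ℝ)
    {p : F} (hp : p ∈ M) :
    fderiv ℝ (fderiv ℝ (fun q => A * Φ q)) p = A • fderiv ℝ (fderiv ℝ Φ) p := by
  have e1 : fderiv ℝ (fun q => A * Φ q) =ᶠ[nhds p] (fun q => A • fderiv ℝ Φ q) := by
    filter_upwards [hM.mem_nhds hp] with q hq
    exact fderiv_const_mul ((h1.contDiffAt (hM.mem_nhds hq)).differentiableAt (by simp)) A
  rw [e1.fderiv_eq]
  have d1 : DifferentiableAt ℝ (fderiv ℝ Φ) p :=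
    ((h1.fderiv_of_isOpen hM (m := ∞) (by simp)).contDiffAt (hM.mem_nhds hp)).differentiableAt
      (by simp)
  exact fderiv_fun_const_smul d1 A

theorem PotG_metric {A e δ : ℝ} (N m : ℕ) (he : 0 < e) (he1 : e < 1) (hδ : 0 < δ)
    {p : VH m} (hp : p ∈ MG e δ N m) (u : VH m) :
    potMetric (PotG A e δ N m) p u u =
      A * potMetric (fun y : ℂ × ℂ => -Real.log (rho y)) p.1 u.1 u.1
      + ‖p.2‖ ^ 2 * Real.exp (phiL e δ N 0 p.1) / (1 - ‖p.2‖ ^ 2 * Real.exp (phiL e δ N 0 p.1)) *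
        potMetric (phiL e δ N 0) p.1 u.1 u.1
      + Real.exp (phiL e δ N 0 p.1) / (1 - ‖p.2‖ ^ 2 * Real.exp (phiL e δ N 0 p.1)) *
        ‖u.2 + delta10 (phiL e δ N 0) p.1 u.1 • p.2‖ ^ 2
      + Real.exp (phiL e δ N 0 p.1) ^ 2 / (1 - ‖p.2‖ ^ 2 * Real.exp (phiL e δ N 0 p.1)) ^ 2 *
        ‖inner ℂ p.2 (u.2 + delta10 (phiL e δ N 0) p.1 u.1 • p.2)‖ ^ 2 := by
  have hH := hartogs_metric_g U2_open (phiL_smooth (e := e) (δ := δ) N he he1 hδ) hp.1 hp.2 u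
  have hsub : ContDiffOn ℝ ∞ (fun q : VH m => -Real.log (rho q.1)) (MG e δ N m) :=
    logrho_smooth.comp contDiff_fst.contDiffOn (fun p hp => hp.1)
  have hM := MG_open (e := e) (δ := δ) N m he he1 hδ
  have hcomp : potMetric (fun q : VH m => -Real.log (rho q.1)) p u u =
      potMetric (fun y : ℂ × ℂ => -Real.log (rho y)) p.1 u.1 u.1 := by
    have h := potMetric_comp (E := ℂ × ℂ) (E' := VH m) U2_open (HarG2_preopen m)
      (Φ := fun y : ℂ × ℂ => -Real.log (rho y)) logrho_smooth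
      (F := fun q : VH m => q.1) contDiff_fst.contDiffOn (fun q hq => hq)
      (p := p) hp.1 u u
    have hf : fderiv ℝ (fun q : VH m => q.1) p = ContinuousLinearMap.fst ℝ (ℂ × ℂ) (Fb (m + 1)) :=
      fderiv_fst
    rw [hf] at h
    exact h
  have hPot : PotG A e δ N m = fun q : VH m => A * (-Real.log (rho q.1)) +
      (-Real.log (1 - ‖q.2‖ ^ 2 * Real.exp (phiL e δ N 0 q.1))) := by
    funext q
    unfold PotG
    ring
  have hadd := HarG2_fd_add hM (HarG2_first_smooth (A := A) N m)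
    (HarG2_second_smooth N m he he1 hδ) hp
  have hmul := HarG2_fd_mul hM hsub A hp
  have hmain : potMetric (PotG A e δ N m) p u u =
      A * potMetric (fun q : VH m => -Real.log (rho q.1)) p u u +
      potMetric (fun q : VH m => -Real.log (1 - ‖q.2‖ ^ 2 * Real.exp (phiL e δ N 0 q.1))) p u u := by
    rw [hPot, potMetric_apply, potMetric_apply, potMetric_apply, hadd, hmul]
    simp only [add_apply, smul_apply, smul_eq_mul]
    ring
  rw [hmain, hcomp, hH]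
  ring

theorem PotG_kahler {A e δ : ℝ} (N m : ℕ) (hA : 0 < A) (he : 0 < e) (he1 : e < 1) (hδ : 0 < δ) :
    IsKahlerMetric (MG e δ N m) (potMetric (PotG A e δ N m)) := by
  refine potMetric_kahler (MG_open N m he he1 hδ) (PotG_smooth N m he he1 hδ) ?_
  intro p hp u hu
  rw [PotG_metric N m he he1 hδ hp u]
  have hpos : 0 < 1 - ‖p.2‖ ^ 2 * Real.exp (phiL e δ N 0 p.1) := sub_pos.mpr hp.2
  have hr0 : 0 ≤ potMetric (fun y : ℂ × ℂ => -Real.log (rho y)) p.1 u.1 u.1 := by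
    by_cases h : u.1 = 0
    · rw [h]; simp
    · exact (potMetric_logrho_pos hp.1 h).le
  have hphi : 0 ≤ potMetric (phiL e δ N 0) p.1 u.1 u.1 := by
    refine le_trans ?_ (phiL_psh N he he1 hδ hp.1 u.1)
    exact mul_nonneg (mul_nonneg (Nat.cast_nonneg N) hδ.le) hr0
  have h2 : 0 ≤ ‖p.2‖ ^ 2 * Real.exp (phiL e δ N 0 p.1) /
      (1 - ‖p.2‖ ^ 2 * Real.exp (phiL e δ N 0 p.1)) * potMetric (phiL e δ N 0) p.1 u.1 u.1 := by
    positivity
  have h3 : 0 ≤ Real.exp (phiL e δ N 0 p.1) /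
      (1 - ‖p.2‖ ^ 2 * Real.exp (phiL e δ N 0 p.1)) *
        ‖u.2 + delta10 (phiL e δ N 0) p.1 u.1 • p.2‖ ^ 2 := by
    positivity
  have h6 : 0 ≤ Real.exp (phiL e δ N 0 p.1) ^ 2 /
      (1 - ‖p.2‖ ^ 2 * Real.exp (phiL e δ N 0 p.1)) ^ 2 *
        ‖inner ℂ p.2 (u.2 + delta10 (phiL e δ N 0) p.1 u.1 • p.2)‖ ^ 2 := by
    positivity
  by_cases h : u.1 = 0
  · have hu2 : u.2 ≠ 0 := by
      intro h2
      exact hu (Prod.ext h h2)
    have hd : delta10 (phiL e δ N 0) p.1 u.1 = 0 := by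
      rw [h]
      simp [delta10]
    have h4 : 0 < Real.exp (phiL e δ N 0 p.1) /
      (1 - ‖p.2‖ ^ 2 * Real.exp (phiL e δ N 0 p.1)) *
        ‖u.2 + delta10 (phiL e δ N 0) p.1 u.1 • p.2‖ ^ 2 := by
      rw [hd, zero_smul, add_zero]
      have : 0 < ‖u.2‖ := norm_pos_iff.mpr hu2
      positivity
    have h5 : 0 ≤ A * potMetric (fun y : ℂ × ℂ => -Real.log (rho y)) p.1 u.1 u.1 :=
      mul_nonneg hA.le hr0
    linarith
  · have h5 : 0 < A * potMetric (fun y : ℂ × ℂ => -Real.log (rho y)) p.1 u.1 u.1 :=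
      mul_pos hA (potMetric_logrho_pos hp.1 h)
    linarith

/-- the exhaustion function -/
noncomputable def kexhG (e δ : ℝ) (N m : ℕ) (p : VH m) : ℝ :=
  Real.log (‖p.1.2 + I‖ ^ 2 / rho p.1) - Real.log (1 - ‖p.2‖ ^ 2 * Real.exp (phiL e δ N 0 p.1))

end P250
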