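import Mathlib.Analysis.Convex.Contractible
import Vale.Agent.Lib.P250.G.HarG2

/-! # P250-G module HarG4: the exhaustion function is proper; `MG` is contractible
(adapt `HD.lean`, `HE.lean`) -/

open scoped ContDiff
open Complex Metric Set

namespace P250


private theorem hg4_rho_cont : Continuous rho := by
  unfold rho
  fun_prop

/-- basic estimates on the sublevel set -/
private theorem hg4_base {y : ℂ × ℂ} (hy : y ∈ U2) {c : ℝ}
    (h : ‖y.2 + I‖ ^ 2 / rho y ≤ Real.exp c) :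
    Real.exp (-c) ≤ rho y ∧ ‖y.2‖ ≤ Real.exp c + 1 ∧ ‖y.1‖ ^ 2 ≤ Real.exp c := by
  have hr : 0 < rho y := hy
  have hec := Real.exp_pos c
  have h1 : ‖y.2 + I‖ ^ 2 ≤ Real.exp c * rho y := (div_le_iff₀ hr).mp h
  have him : (y.2 + I).im = y.2.im + 1 := by simp
  have h2 : y.2.im + 1 ≤ ‖y.2 + I‖ := by
    rw [← him]
    exact (le_abs_self _).trans (Complex.abs_im_le_norm _)
  have hrho : rho y = y.2.im - ‖y.1‖ ^ 2 := rfl
  have hz : 0 ≤ ‖y.1‖ ^ 2 := by positivity
  have himpos : 0 < y.2.im := by linarith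
  have hle : rho y ≤ ‖y.2 + I‖ := by linarith
  have hnpos : 1 ≤ ‖y.2 + I‖ := by linarith
  have h3 : ‖y.2 + I‖ ≤ Real.exp c := by
    have h4 : ‖y.2 + I‖ * ‖y.2 + I‖ ≤ Real.exp c * ‖y.2 + I‖ := by
      calc ‖y.2 + I‖ * ‖y.2 + I‖ = ‖y.2 + I‖ ^ 2 := by ring
        _ ≤ Real.exp c * rho y := h1
        _ ≤ Real.exp c * ‖y.2 + I‖ := mul_le_mul_of_nonneg_left hle hec.le
    exact le_of_mul_le_mul_right h4 (by linarith)
  refine ⟨?_, ?_, ?_⟩
  · rw [Real.exp_neg, inv_le_iff_one_le_mul₀ hec]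
    have h5 : 1 ≤ ‖y.2 + I‖ ^ 2 := by nlinarith
    linarith
  · have h6 : ‖y.2‖ ≤ ‖y.2 + I‖ + ‖(I : ℂ)‖ := by
      have := norm_sub_le (y.2 + I) I
      simpa using this
    have h7 : ‖(I : ℂ)‖ = 1 := by simp
    linarith
  · linarith

theorem kexhG_compact {e δ : ℝ} (N m : ℕ) (he : 0 < e) (he1 : e < 1) (hδ : 0 < δ) (c : ℝ) :
    IsCompact {p | p ∈ MG e δ N m ∧ kexhG e δ N m p ≤ c} := by
  set K : Set (ℂ × ℂ) := {y | Real.exp (-c) ≤ rho y ∧ ‖y.2‖ ≤ Real.exp c + 1 ∧
    ‖y.1‖ ^ 2 ≤ Real.exp c} with hK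
  have hKclosed : IsClosed K := by
    have h1 : IsClosed {y : ℂ × ℂ | Real.exp (-c) ≤ rho y} :=
      isClosed_le continuous_const hg4_rho_cont
    have h2 : IsClosed {y : ℂ × ℂ | ‖y.2‖ ≤ Real.exp c + 1} :=
      isClosed_le (by fun_prop) continuous_const
    have h3 : IsClosed {y : ℂ × ℂ | ‖y.1‖ ^ 2 ≤ Real.exp c} :=
      isClosed_le (by fun_prop) continuous_const
    exact h1.inter (h2.inter h3)
  have hKcomp : IsCompact K := by
    refine IsCompact.of_isClosed_subset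
      ((isCompact_closedBall (0 : ℂ) (1 + Real.exp c)).prod
        (isCompact_closedBall (0 : ℂ) (Real.exp c + 1))) hKclosed ?_
    rintro y ⟨-, h2, h3⟩
    refine ⟨?_, ?_⟩
    · simp only [mem_closedBall, dist_zero_right]
      nlinarith [norm_nonneg y.1]
    · simpa [mem_closedBall, dist_zero_right] using h2
  have hKU : K ⊆ U2 := by
    rintro y ⟨h1, -, -⟩
    exact (Real.exp_pos _).trans_le h1
  have hphi : ContinuousOn (phiL e δ N 0) U2 := (phiL_smooth N he he1 hδ).continuousOn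
  have hphiK : ContinuousOn (phiL e δ N 0) K := hphi.mono hKU
  obtain ⟨B, hB⟩ := hKcomp.bddBelow_image hphiK
  have hB' : ∀ y ∈ K, B ≤ phiL e δ N 0 y := fun y hy => hB ⟨y, hy, rfl⟩
  set Q : Set (VH m) := K ×ˢ closedBall (0 : Fb (m + 1)) (1 + Real.exp (-B)) with hQ
  have hQcomp : IsCompact Q := hKcomp.prod (isCompact_closedBall _ _)
  -- the function `1 - ‖v‖² exp φ`
  have hG : ContinuousOn
      (fun p : VH m => 1 - ‖p.2‖ ^ 2 * Real.exp (phiL e δ N 0 p.1)) Q := by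
    have h1 : ContinuousOn (fun p : VH m => phiL e δ N 0 p.1) Q :=
      hphiK.comp continuousOn_fst (fun p hp => hp.1)
    exact continuousOn_const.sub
      ((continuous_snd.norm.pow 2).continuousOn.mul (Real.continuous_exp.comp_continuousOn h1))
  set Q1 : Set (VH m) :=
    Q ∩ (fun p : VH m => 1 - ‖p.2‖ ^ 2 * Real.exp (phiL e δ N 0 p.1)) ⁻¹'
      (Ici (Real.exp (-c))) with hQ1
  have hQ1closed : IsClosed Q1 := hG.preimage_isClosed_of_isClosed hQcomp.isClosed isClosed_Ici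
  have hQ1Q : Q1 ⊆ Q := inter_subset_left
  have hkc : ContinuousOn (kexhG e δ N m) Q1 := by
    have h1 : ContinuousOn (fun p : VH m => ‖p.1.2 + I‖ ^ 2 / rho p.1) Q1 := by
      refine ContinuousOn.div (by fun_prop) (hg4_rho_cont.comp continuous_fst).continuousOn ?_
      intro p hp
      exact (hKU hp.1.1 : 0 < rho p.1).ne'
    have h2 : ContinuousOn (fun p : VH m =>
        Real.log (‖p.1.2 + I‖ ^ 2 / rho p.1)) Q1 := by
      refine h1.log ?_
      intro p hp
      have hr : 0 < rho p.1 := hKU hp.1.1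
      have him : 0 < p.1.2.im := by
        have hrho : rho p.1 = p.1.2.im - ‖p.1.1‖ ^ 2 := rfl
        have hz : 0 ≤ ‖p.1.1‖ ^ 2 := by positivity
        linarith
      have hne : p.1.2 + I ≠ 0 := by
        intro h0
        have := congrArg Complex.im h0
        simp at this
        linarith
      have : 0 < ‖p.1.2 + I‖ := norm_pos_iff.mpr hne
      positivity
    have h3 : ContinuousOn (fun p : VH m =>
        Real.log (1 - ‖p.2‖ ^ 2 * Real.exp (phiL e δ N 0 p.1))) Q1 := by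
      refine (hG.mono hQ1Q).log ?_
      intro p hp
      exact ((Real.exp_pos _).trans_le hp.2).ne'
    exact h2.sub h3
  have hfin : IsClosed (Q1 ∩ kexhG e δ N m ⁻¹' (Iic c)) :=
    hkc.preimage_isClosed_of_isClosed hQ1closed isClosed_Iic
  have heq : {p | p ∈ MG e δ N m ∧ kexhG e δ N m p ≤ c} = Q1 ∩ kexhG e δ N m ⁻¹' (Iic c) := by
    ext p
    constructor
    · rintro ⟨⟨hpU, hpv⟩, hpk⟩
      have hr : 0 < rho p.1 := hpU
      have hrho : rho p.1 = p.1.2.im - ‖p.1.1‖ ^ 2 := rfl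
      have hz : 0 ≤ ‖p.1.1‖ ^ 2 := by positivity
      have him : 0 < p.1.2.im := by linarith
      have h2 : p.1.2.im + 1 ≤ ‖p.1.2 + I‖ := by
        have him' : (p.1.2 + I).im = p.1.2.im + 1 := by simp
        rw [← him']
        exact (le_abs_self _).trans (Complex.abs_im_le_norm _)
      have hnpos : 1 ≤ ‖p.1.2 + I‖ := by linarith
      have hq1 : 1 ≤ ‖p.1.2 + I‖ ^ 2 / rho p.1 := by
        rw [one_le_div hr]
        nlinarith
      have hlog1 : 0 ≤ Real.log (‖p.1.2 + I‖ ^ 2 / rho p.1) := Real.log_nonneg hq1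
      have hvn : 0 ≤ ‖p.2‖ ^ 2 * Real.exp (phiL e δ N 0 p.1) := by positivity
      have hg0 : 0 < 1 - ‖p.2‖ ^ 2 * Real.exp (phiL e δ N 0 p.1) := by linarith
      have hlog2 : Real.log (1 - ‖p.2‖ ^ 2 * Real.exp (phiL e δ N 0 p.1)) ≤ 0 :=
        Real.log_nonpos hg0.le (by linarith)
      have hk : Real.log (‖p.1.2 + I‖ ^ 2 / rho p.1) -
        Real.log (1 - ‖p.2‖ ^ 2 * Real.exp (phiL e δ N 0 p.1)) ≤ c := hpk
      have hA : ‖p.1.2 + I‖ ^ 2 / rho p.1 ≤ Real.exp c :=
        (Real.log_le_iff_le_exp (by linarith)).mp (by linarith)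
      have hBd : Real.exp (-c) ≤ 1 - ‖p.2‖ ^ 2 * Real.exp (phiL e δ N 0 p.1) :=
        (Real.le_log_iff_exp_le hg0).mp (by linarith)
      have hpK : p.1 ∈ K := hg4_base hpU hA
      refine ⟨⟨⟨hpK, ?_⟩, hBd⟩, hpk⟩
      have hb := hB' p.1 hpK
      have hE : Real.exp B ≤ Real.exp (phiL e δ N 0 p.1) := Real.exp_le_exp.mpr hb
      have hv2 : ‖p.2‖ ^ 2 * Real.exp B ≤ 1 := by
        have := mul_le_mul_of_nonneg_left hE (by positivity : (0 : ℝ) ≤ ‖p.2‖ ^ 2)
        linarith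
      have hv3 : ‖p.2‖ ^ 2 ≤ Real.exp (-B) := by
        rw [Real.exp_neg, ← one_div, le_div_iff₀ (Real.exp_pos B)]
        exact hv2
      simp only [mem_closedBall, dist_zero_right]
      nlinarith [norm_nonneg p.2]
    · rintro ⟨⟨⟨hpK, hpB⟩, hpG⟩, hpk⟩
      refine ⟨⟨hKU hpK, ?_⟩, hpk⟩
      have h1 : Real.exp (-c) ≤ 1 - ‖p.2‖ ^ 2 * Real.exp (phiL e δ N 0 p.1) := hpG
      have h2 := Real.exp_pos (-c)
      linarith
  rw [heq]
  exact hQcomp.of_isClosed_subset hfin (inter_subset_left.trans hQ1Q)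



private theorem hg4_mem {e δ : ℝ} {N m : ℕ} {p : VH m} (hp : p ∈ MG e δ N m) (t : unitInterval) :
    (p.1, ((t : ℝ) : ℂ) • p.2) ∈ MG e δ N m := by
  refine ⟨hp.1, ?_⟩
  refine lt_of_le_of_lt ?_ hp.2
  apply mul_le_mul_of_nonneg_right _ (Real.exp_pos _).le
  have h1 : ‖((t : ℝ) : ℂ) • p.2‖ ≤ ‖p.2‖ := by
    rw [norm_smul, Complex.norm_real, Real.norm_eq_abs, abs_of_nonneg t.2.1]
    exact mul_le_of_le_one_left (norm_nonneg _) t.2.2
  exact pow_le_pow_left₀ (norm_nonneg _) h1 2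

private theorem hg4_mem0 {e δ : ℝ} {N m : ℕ} {y : ℂ × ℂ} (hy : y ∈ U2) :
    ((y, 0) : VH m) ∈ MG e δ N m := by
  refine ⟨hy, ?_⟩
  show ‖(0 : Fb (m + 1))‖ ^ 2 * Real.exp (phiL e δ N 0 y) < 1
  rw [norm_zero]
  norm_num

/-- `MG` retracts onto the convex set `U2`. -/
theorem MG_contractible {e δ : ℝ} (N m : ℕ) (he : 0 < e) (he1 : e < 1) (hδ : 0 < δ) :
    ContractibleSpace (MG e δ N m) := by
  have : ContractibleSpace U2 := U2_convex.contractibleSpace U2_nonempty
  have hto : Continuous (fun p : MG e δ N m => (⟨p.1.1, p.2.1⟩ : U2)) :=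
    Continuous.subtype_mk (continuous_fst.comp continuous_subtype_val) _
  have hinv : Continuous (fun y : U2 => (⟨(y.1, 0), hg4_mem0 y.2⟩ : MG e δ N m)) :=
    Continuous.subtype_mk (continuous_subtype_val.prodMk continuous_const) _
  have hH : Continuous (fun q : unitInterval × MG e δ N m =>
      (⟨(q.2.1.1, ((q.1 : ℝ) : ℂ) • q.2.1.2), hg4_mem q.2.2 q.1⟩ : MG e δ N m)) := by
    apply Continuous.subtype_mk
    have h1 : Continuous (fun q : unitInterval × MG e δ N m => q.2.1) :=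
      continuous_subtype_val.comp continuous_snd
    have h2 : Continuous (fun q : unitInterval × MG e δ N m => ((q.1 : ℝ) : ℂ)) :=
      Complex.continuous_ofReal.comp (continuous_subtype_val.comp continuous_fst)
    exact (continuous_fst.comp h1).prodMk (h2.smul (continuous_snd.comp h1))
  let eqv : ContinuousMap.HomotopyEquiv (MG e δ N m) U2 :=
    { toFun := ⟨_, hto⟩
      invFun := ⟨_, hinv⟩
      left_inv := ⟨{
        toFun := fun q => ⟨(q.2.1.1, ((q.1 : ℝ) : ℂ) • q.2.1.2), hg4_mem q.2.2 q.1⟩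
        continuous_toFun := hH
        map_zero_left := fun p => by
          apply Subtype.ext
          show (p.1.1, (((0 : unitInterval) : ℝ) : ℂ) • p.1.2) = (p.1.1, (0 : Fb (m + 1)))
          simp
        map_one_left := fun p => by
          apply Subtype.ext
          show (p.1.1, (((1 : unitInterval) : ℝ) : ℂ) • p.1.2) = p.1
          simp }⟩
      right_inv := by
        have h1 : (⟨_, hto⟩ : C(MG e δ N m, U2)).comp (⟨_, hinv⟩ : C(U2, MG e δ N m)) =
            ContinuousMap.id U2 := by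
          ext y
          · rfl
          · rfl
        rw [h1] }
  exact eqv.contractibleSpace

end P250
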