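import Vale.Agent.Lib.P250.OSD

/-! # P250-G module OneG: non-existence of `J` for all multiplicities
(adapt `OSC.lean`, `OSD.lean`) -/

open Complex Metric Set

namespace P250

/-- O7b for all large `N`: `e`, `δ` do not depend on `N` (only `N ≥ N0` is needed). -/
theorem one_step_all : ∃ (e δ : ℝ) (N0 : ℕ), 0 < e ∧ e < 1 ∧ 0 < δ ∧ 0 < N0 ∧
    ∀ N : ℕ, N0 ≤ N → ∃ g : ℝ, 0 < g ∧
    ∀ (k : ℕ) (J : ℂ × ℂ → ℂ) (c : ℝ), DifferentiableOn ℂ J U2 → (∀ y ∈ U2, J y ≠ 0) →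
    (∀ y, rho y = e ^ 10 → c ≤ DD e δ N (-(k : ℤ)) J y) →
    ∀ x, rho x = 1 → c + g ≤ DD e δ N (-(k : ℤ)) J x := by
  obtain ⟨c4, C, e1, hc4, hC, he1, he1', hmain⟩ := one_step_err
  -- choice of `e`
  set e : ℝ := min e1 (min 1 (c4 / C)) with he
  have hq : 0 < c4 / C := div_pos hc4 hC
  have he0 : 0 < e := lt_min he1 (lt_min one_pos hq)
  have hee1 : e ≤ e1 := min_le_left _ _
  have he1e : e < 1 := by linarith
  have heq : e ≤ c4 / C := (min_le_right _ _).trans (min_le_right _ _)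
  have he2 : C * e ^ 2 ≤ c4 := by
    have h1 : C * e ≤ c4 := by
      rw [le_div_iff₀ hC] at heq
      linarith
    have h2 : C * e ^ 2 = (C * e) * e := by ring
    rw [h2]
    have h3 : 0 < C * e := mul_pos hC he0
    nlinarith
  have hlog : 0 ≤ Real.log (1 / e) := by
    apply Real.log_nonneg
    rw [le_div_iff₀ he0]
    linarith
  have hce : 0 < c4 * e ^ 2 := by positivity
  -- choice of `δ`
  set L : ℝ := Real.log (1 / e) with hL
  have hL1 : 0 < 20 * (L + 1) := by positivity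
  set δ : ℝ := c4 * e ^ 2 / (20 * (L + 1)) with hδ
  have hδ0 : 0 < δ := div_pos hce hL1
  have hδL : 10 * δ * L ≤ c4 * e ^ 2 / 2 := by
    have h1 : δ * (20 * (L + 1)) = c4 * e ^ 2 := by
      rw [hδ]
      field_simp
    nlinarith [mul_nonneg hδ0.le hlog]
  -- choice of `N0`
  obtain ⟨N0, hN0⟩ := exists_nat_gt ((60 * L + 2) / (c4 * e ^ 2))
  have hN00 : (0 : ℝ) < N0 := lt_of_le_of_lt (div_nonneg (by linarith) hce.le) hN0
  have hNpos : 0 < N0 := by exact_mod_cast hN00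
  rw [div_lt_iff₀ hce] at hN0
  refine ⟨e, δ, N0, he0, he1e, hδ0, hNpos, ?_⟩
  intro N hN
  have hNR : (N0 : ℝ) ≤ N := by exact_mod_cast hN
  have hNbig : 60 * L + 2 < N * (c4 * e ^ 2) :=
    lt_of_lt_of_le hN0 (mul_le_mul_of_nonneg_right hNR hce.le)
  refine ⟨1, one_pos, ?_⟩
  intro k J c hJ hJ0 hc x hx
  have h := hmain e δ N k J c he0 hee1 hδ0 hJ hJ0 hc x hx
  refine le_trans ?_ h
  have hN1 : (0 : ℝ) ≤ N := Nat.cast_nonneg _
  have h2 : (N : ℝ) * C * e ^ 4 ≤ N * (c4 * e ^ 2) := by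
    have h3 : (N : ℝ) * C * e ^ 4 = N * e ^ 2 * (C * e ^ 2) := by ring
    have h4 : (N : ℝ) * (c4 * e ^ 2) = N * e ^ 2 * c4 := by ring
    rw [h3, h4]
    exact mul_le_mul_of_nonneg_left he2 (by positivity)
  have h5 : (N : ℝ) * (10 * δ * L) ≤ N * (c4 * e ^ 2 / 2) :=
    mul_le_mul_of_nonneg_left hδL hN1
  have h6 : c + 2 * c4 * N * e ^ 2 - N * C * e ^ 4 - (3 + N * δ) * (10 * L) =
      c + 2 * (N * (c4 * e ^ 2)) - N * C * e ^ 4 - 30 * L - N * (10 * δ * L) := by ring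
  rw [h6]
  have h7 : (N : ℝ) * (c4 * e ^ 2 / 2) = N * (c4 * e ^ 2) / 2 := by ring
  linarith

theorem oneG_no_J_aux {e δ g : ℝ} {N : ℕ} (he : 0 < e) (he1 : e < 1) (hg : 0 < g)
    (hstep : ∀ (k : ℕ) (J : ℂ × ℂ → ℂ) (c : ℝ), DifferentiableOn ℂ J U2 → (∀ y ∈ U2, J y ≠ 0) →
    (∀ y, rho y = e ^ 10 → c ≤ DD e δ N (-(k : ℤ)) J y) →
    ∀ x, rho x = 1 → c + g ≤ DD e δ N (-(k : ℤ)) J x) :
    ∀ J : ℂ × ℂ → ℂ, DifferentiableOn ℂ J U2 → (∀ y ∈ U2, J y ≠ 0) →
    ∀ CJ : ℝ, ¬ (∀ y ∈ U2, ‖J y‖ ^ 2 ≤ CJ * (rho y)⁻¹ ^ 3 * Real.exp (phiL e δ N 0 y)) := by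
  intro J hJ hJ0 CJ hbound
  -- the level sets
  have hsq : ∀ k : ℕ, sg e k ^ 2 = e ^ (10 * k) := by
    intro k
    unfold sg
    rw [← zpow_natCast, ← zpow_mul, ← zpow_natCast]
    congr 1
    push_cast
    ring
  -- the starting bound
  have hstart : ∀ y ∈ U2, -Real.log CJ ≤ DD e δ N 0 J y := by
    intro y hy
    have hr : 0 < rho y := hy
    have hJpos : 0 < ‖J y‖ ^ 2 := pow_pos (norm_pos_iff.2 (hJ0 y hy)) 2
    have hb := hbound y hy
    have hCJ : 0 < CJ := by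
      by_contra hcon
      have hle : CJ * (rho y)⁻¹ ^ 3 * Real.exp (phiL e δ N 0 y) ≤ 0 :=
        mul_nonpos_of_nonpos_of_nonneg (mul_nonpos_of_nonpos_of_nonneg (not_lt.1 hcon)
          (by positivity)) (Real.exp_pos _).le
      linarith
    have hlog := Real.log_le_log hJpos hb
    have hr3 : Real.log ((rho y)⁻¹ ^ 3) = -(3 * Real.log (rho y)) := by
      rw [Real.log_pow, Real.log_inv]
      push_cast
      ring
    rw [Real.log_mul (by positivity) (Real.exp_pos _).ne', Real.log_exp,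
      Real.log_mul hCJ.ne' (by positivity), hr3] at hlog
    unfold DD
    unfold phiL at hlog
    linarith
  -- one step down
  have hdown : ∀ (k : ℕ) (c : ℝ), (∀ y, rho y = e ^ (10 * (k + 1)) → c ≤ DD e δ N 0 J y) →
      ∀ y, rho y = e ^ (10 * k) → c + g ≤ DD e δ N 0 J y := by
    intro k c hc y hy
    have hs := sg_pos' he k
    have hmaps : ∀ z ∈ U2, dil (sg e k) z ∈ U2 := by
      intro z hz
      have hz' : 0 < rho z := hz
      show 0 < rho (dil (sg e k) z)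
      rw [rho_dil hs]
      positivity
    have hdiff : DifferentiableOn ℂ (fun z => J (dil (sg e k) z)) U2 := by
      refine hJ.comp (t := U2) ?_ hmaps
      unfold dil
      fun_prop
    have key := hstep k (fun z => J (dil (sg e k) z))
      (c + (3 + N * δ) * Real.log (sg e k ^ 2)) hdiff (fun z hz => hJ0 _ (hmaps z hz)) ?_
      (dil (sg e k)⁻¹ y) ?_
    · have hr : 0 < rho (dil (sg e k)⁻¹ y) := by
        rw [rho_dil (inv_pos.2 hs), hy]
        positivity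
      rw [DD_dil he N k J hr, dil_dil (mul_inv_cancel₀ hs.ne')] at key
      linarith
    · intro z hz
      have hr : 0 < rho z := by
        rw [hz]
        positivity
      rw [DD_dil he N k J hr]
      have := hc (dil (sg e k) z) (by
        rw [rho_dil hs, hz, hsq k, ← pow_add]
        congr 1)
      linarith
    · rw [rho_dil (inv_pos.2 hs), hy, ← hsq k, inv_pow]
      exact inv_mul_cancel₀ (pow_pos hs 2).ne'
  -- iterate
  have hiter : ∀ (m k : ℕ), ∀ y, rho y = e ^ (10 * k) →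
      -Real.log CJ + m * g ≤ DD e δ N 0 J y := by
    intro m
    induction m with
    | zero =>
      intro k y hy
      have hr : 0 < rho y := by
        rw [hy]
        positivity
      have := hstart y hr
      push_cast
      linarith
    | succ m ih =>
      intro k y hy
      have := hdown k (-Real.log CJ + m * g) (ih (k + 1)) y hy
      push_cast
      linarith
  obtain ⟨m, hm⟩ := exists_nat_gt ((DD e δ N 0 J (0, I) + Real.log CJ) / g)
  have h1 := hiter m 0 (0, I) (by simp [rho])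
  rw [div_lt_iff₀ hg] at hm
  linarith


/-- Non-existence: `l = m + 1` is the fibre dimension; `l * phiL e δ N = phiL e δ (l N)`. -/
theorem no_J_all : ∃ (e δ : ℝ) (N : ℕ), 0 < e ∧ e < 1 ∧ 0 < δ ∧ 0 < N ∧
    ∀ l : ℕ, 1 ≤ l → ∀ J : ℂ × ℂ → ℂ, DifferentiableOn ℂ J U2 → (∀ y ∈ U2, J y ≠ 0) →
    ∀ CJ : ℝ, ¬ (∀ y ∈ U2, ‖J y‖ ^ 2 ≤
      CJ * (rho y)⁻¹ ^ 3 * Real.exp ((l : ℝ) * phiL e δ N 0 y)) := by
  obtain ⟨e, δ, N0, he, he1, hδ, hN0, hall⟩ := one_step_all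
  refine ⟨e, δ, N0, he, he1, hδ, hN0, ?_⟩
  intro l hl J hJ hJ0 CJ
  obtain ⟨g, hg, hstep⟩ := hall (l * N0) (Nat.le_mul_of_pos_left N0 hl)
  have h := oneG_no_J_aux he he1 hg hstep J hJ hJ0 CJ
  have hphi : ∀ y, (l : ℝ) * phiL e δ N0 0 y = phiL e δ (l * N0) 0 y := by
    intro y
    unfold phiL
    push_cast
    ring
  intro hcon
  apply h
  intro y hy
  rw [← hphi]
  exact hcon y hy

end P250
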