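import Mathlib.Analysis.SpecialFunctions.Complex.LogDeriv
import Vale.Agent.Lib.P250.G.GDefs

/-! # P250-G module JetA: domain, smoothness and low jets of the general model potential
(adapt `MJA.lean`, `MJB.lean`; the base potential `b` enters linearly) -/

open scoped ContDiff Topology
open Complex Metric Set

namespace P250

section JaAux

variable {V : Type*} [NormedAddCommGroup V] [NormedSpace ℂ V]

private lemma ja_line {F : V → ℂ} {z : V} (hF : DifferentiableAt ℂ F z) (u : V) :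
    HasDerivAt (fun c : ℂ => F (z + c • u)) (dd F u z) 0 := by
  have h1 : HasFDerivAt F (fderiv ℂ F z) (z + (0 : ℂ) • u) := by
    rw [zero_smul, add_zero]
    exact hF.hasFDerivAt
  have h2 : HasDerivAt (fun c : ℂ => z + c • u) u 0 := by
    have h3 := ((hasDerivAt_id (0 : ℂ)).smul_const u).const_add z
    simpa using h3
  exact h1.comp_hasDerivAt 0 h2

private lemma ja_of_line {F : V → ℂ} {z : V} (hF : DifferentiableAt ℂ F z) {u : V} {d : ℂ}
    (h : HasDerivAt (fun c : ℂ => F (z + c • u)) d 0) : dd F u z = d :=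
  (ja_line hF u).unique h

private lemma ja_congr {F G : V → ℂ} {U : Set V} (hU : IsOpen U) (h : EqOn F G U) (u : V) :
    EqOn (dd F u) (dd G u) U := by
  intro z hz
  have h1 : F =ᶠ[𝓝 z] G := by
    filter_upwards [hU.mem_nhds hz] with x hx
    exact h hx
  unfold dd
  rw [h1.fderiv_eq]

private lemma ja_smooth {F : V → ℂ} {U : Set V} (hU : IsOpen U) (hF : ContDiffOn ℂ ∞ F U) (u : V) :
    ContDiffOn ℂ ∞ (dd F u) U := by
  have h1 : ContDiffOn ℂ ∞ (fderiv ℂ F) U := hF.fderiv_of_isOpen hU (by simp)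
  exact h1.clm_apply contDiffOn_const

private lemma ja_diff {F : V → ℂ} {U : Set V} (hU : IsOpen U) (hF : ContDiffOn ℂ ∞ F U) {z : V}
    (hz : z ∈ U) : DifferentiableAt ℂ F z :=
  (hF.contDiffAt (hU.mem_nhds hz)).differentiableAt (by simp)

private lemma ja_comp {φ : ℂ → ℂ} {φ' : ℂ} {L : V → ℂ} {z : V} (hφ : HasDerivAt φ φ' (L z))
    (hL : DifferentiableAt ℂ L z) (u : V) :
    dd (fun z => φ (L z)) u z = φ' * dd L u z := by
  have h1 := hφ.comp_hasFDerivAt z hL.hasFDerivAt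
  unfold dd
  have h2 : HasFDerivAt (fun z => φ (L z)) (φ' • fderiv ℂ L z) z := h1
  rw [h2.fderiv]
  rfl

end JaAux

/-- outer functions -/
private noncomputable def jaS (w : ℂ) : ℂ := Complex.exp w / (1 - Complex.exp w)

private lemma jaS_deriv {w : ℂ} (h : 1 - Complex.exp w ≠ 0) :
    HasDerivAt jaS (jaS w * (1 + jaS w)) w := by
  have h1 : HasDerivAt (fun w : ℂ => Complex.exp w) (Complex.exp w) w := Complex.hasDerivAt_exp w
  have h2 : HasDerivAt (fun w : ℂ => 1 - Complex.exp w) (-Complex.exp w) w := by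
    simpa using h1.const_sub 1
  have h3 := h1.div h2 h
  have h4 : (Complex.exp w * (1 - Complex.exp w) - Complex.exp w * -Complex.exp w) /
      (1 - Complex.exp w) ^ 2 = jaS w * (1 + jaS w) := by
    unfold jaS
    field_simp
    ring
  rw [← h4]
  exact h3

private lemma jaG_deriv {w : ℂ} (h : 1 - Complex.exp w ∈ slitPlane) :
    HasDerivAt (fun w : ℂ => -Complex.log (1 - Complex.exp w)) (jaS w) w := by
  have h1 : HasDerivAt (fun w : ℂ => Complex.exp w) (Complex.exp w) w := Complex.hasDerivAt_exp w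
  have h2 : HasDerivAt (fun w : ℂ => 1 - Complex.exp w) (-Complex.exp w) w := by
    simpa using h1.const_sub 1
  have h3 := (h2.clog h).neg
  have h4 : -(-Complex.exp w / (1 - Complex.exp w)) = jaS w := by
    unfold jaS
    rw [neg_div, neg_neg]
  rw [← h4]
  exact h3

section JaMain

variable {B : Type*} [NormedAddCommGroup B] [NormedSpace ℂ B]

private def jaD (S : Set (B × B)) : Set ((B × ℂ) × (B × ℂ)) := {z | (z.1.1, z.2.1) ∈ S}

private lemma jaD_open {S : Set (B × B)} (hS : IsOpen S) : IsOpen (jaD S) := by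
  apply hS.preimage
  fun_prop

private def jaP (F : B × B → ℂ) (z : (B × ℂ) × (B × ℂ)) : ℂ := F (z.1.1, z.2.1)

private def jaL (f : B × B → ℂ) (z : (B × ℂ) × (B × ℂ)) : ℂ := z.1.2 + z.2.2 + jaP f z

private noncomputable def japi : ((B × ℂ) × (B × ℂ)) →L[ℂ] (B × B) :=
  ((ContinuousLinearMap.fst ℂ B ℂ).comp (ContinuousLinearMap.fst ℂ (B × ℂ) (B × ℂ))).prod
    ((ContinuousLinearMap.fst ℂ B ℂ).comp (ContinuousLinearMap.snd ℂ (B × ℂ) (B × ℂ)))

private lemma ja_P_diff {F : B × B → ℂ} {z : (B × ℂ) × (B × ℂ)}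
    (hF : DifferentiableAt ℂ F (z.1.1, z.2.1)) : DifferentiableAt ℂ (jaP F) z := by
  have h1 : DifferentiableAt ℂ F (japi z) := hF
  exact h1.comp z (japi (B := B)).differentiableAt

private lemma ja_dd_pi {F : B × B → ℂ} {z : (B × ℂ) × (B × ℂ)}
    (hF : DifferentiableAt ℂ F (z.1.1, z.2.1)) (u : (B × ℂ) × (B × ℂ)) :
    dd (jaP F) u z = dd F (u.1.1, u.2.1) (z.1.1, z.2.1) := by
  have h1 : HasFDerivAt F (fderiv ℂ F (z.1.1, z.2.1)) (japi z) := hF.hasFDerivAt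
  have h2 := h1.comp z (japi (B := B)).hasFDerivAt
  have h3 : HasFDerivAt (jaP F) ((fderiv ℂ F (z.1.1, z.2.1)).comp japi) z := h2
  unfold dd
  rw [h3.fderiv]
  rfl

variable {S : Set (B × B)} {b f : B × B → ℂ}

private lemma jaP_smooth (hf : ContDiffOn ℂ ∞ f S) : ContDiffOn ℂ ∞ (jaP f) (jaD S) := by
  refine hf.comp (g := f) (f := fun z : (B × ℂ) × (B × ℂ) => (z.1.1, z.2.1)) ?_ ?_
  · apply ContDiff.contDiffOn
    fun_prop
  · intro z hz
    exact hz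

private lemma jaL_smooth (hf : ContDiffOn ℂ ∞ f S) : ContDiffOn ℂ ∞ (jaL f) (jaD S) := by
  unfold jaL
  refine ContDiffOn.add ?_ (jaP_smooth hf)
  apply ContDiff.contDiffOn
  fun_prop

private lemma jaU_open (hS : IsOpen S) (hf : ContDiffOn ℂ ∞ f S) : IsOpen (Ugen S f) := by
  have h1 := (jaL_smooth hf).continuousOn
  have h2 : ContinuousOn (fun z => ‖Complex.exp (jaL f z)‖) (jaD S) :=
    (Complex.continuous_exp.comp_continuousOn h1).norm
  have h3 := h2.isOpen_inter_preimage (jaD_open hS) (isOpen_Iio (a := (1 : ℝ)))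
  exact h3

/-- facts on the domain -/
private lemma jaU_facts {z : (B × ℂ) × (B × ℂ)} (hz : z ∈ Ugen S f) :
    1 - Complex.exp (jaL f z) ∈ slitPlane ∧ 1 - Complex.exp (jaL f z) ≠ 0 := by
  obtain ⟨h1, h2⟩ := hz
  have h5 : 1 - Complex.exp (jaL f z) ∈ slitPlane := by
    left
    have := Complex.re_le_norm (Complex.exp (jaL f z))
    have h6 : ‖Complex.exp (jaL f z)‖ < 1 := h2
    simp only [sub_re, one_re]
    linarith
  exact ⟨h5, slitPlane_ne_zero h5⟩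

private lemma ja_Kgen_eq (b f : B × B → ℂ) : Kgen b f = fun z =>
    jaP b z + (-Complex.log (1 - Complex.exp (jaL f z))) := by
  funext z
  unfold Kgen jaL jaP
  rw [sub_eq_add_neg]

private lemma ja_K_smooth (hS : IsOpen S) (hb : ContDiffOn ℂ ∞ b S) (hf : ContDiffOn ℂ ∞ f S) :
    ContDiffOn ℂ ∞ (Kgen b f) (Ugen S f) := by
  rw [ja_Kgen_eq]
  intro z hz
  apply ContDiffAt.contDiffWithinAt
  have h1 : ContDiffAt ℂ ∞ (jaP b) z := (jaP_smooth hb).contDiffAt ((jaD_open hS).mem_nhds hz.1)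
  have h2 : ContDiffAt ℂ ∞ (jaL f) z := (jaL_smooth hf).contDiffAt ((jaD_open hS).mem_nhds hz.1)
  have h4 := (jaU_facts hz).1
  have h6 : ContDiffAt ℂ ∞ (fun z => Complex.log (1 - Complex.exp (jaL f z))) z :=
    ContDiffAt.comp (g := Complex.log)
      (f := fun z : (B × ℂ) × (B × ℂ) => 1 - Complex.exp (jaL f z)) z
      (Complex.contDiffAt_log h4) (contDiffAt_const.sub h2.cexp)
  exact h1.add h6.neg

private lemma ja_dL (hS : IsOpen S) (hf : ContDiffOn ℂ ∞ f S) (u : (B × ℂ) × (B × ℂ))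
    {z : (B × ℂ) × (B × ℂ)} (hz : z ∈ jaD S) :
    dd (jaL f) u z = u.1.2 + u.2.2 + dd f (u.1.1, u.2.1) (z.1.1, z.2.1) := by
  have hd : DifferentiableAt ℂ (jaL f) z := ja_diff (jaD_open hS) (jaL_smooth hf) hz
  have hfd : DifferentiableAt ℂ f (z.1.1, z.2.1) := ja_diff hS hf hz
  refine ja_of_line hd ?_
  have h : ∀ a b : ℂ, HasDerivAt (fun c : ℂ => a + c * b) b 0 := by
    intro a b
    simpa using ((hasDerivAt_id (0 : ℂ)).mul_const b).const_add a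
  have h1 := ((h z.1.2 u.1.2).add (h z.2.2 u.2.2)).add (ja_line (ja_P_diff hfd) u)
  rw [ja_dd_pi hfd] at h1
  exact h1

private lemma ja_ddL (hS : IsOpen S) (hf : ContDiffOn ℂ ∞ f S) (w u : (B × ℂ) × (B × ℂ))
    {z : (B × ℂ) × (B × ℂ)} (hz : z ∈ jaD S) :
    dd (dd (jaL f) w) u z = dd (dd f (w.1.1, w.2.1)) (u.1.1, u.2.1) (z.1.1, z.2.1) := by
  have h1 := ja_congr (jaD_open hS) (fun z (hz : z ∈ jaD S) => ja_dL hS hf w hz) u hz
  rw [h1]
  have h2 := ja_smooth hS hf (w.1.1, w.2.1)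
  have h3 : DifferentiableAt ℂ (dd f (w.1.1, w.2.1)) (z.1.1, z.2.1) := ja_diff hS h2 hz
  rw [← ja_dd_pi h3 u]
  unfold dd
  rw [fderiv_const_add]
  rfl

private lemma ja_dddL (hS : IsOpen S) (hf : ContDiffOn ℂ ∞ f S) (w u u2 : (B × ℂ) × (B × ℂ))
    {z : (B × ℂ) × (B × ℂ)} (hz : z ∈ jaD S) :
    dd (dd (dd (jaL f) w) u) u2 z =
      dd (dd (dd f (w.1.1, w.2.1)) (u.1.1, u.2.1)) (u2.1.1, u2.2.1) (z.1.1, z.2.1) := by
  have h1 := ja_congr (jaD_open hS) (fun z (hz : z ∈ jaD S) => ja_ddL hS hf w u hz) u2 hz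
  rw [h1]
  have h2 := ja_smooth hS (ja_smooth hS hf (w.1.1, w.2.1)) (u.1.1, u.2.1)
  have h3 : DifferentiableAt ℂ (dd (dd f (w.1.1, w.2.1)) (u.1.1, u.2.1)) (z.1.1, z.2.1) :=
    ja_diff hS h2 hz
  exact ja_dd_pi h3 u2

private lemma ja_step1 (hS : IsOpen S) (hb : ContDiffOn ℂ ∞ b S) (hf : ContDiffOn ℂ ∞ f S)
    (w : (B × ℂ) × (B × ℂ)) : EqOn (dd (Kgen b f) w)
      (fun z => jaP (dd b (w.1.1, w.2.1)) z + jaS (jaL f z) * dd (jaL f) w z) (Ugen S f) := by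
  intro z hz
  obtain ⟨h3, h4⟩ := jaU_facts hz
  have hbd : DifferentiableAt ℂ b (z.1.1, z.2.1) := ja_diff hS hb hz.1
  have hB : DifferentiableAt ℂ (jaP b) z := ja_P_diff hbd
  have hL : DifferentiableAt ℂ (jaL f) z := ja_diff (jaD_open hS) (jaL_smooth hf) hz.1
  have h6 := ja_comp (jaG_deriv h3) hL w
  have h8 : DifferentiableAt ℂ (fun z => -Complex.log (1 - Complex.exp (jaL f z))) z :=
    (jaG_deriv h3).differentiableAt.comp z hL
  rw [ja_Kgen_eq]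
  refine ja_of_line (hB.add h8) ?_
  have h9 := (ja_line hB w).add (ja_line h8 w)
  rw [h6, ja_dd_pi hbd] at h9
  exact h9

private lemma ja_step2 (hS : IsOpen S) (hb : ContDiffOn ℂ ∞ b S) (hf : ContDiffOn ℂ ∞ f S)
    (w u : (B × ℂ) × (B × ℂ)) : EqOn (dd (dd (Kgen b f) w) u) (fun z =>
      jaP (dd (dd b (w.1.1, w.2.1)) (u.1.1, u.2.1)) z +
      (jaS (jaL f z) * (1 + jaS (jaL f z)) * dd (jaL f) u z * dd (jaL f) w z +
        jaS (jaL f z) * dd (dd (jaL f) w) u z)) (Ugen S f) := by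
  intro z hz
  rw [ja_congr (jaU_open hS hf) (ja_step1 hS hb hf w) u hz]
  obtain ⟨h3, h4⟩ := jaU_facts hz
  have hLs := jaL_smooth hf
  have hL : DifferentiableAt ℂ (jaL f) z := ja_diff (jaD_open hS) hLs hz.1
  have hLw : DifferentiableAt ℂ (dd (jaL f) w) z :=
    ja_diff (jaD_open hS) (ja_smooth (jaD_open hS) hLs w) hz.1
  have hbd : DifferentiableAt ℂ (dd b (w.1.1, w.2.1)) (z.1.1, z.2.1) :=
    ja_diff hS (ja_smooth hS hb _) hz.1
  have hB : DifferentiableAt ℂ (jaP (dd b (w.1.1, w.2.1))) z := ja_P_diff hbd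
  have hSd : DifferentiableAt ℂ (fun z => jaS (jaL f z)) z :=
    (jaS_deriv h4).differentiableAt.comp z hL
  refine ja_of_line (hB.add (hSd.mul hLw)) ?_
  have h9 := (ja_line hB u).add ((ja_line hSd u).mul (ja_line hLw u))
  rw [ja_comp (jaS_deriv h4) hL, ja_dd_pi hbd] at h9
  simp only [zero_smul, add_zero] at h9
  exact h9

/-- the point -/
private lemma ja_cV0 (c : B →L[ℝ] B) (τ0 : ℂ) : cV c (0, τ0) = (0, starRingEnd ℂ τ0) := by
  simp [cV]

private lemma ja_z0_mem (h0 : ((0 : B), (0 : B)) ∈ S)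
    (hl : ∀ x, (x, 0) ∈ S → f (x, 0) = 0) {τ0 : ℂ} (hτ : τ0.re < 0) :
    ((((0 : B), τ0), ((0 : B), starRingEnd ℂ τ0)) : (B × ℂ) × (B × ℂ)) ∈ Ugen S f ∧
    Complex.exp (jaL f ((((0 : B), τ0), ((0 : B), starRingEnd ℂ τ0)))) =
      (Real.exp (2 * τ0.re) : ℂ) := by
  have h1 : jaL f ((((0 : B), τ0), ((0 : B), starRingEnd ℂ τ0))) = ((2 * τ0.re : ℝ) : ℂ) := by
    unfold jaL jaP
    simp only
    rw [hl 0 h0, Complex.add_conj, add_zero]
  have h2 : Complex.exp (jaL f ((((0 : B), τ0), ((0 : B), starRingEnd ℂ τ0)))) =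
      (Real.exp (2 * τ0.re) : ℂ) := by
    rw [h1, Complex.ofReal_exp]
  refine ⟨⟨h0, ?_⟩, h2⟩
  have h3 : ‖Complex.exp (jaL f ((((0 : B), τ0), ((0 : B), starRingEnd ℂ τ0))))‖ < 1 := by
    rw [h2, Complex.norm_real, Real.norm_eq_abs, abs_of_pos (Real.exp_pos _), Real.exp_lt_one_iff]
    linarith
  exact h3

private lemma ja_S0 (h0 : ((0 : B), (0 : B)) ∈ S) (hl : ∀ x, (x, 0) ∈ S → f (x, 0) = 0) {τ0 : ℂ}
    (hτ : τ0.re < 0) {s : ℝ} (hs : s = Real.exp (2 * τ0.re) / (1 - Real.exp (2 * τ0.re))) :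
    jaS (jaL f ((((0 : B), τ0), ((0 : B), starRingEnd ℂ τ0)))) = s := by
  unfold jaS
  rw [(ja_z0_mem h0 hl hτ).2, hs]
  push_cast
  rfl

/-- pure derivatives vanish -/
private lemma ja_pure_left (hS : IsOpen S) (hf : ContDiffOn ℂ ∞ f S)
    (hl : ∀ x, (x, 0) ∈ S → f (x, 0) = 0) (ξ : B) :
    ∀ x, (x, 0) ∈ S → dd f (ξ, 0) (x, 0) = 0 := by
  intro x hx
  refine ja_of_line (ja_diff hS hf hx) ?_
  have h1 : (fun c : ℂ => f ((x, 0) + c • (ξ, 0))) =ᶠ[𝓝 0] fun _ => 0 := by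
    have h2 : ∀ᶠ c : ℂ in 𝓝 0, ((x + c • ξ, 0) : B × B) ∈ S := by
      have h3 : ContinuousAt (fun c : ℂ => ((x + c • ξ, 0) : B × B)) 0 := by fun_prop
      apply h3
      simp only [zero_smul, add_zero]
      exact hS.mem_nhds hx
    filter_upwards [h2] with c hc
    have h4 : ((x, 0) + c • (ξ, 0) : B × B) = (x + c • ξ, 0) := by
      ext <;> simp
    rw [h4]
    exact hl _ hc
  exact (hasDerivAt_const (0 : ℂ) (0 : ℂ)).congr_of_eventuallyEq h1

private lemma ja_pure_left2 (hS : IsOpen S) (h0 : ((0 : B), (0 : B)) ∈ S)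
    (hf : ContDiffOn ℂ ∞ f S) (hl : ∀ x, (x, 0) ∈ S → f (x, 0) = 0) (ξ ξ' : B) :
    dd (dd f (ξ', 0)) (ξ, 0) (0, 0) = 0 :=
  ja_pure_left hS (ja_smooth hS hf (ξ', 0)) (fun x hx => ja_pure_left hS hf hl ξ' x hx) ξ 0 h0

private lemma ja_pure_right (hS : IsOpen S) (h0 : ((0 : B), (0 : B)) ∈ S)
    (hf : ContDiffOn ℂ ∞ f S) (hr : ∀ y, (0, y) ∈ S → f (0, y) = 0) (η : B) :
    dd f (0, η) (0, 0) = 0 := by
  refine ja_of_line (ja_diff hS hf h0) ?_
  have h1 : (fun c : ℂ => f ((0, 0) + c • (0, η))) =ᶠ[𝓝 0] fun _ => 0 := by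
    have h2 : ∀ᶠ c : ℂ in 𝓝 0, ((0, c • η) : B × B) ∈ S := by
      have h3 : ContinuousAt (fun c : ℂ => ((0, c • η) : B × B)) 0 := by fun_prop
      apply h3
      simp only [zero_smul]
      exact hS.mem_nhds h0
    filter_upwards [h2] with c hc
    have h4 : ((0, 0) + c • (0, η) : B × B) = (0, c • η) := by
      ext <;> simp
    rw [h4]
    exact hr _ hc
  exact (hasDerivAt_const (0 : ℂ) (0 : ℂ)).congr_of_eventuallyEq h1

end JaMain

variable {B : Type*} [NormedAddCommGroup B] [NormedSpace ℂ B] [FiniteDimensional ℂ B]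

theorem Ugen_open {S : Set (B × B)} (hS : IsOpen S) {f : B × B → ℂ} (hf : ContDiffOn ℂ ∞ f S) :
    IsOpen (Ugen S f) :=
  jaU_open hS hf

theorem Kgen_smooth {S : Set (B × B)} (hS : IsOpen S) {b f : B × B → ℂ}
    (hb : ContDiffOn ℂ ∞ b S) (hf : ContDiffOn ℂ ∞ f S) :
    ContDiffOn ℂ ∞ (Kgen b f) (Ugen S f) :=
  ja_K_smooth hS hb hf

theorem Kgen_11 {c : B →L[ℝ] B} {S : Set (B × B)} (hS : IsOpen S) (h0 : (0, 0) ∈ S)
    {b f : B × B → ℂ} (hb : ContDiffOn ℂ ∞ b S) (hf : ContDiffOn ℂ ∞ f S)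
    (hl : ∀ x, (x, 0) ∈ S → f (x, 0) = 0) (hr : ∀ y, (0, y) ∈ S → f (0, y) = 0)
    {τ0 : ℂ} (hτ : τ0.re < 0) {s : ℝ}
    (hs : s = Real.exp (2 * τ0.re) / (1 - Real.exp (2 * τ0.re))) (u v : B × ℂ) :
    K11g (cV c) (Kgen b f) ((0, τ0), cV c (0, τ0)) u v =
      K11g c b (0, 0) u.1 v.1 + s * K11g c f (0, 0) u.1 v.1
        + s * (1 + s) * (u.2 * starRingEnd ℂ v.2) := by
  have hz := (ja_z0_mem h0 hl hτ).1
  unfold K11g
  rw [ja_cV0, ja_step2 hS hb hf _ _ hz]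
  have hcv : cV c v = (c v.1, starRingEnd ℂ v.2) := rfl
  simp only
  rw [ja_S0 h0 hl hτ hs, ja_dL hS hf _ hz.1, ja_dL hS hf _ hz.1, ja_ddL hS hf _ _ hz.1, hcv]
  simp only [jaP, Prod.fst_zero, Prod.snd_zero]
  rw [ja_pure_left hS hf hl _ 0 h0, ja_pure_right hS h0 hf hr]
  ring

theorem Kgen_21 {c : B →L[ℝ] B} {S : Set (B × B)} (hS : IsOpen S) (h0 : (0, 0) ∈ S)
    {b f : B × B → ℂ} (hb : ContDiffOn ℂ ∞ b S) (hf : ContDiffOn ℂ ∞ f S)
    (hl : ∀ x, (x, 0) ∈ S → f (x, 0) = 0) (hr : ∀ y, (0, y) ∈ S → f (0, y) = 0)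
    {τ0 : ℂ} (hτ : τ0.re < 0) {s : ℝ}
    (hs : s = Real.exp (2 * τ0.re) / (1 - Real.exp (2 * τ0.re))) (u u' v : B × ℂ) :
    K21g (cV c) (Kgen b f) ((0, τ0), cV c (0, τ0)) u u' v =
      K21g c b (0, 0) u.1 u'.1 v.1
      + s * (1 + s) * (1 + 2 * s) * (u.2 * u'.2 * starRingEnd ℂ v.2)
      + s * (1 + s) * (u.2 * K11g c f (0, 0) u'.1 v.1 + u'.2 * K11g c f (0, 0) u.1 v.1)
      + s * K21g c f (0, 0) u.1 u'.1 v.1 := by
  have hz := (ja_z0_mem h0 hl hτ).1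
  unfold K21g K11g
  rw [ja_cV0, ja_congr (jaU_open hS hf) (ja_step2 hS hb hf _ _) _ hz]
  obtain ⟨h3, h4⟩ := jaU_facts hz
  have hLs := jaL_smooth hf
  have hD := jaD_open hS
  have hcv : cV c v = (c v.1, starRingEnd ℂ v.2) := rfl
  rw [hcv]
  obtain ⟨z, hzdef⟩ : ∃ z : (B × ℂ) × (B × ℂ), z = ((0, τ0), (0, starRingEnd ℂ τ0)) := ⟨_, rfl⟩
  have hz1 : (z.1.1, z.2.1) = ((0, 0) : B × B) := by rw [hzdef]
  have hS0 := ja_S0 h0 hl hτ hs
  rw [← hzdef] at hz h3 h4 hS0 ⊢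
  have hL : DifferentiableAt ℂ (jaL f) z := ja_diff hD hLs hz.1
  have hLw : DifferentiableAt ℂ (dd (jaL f) (0, (c v.1, starRingEnd ℂ v.2))) z :=
    ja_diff hD (ja_smooth hD hLs _) hz.1
  have hLu : DifferentiableAt ℂ (dd (jaL f) (u', 0)) z :=
    ja_diff hD (ja_smooth hD hLs _) hz.1
  have hLuw : DifferentiableAt ℂ
      (dd (dd (jaL f) (0, (c v.1, starRingEnd ℂ v.2))) (u', 0)) z :=
    ja_diff hD (ja_smooth hD (ja_smooth hD hLs _) _) hz.1
  have hbd : DifferentiableAt ℂ (dd (dd b (0, c v.1)) (u'.1, 0)) (z.1.1, z.2.1) :=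
    ja_diff hS (ja_smooth hS (ja_smooth hS hb _) _) hz.1
  have hB : DifferentiableAt ℂ (jaP (dd (dd b (0, c v.1)) (u'.1, 0))) z := ja_P_diff hbd
  have hSd : DifferentiableAt ℂ (fun z => jaS (jaL f z)) z :=
    (jaS_deriv h4).differentiableAt.comp z hL
  refine ja_of_line (hB.add ((((hSd.mul (hSd.const_add 1)).mul hLu).mul hLw).add
    (hSd.mul hLuw))) ?_
  have h9 := (ja_line hB (u, 0)).add
    (((((ja_line hSd (u, 0)).mul ((ja_line hSd (u, 0)).const_add 1)).mul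
        (ja_line hLu (u, 0))).mul (ja_line hLw (u, 0))).add
          ((ja_line hSd (u, 0)).mul (ja_line hLuw (u, 0))))
  refine HasDerivAt.congr_deriv h9 ?_
  simp only [Pi.mul_apply, zero_smul, add_zero]
  rw [ja_comp (jaS_deriv h4) hL, ja_dd_pi hbd, hS0, ja_dL hS hf _ hz.1, ja_dL hS hf _ hz.1,
    ja_dL hS hf _ hz.1, ja_ddL hS hf _ _ hz.1, ja_ddL hS hf _ _ hz.1, ja_ddL hS hf _ _ hz.1,
    ja_dddL hS hf _ _ _ hz.1, hz1]
  simp only [Prod.fst_zero, Prod.snd_zero]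
  rw [ja_pure_left hS hf hl _ 0 h0, ja_pure_left hS hf hl _ 0 h0, ja_pure_right hS h0 hf hr,
    ja_pure_left2 hS h0 hf hl]
  ring

end P250
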