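import Vale.Agent.Lib.P250.G.GDefs
import Vale.Agent.Lib.P250.MJC

/-! # P250-G module JetB: the (2,2) jet of the general model potential (adapt `MJC.lean`) -/

set_option linter.unusedSectionVars false

open scoped ContDiff
open Complex Metric Set

namespace P250

variable {B : Type*} [NormedAddCommGroup B] [NormedSpace ℂ B] [FiniteDimensional ℂ B]

/-- the exponent, polarised -/
noncomputable def JetB_L (f : B × B → ℂ) (z : (B × ℂ) × (B × ℂ)) : ℂ :=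
  z.1.2 + z.2.2 + f (z.1.1, z.2.1)

/-- the projection to the base variables -/
noncomputable def JetB_pi (B : Type*) [NormedAddCommGroup B] [NormedSpace ℂ B] :
    ((B × ℂ) × (B × ℂ)) →L[ℂ] (B × B) :=
  ((ContinuousLinearMap.fst ℂ B ℂ).comp (ContinuousLinearMap.fst ℂ (B × ℂ) (B × ℂ))).prod
    ((ContinuousLinearMap.fst ℂ B ℂ).comp (ContinuousLinearMap.snd ℂ (B × ℂ) (B × ℂ)))

/-- the domain above `S` -/
def JetB_T (S : Set (B × B)) : Set ((B × ℂ) × (B × ℂ)) := {z | (z.1.1, z.2.1) ∈ S}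

theorem JetB_T_open {S : Set (B × B)} (hS : IsOpen S) : IsOpen (JetB_T S) :=
  hS.preimage (JetB_pi B).continuous

theorem JetB_smooth_pi {S : Set (B × B)} {F : B × B → ℂ} (hF : ContDiffOn ℂ ∞ F S) :
    ContDiffOn ℂ ∞ (fun z : (B × ℂ) × (B × ℂ) => F (z.1.1, z.2.1)) (JetB_T S) :=
  hF.comp (g := F) (f := fun z : (B × ℂ) × (B × ℂ) => (z.1.1, z.2.1))
    (JetB_pi B).contDiff.contDiffOn (fun _ hz => hz)

theorem JetB_dd_pi {F : B × B → ℂ} {z : (B × ℂ) × (B × ℂ)}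
    (hF : DifferentiableAt ℂ F (z.1.1, z.2.1)) (u : (B × ℂ) × (B × ℂ)) :
    dd (fun z : (B × ℂ) × (B × ℂ) => F (z.1.1, z.2.1)) u z =
      dd F (u.1.1, u.2.1) (z.1.1, z.2.1) := by
  have h1 : HasFDerivAt F (fderiv ℂ F (z.1.1, z.2.1)) (JetB_pi B z) := hF.hasFDerivAt
  have h2 := h1.comp z (JetB_pi B).hasFDerivAt
  have h3 : HasFDerivAt (fun z : (B × ℂ) × (B × ℂ) => F (z.1.1, z.2.1))
      ((fderiv ℂ F (z.1.1, z.2.1)).comp (JetB_pi B)) z := h2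
  unfold dd
  rw [h3.fderiv]
  rfl

theorem JetB_dd1 {S : Set (B × B)} (hS : IsOpen S) {F : B × B → ℂ} (hF : ContDiffOn ℂ ∞ F S)
    (u : (B × ℂ) × (B × ℂ)) :
    EqOn (dd (fun z : (B × ℂ) × (B × ℂ) => F (z.1.1, z.2.1)) u)
      (fun z => dd F (u.1.1, u.2.1) (z.1.1, z.2.1)) (JetB_T S) := by
  intro z hz
  exact JetB_dd_pi ((hF.contDiffAt (hS.mem_nhds hz)).differentiableAt (by simp)) u

theorem JetB_dd2 {S : Set (B × B)} (hS : IsOpen S) {F : B × B → ℂ} (hF : ContDiffOn ℂ ∞ F S)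
    (w u : (B × ℂ) × (B × ℂ)) :
    EqOn (dd (dd (fun z : (B × ℂ) × (B × ℂ) => F (z.1.1, z.2.1)) w) u)
      (fun z => dd (dd F (w.1.1, w.2.1)) (u.1.1, u.2.1) (z.1.1, z.2.1)) (JetB_T S) :=
  (MJC_dd_congr (JetB_T_open hS) (JetB_dd1 hS hF w) u).trans
    (JetB_dd1 hS (MJC_dd_smooth hS hF _) u)

theorem JetB_dd3 {S : Set (B × B)} (hS : IsOpen S) {F : B × B → ℂ} (hF : ContDiffOn ℂ ∞ F S)
    (w u t : (B × ℂ) × (B × ℂ)) :
    EqOn (dd (dd (dd (fun z : (B × ℂ) × (B × ℂ) => F (z.1.1, z.2.1)) w) u) t)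
      (fun z => dd (dd (dd F (w.1.1, w.2.1)) (u.1.1, u.2.1)) (t.1.1, t.2.1) (z.1.1, z.2.1))
      (JetB_T S) :=
  (MJC_dd_congr (JetB_T_open hS) (JetB_dd2 hS hF w u) t).trans
    (JetB_dd1 hS (MJC_dd_smooth hS (MJC_dd_smooth hS hF _) _) t)

theorem JetB_dd4 {S : Set (B × B)} (hS : IsOpen S) {F : B × B → ℂ} (hF : ContDiffOn ℂ ∞ F S)
    (w u t r : (B × ℂ) × (B × ℂ)) :
    EqOn (dd (dd (dd (dd (fun z : (B × ℂ) × (B × ℂ) => F (z.1.1, z.2.1)) w) u) t) r)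
      (fun z => dd (dd (dd (dd F (w.1.1, w.2.1)) (u.1.1, u.2.1)) (t.1.1, t.2.1)) (r.1.1, r.2.1)
        (z.1.1, z.2.1)) (JetB_T S) :=
  (MJC_dd_congr (JetB_T_open hS) (JetB_dd3 hS hF w u t) r).trans
    (JetB_dd1 hS (MJC_dd_smooth hS (MJC_dd_smooth hS (MJC_dd_smooth hS hF _) _) _) r)

theorem JetB_L_smooth {S : Set (B × B)} {f : B × B → ℂ} (hf : ContDiffOn ℂ ∞ f S) :
    ContDiffOn ℂ ∞ (JetB_L f) (JetB_T S) := by
  unfold JetB_L
  refine ContDiffOn.add ?_ (JetB_smooth_pi hf)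
  apply ContDiff.contDiffOn
  fun_prop

theorem JetB_U_open {S : Set (B × B)} (hS : IsOpen S) {f : B × B → ℂ}
    (hf : ContDiffOn ℂ ∞ f S) : IsOpen (Ugen S f) := by
  have h1 := (JetB_L_smooth hf).continuousOn
  have h2 : ContinuousOn (fun z => ‖Complex.exp (JetB_L f z)‖) (JetB_T S) :=
    (Complex.continuous_exp.comp_continuousOn h1).norm
  exact h2.isOpen_inter_preimage (JetB_T_open hS) (isOpen_Iio (a := (1 : ℝ)))

theorem JetB_U_facts {S : Set (B × B)} {f : B × B → ℂ} {z : (B × ℂ) × (B × ℂ)}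
    (hz : z ∈ Ugen S f) :
    1 - Complex.exp (JetB_L f z) ∈ slitPlane ∧ 1 - Complex.exp (JetB_L f z) ≠ 0 := by
  obtain ⟨_, h2⟩ := hz
  have h5 : 1 - Complex.exp (JetB_L f z) ∈ slitPlane := by
    left
    have := Complex.re_le_norm (Complex.exp (JetB_L f z))
    have h6 : ‖Complex.exp (JetB_L f z)‖ < 1 := h2
    simp only [sub_re, one_re]
    linarith
  exact ⟨h5, slitPlane_ne_zero h5⟩

theorem JetB_dL {S : Set (B × B)} (hS : IsOpen S) {f : B × B → ℂ} (hf : ContDiffOn ℂ ∞ f S)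
    (u : (B × ℂ) × (B × ℂ)) :
    EqOn (dd (JetB_L f) u) (fun z => (u.1.2 + u.2.2) +
      dd (fun z : (B × ℂ) × (B × ℂ) => f (z.1.1, z.2.1)) u z) (JetB_T S) := by
  intro z hz
  have hd : DifferentiableAt ℂ (JetB_L f) z :=
    ((JetB_L_smooth hf).contDiffAt ((JetB_T_open hS).mem_nhds hz)).differentiableAt (by simp)
  have hfd' : DifferentiableAt ℂ (fun z : (B × ℂ) × (B × ℂ) => f (z.1.1, z.2.1)) z :=
    ((JetB_smooth_pi hf).contDiffAt ((JetB_T_open hS).mem_nhds hz)).differentiableAt (by simp)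
  refine MJC_of_line hd ?_
  have h : ∀ a b : ℂ, HasDerivAt (fun c : ℂ => a + c * b) b 0 := by
    intro a b
    simpa using ((hasDerivAt_id (0 : ℂ)).mul_const b).const_add a
  exact ((h z.1.2 u.1.2).add (h z.2.2 u.2.2)).add (MJC_line hfd' u)

theorem JetB_ddL {S : Set (B × B)} (hS : IsOpen S) {f : B × B → ℂ} (hf : ContDiffOn ℂ ∞ f S)
    (w u : (B × ℂ) × (B × ℂ)) :
    EqOn (dd (dd (JetB_L f) w) u)
      (dd (dd (fun z : (B × ℂ) × (B × ℂ) => f (z.1.1, z.2.1)) w) u) (JetB_T S) := by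
  intro z hz
  rw [MJC_dd_congr (JetB_T_open hS) (JetB_dL hS hf w) u hz]
  unfold dd
  rw [fderiv_const_add]

theorem JetB_dddL {S : Set (B × B)} (hS : IsOpen S) {f : B × B → ℂ} (hf : ContDiffOn ℂ ∞ f S)
    (w u t : (B × ℂ) × (B × ℂ)) :
    EqOn (dd (dd (dd (JetB_L f) w) u) t)
      (dd (dd (dd (fun z : (B × ℂ) × (B × ℂ) => f (z.1.1, z.2.1)) w) u) t) (JetB_T S) :=
  MJC_dd_congr (JetB_T_open hS) (JetB_ddL hS hf w u) t

theorem JetB_ddddL {S : Set (B × B)} (hS : IsOpen S) {f : B × B → ℂ} (hf : ContDiffOn ℂ ∞ f S)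
    (w u t r : (B × ℂ) × (B × ℂ)) :
    EqOn (dd (dd (dd (dd (JetB_L f) w) u) t) r)
      (dd (dd (dd (dd (fun z : (B × ℂ) × (B × ℂ) => f (z.1.1, z.2.1)) w) u) t) r) (JetB_T S) :=
  MJC_dd_congr (JetB_T_open hS) (JetB_dddL hS hf w u t) r

/-- pure derivatives vanish -/
theorem JetB_pure_left {S : Set (B × B)} (hS : IsOpen S) {f : B × B → ℂ}
    (hf : ContDiffOn ℂ ∞ f S) (hl : ∀ x, (x, 0) ∈ S → f (x, 0) = 0) (ξ : B) :
    ∀ x, (x, 0) ∈ S → dd f (ξ, 0) (x, 0) = 0 := by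
  intro x h0
  refine MJC_of_line ((hf.contDiffAt (hS.mem_nhds h0)).differentiableAt (by simp)) ?_
  have h1 : (fun c : ℂ => f ((x, 0) + c • (ξ, 0))) =ᶠ[nhds 0] fun _ => 0 := by
    have h2 : ∀ᶠ c : ℂ in nhds 0, ((x + c • ξ, (0 : B)) : B × B) ∈ S := by
      have h3 : ContinuousAt (fun c : ℂ => ((x + c • ξ, (0 : B)) : B × B)) 0 := by fun_prop
      apply h3
      simp only [zero_smul, add_zero]
      exact hS.mem_nhds h0
    filter_upwards [h2] with c hc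
    have h4 : ((x, 0) + c • (ξ, 0) : B × B) = (x + c • ξ, 0) := by
      ext <;> simp
    rw [h4]
    exact hl _ hc
  exact (hasDerivAt_const (0 : ℂ) (0 : ℂ)).congr_of_eventuallyEq h1

theorem JetB_pure_right {S : Set (B × B)} (hS : IsOpen S) {f : B × B → ℂ}
    (hf : ContDiffOn ℂ ∞ f S) (hr : ∀ y, (0, y) ∈ S → f (0, y) = 0) (η : B) :
    ∀ y, (0, y) ∈ S → dd f (0, η) (0, y) = 0 := by
  intro y h0
  refine MJC_of_line ((hf.contDiffAt (hS.mem_nhds h0)).differentiableAt (by simp)) ?_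
  have h1 : (fun c : ℂ => f ((0, y) + c • (0, η))) =ᶠ[nhds 0] fun _ => 0 := by
    have h2 : ∀ᶠ c : ℂ in nhds 0, (((0 : B), y + c • η) : B × B) ∈ S := by
      have h3 : ContinuousAt (fun c : ℂ => (((0 : B), y + c • η) : B × B)) 0 := by fun_prop
      apply h3
      simp only [zero_smul, add_zero]
      exact hS.mem_nhds h0
    filter_upwards [h2] with c hc
    have h4 : ((0, y) + c • (0, η) : B × B) = (0, y + c • η) := by
      ext <;> simp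
    rw [h4]
    exact hr _ hc
  exact (hasDerivAt_const (0 : ℂ) (0 : ℂ)).congr_of_eventuallyEq h1

theorem JetB_K_eq (b f : B × B → ℂ) : Kgen b f = fun z =>
    (fun z : (B × ℂ) × (B × ℂ) => b (z.1.1, z.2.1)) z +
      (-Complex.log (1 - Complex.exp (JetB_L f z))) := by
  funext z
  unfold Kgen JetB_L
  rw [sub_eq_add_neg]

/-- the fourth derivative of the model potential on its domain -/
theorem JetB_K4 {S : Set (B × B)} (hS : IsOpen S) {b f : B × B → ℂ} (hb : ContDiffOn ℂ ∞ b S)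
    (hf : ContDiffOn ℂ ∞ f S) (e1 e2 e3 e4 : (B × ℂ) × (B × ℂ)) :
    EqOn (dd (dd (dd (dd (Kgen b f) e4) e3) e2) e1) (fun z =>
      dd (dd (dd (dd (fun z : (B × ℂ) × (B × ℂ) => b (z.1.1, z.2.1)) e4) e3) e2) e1 z
      + MJCR4 (fun z => MJCS (JetB_L f z)) (fun z => MJCS (JetB_L f z) * (1 + MJCS (JetB_L f z)))
        (fun z => MJCS (JetB_L f z) * (1 + MJCS (JetB_L f z)) * (1 + 2 * MJCS (JetB_L f z)))
        (fun z => MJCS (JetB_L f z) * (1 + MJCS (JetB_L f z)) * ((1 + 2 * MJCS (JetB_L f z)) ^ 2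
          + 2 * MJCS (JetB_L f z) * (1 + MJCS (JetB_L f z)))) (JetB_L f) e1 e2 e3 e4 z)
      (Ugen S f) := by
  have hU := JetB_U_open hS hf
  have hsub : Ugen S f ⊆ JetB_T S := fun z hz => hz.1
  have hw : ContDiffOn ℂ ∞ (JetB_L f) (Ugen S f) := (JetB_L_smooth hf).mono hsub
  have b0 : ContDiffOn ℂ ∞ (fun z : (B × ℂ) × (B × ℂ) => b (z.1.1, z.2.1)) (Ugen S f) :=
    (JetB_smooth_pi hb).mono hsub
  have b1 := MJC_dd_smooth hU b0 e4
  have b2 := MJC_dd_smooth hU b1 e3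
  have b3 := MJC_dd_smooth hU b2 e2
  have w0 : ∀ e, MJCD (Ugen S f) (fun z => -Complex.log (1 - Complex.exp (JetB_L f z))) e
      (fun z => MJCS (JetB_L f z) * dd (JetB_L f) e z) := fun e =>
    MJCD.comp hU hw (f := fun w => -Complex.log (1 - Complex.exp w)) (f' := MJCS)
      (fun z hz => MJCG_deriv (JetB_U_facts hz).1) e
  have w1 : ∀ e, MJCD (Ugen S f) (fun z => MJCS (JetB_L f z)) e
      (fun z => MJCS (JetB_L f z) * (1 + MJCS (JetB_L f z)) * dd (JetB_L f) e z) := fun e =>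
    MJCD.comp hU hw (f := MJCS) (f' := fun w => MJCS w * (1 + MJCS w))
      (fun z hz => MJCS_deriv (JetB_U_facts hz).2) e
  have w2 : ∀ e, MJCD (Ugen S f) (fun z => MJCS (JetB_L f z) * (1 + MJCS (JetB_L f z))) e
      (fun z => MJCS (JetB_L f z) * (1 + MJCS (JetB_L f z)) * (1 + 2 * MJCS (JetB_L f z))
        * dd (JetB_L f) e z) := fun e =>
    MJCD.comp hU hw (f := fun w => MJCS w * (1 + MJCS w))
      (f' := fun w => MJCS w * (1 + MJCS w) * (1 + 2 * MJCS w))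
      (fun z hz => MJCS_deriv2 (JetB_U_facts hz).2) e
  have w3 : ∀ e, MJCD (Ugen S f)
      (fun z => MJCS (JetB_L f z) * (1 + MJCS (JetB_L f z)) * (1 + 2 * MJCS (JetB_L f z))) e
      (fun z => MJCS (JetB_L f z) * (1 + MJCS (JetB_L f z)) * ((1 + 2 * MJCS (JetB_L f z)) ^ 2
          + 2 * MJCS (JetB_L f z) * (1 + MJCS (JetB_L f z))) * dd (JetB_L f) e z) := fun e =>
    MJCD.comp hU hw (f := fun w => MJCS w * (1 + MJCS w) * (1 + 2 * MJCS w))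
      (f' := fun w => MJCS w * (1 + MJCS w) * ((1 + 2 * MJCS w) ^ 2 + 2 * MJCS w * (1 + MJCS w)))
      (fun z hz => MJCS_deriv3 (JetB_U_facts hz).2) e
  rw [JetB_K_eq]
  have s1 := ((MJCD.of_smooth hU b0 e4).add (w0 e4)).dd_eq
  have s2 := (MJC_dd_congr hU s1 e3).trans
    ((MJCD.of_smooth hU b1 e3).add (MJCR1_D hU hw w1 e3 e4)).dd_eq
  have s3 := (MJC_dd_congr hU s2 e2).trans
    ((MJCD.of_smooth hU b2 e2).add (MJCR2_D hU hw w1 w2 e2 e3 e4)).dd_eq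
  exact (MJC_dd_congr hU s3 e1).trans
    ((MJCD.of_smooth hU b3 e1).add (MJCR3_D hU hw w1 w2 w3 e1 e2 e3 e4)).dd_eq

theorem JetB_z0 {c : B →L[ℝ] B} {S : Set (B × B)} (h0 : (0, 0) ∈ S) {f : B × B → ℂ}
    (hl : ∀ x, (x, 0) ∈ S → f (x, 0) = 0) {τ0 : ℂ} (hτ : τ0.re < 0) :
    (((0, τ0), cV c (0, τ0)) : (B × ℂ) × (B × ℂ)) ∈ Ugen S f ∧
    Complex.exp (JetB_L f ((0, τ0), cV c (0, τ0))) = (Real.exp (2 * τ0.re) : ℂ) := by
  have hc : (cV c ((0 : B), τ0)).1 = 0 := by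
    show c 0 = 0
    exact map_zero c
  have hc2 : (cV c ((0 : B), τ0)).2 = starRingEnd ℂ τ0 := rfl
  have h1 : JetB_L f ((0, τ0), cV c (0, τ0)) = ((2 * τ0.re : ℝ) : ℂ) := by
    unfold JetB_L
    simp only [hc, hc2]
    rw [hl 0 h0, Complex.add_conj, add_zero]
  have h2 : Complex.exp (JetB_L f ((0, τ0), cV c (0, τ0))) = (Real.exp (2 * τ0.re) : ℂ) := by
    rw [h1, Complex.ofReal_exp]
  refine ⟨⟨?_, ?_⟩, h2⟩
  · simp only [hc]
    exact h0
  · have h3 : ‖Complex.exp (JetB_L f ((0, τ0), cV c (0, τ0)))‖ < 1 := by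
      rw [h2, Complex.norm_real, Real.norm_eq_abs, abs_of_pos (Real.exp_pos _), Real.exp_lt_one_iff]
      linarith
    exact h3

theorem JetB_S0 {c : B →L[ℝ] B} {S : Set (B × B)} (h0 : (0, 0) ∈ S) {f : B × B → ℂ}
    (hl : ∀ x, (x, 0) ∈ S → f (x, 0) = 0) {τ0 : ℂ} (hτ : τ0.re < 0) {s : ℝ}
    (hs : s = Real.exp (2 * τ0.re) / (1 - Real.exp (2 * τ0.re))) :
    MJCS (JetB_L f ((0, τ0), cV c (0, τ0))) = s := by
  unfold MJCS
  rw [(JetB_z0 (c := c) h0 hl hτ).2, hs]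
  push_cast
  rfl

theorem Kgen_22 {c : B →L[ℝ] B} {S : Set (B × B)} (hS : IsOpen S) (h0 : (0, 0) ∈ S)
    {b f : B × B → ℂ} (hb : ContDiffOn ℂ ∞ b S) (hf : ContDiffOn ℂ ∞ f S)
    (hl : ∀ x, (x, 0) ∈ S → f (x, 0) = 0) (hr : ∀ y, (0, y) ∈ S → f (0, y) = 0)
    {τ0 : ℂ} (hτ : τ0.re < 0) {s : ℝ}
    (hs : s = Real.exp (2 * τ0.re) / (1 - Real.exp (2 * τ0.re))) (u u' v v' : B × ℂ) :
    K22g (cV c) (Kgen b f) ((0, τ0), cV c (0, τ0)) u u' v v' =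
      K22g c b (0, 0) u.1 u'.1 v.1 v'.1
      + s * (1 + s) * ((1 + 2 * s) ^ 2 + 2 * s * (1 + s)) *
          (u.2 * u'.2 * starRingEnd ℂ v.2 * starRingEnd ℂ v'.2)
      + s * (1 + s) * (1 + 2 * s) *
          (K11g c f (0, 0) u.1 v.1 * u'.2 * starRingEnd ℂ v'.2
            + K11g c f (0, 0) u.1 v'.1 * u'.2 * starRingEnd ℂ v.2
            + K11g c f (0, 0) u'.1 v.1 * u.2 * starRingEnd ℂ v'.2
            + K11g c f (0, 0) u'.1 v'.1 * u.2 * starRingEnd ℂ v.2)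
      + s * (1 + s) *
          (K11g c f (0, 0) u.1 v.1 * K11g c f (0, 0) u'.1 v'.1
            + K11g c f (0, 0) u.1 v'.1 * K11g c f (0, 0) u'.1 v.1
            + K21g c f (0, 0) u.1 u'.1 v.1 * starRingEnd ℂ v'.2
            + K21g c f (0, 0) u.1 u'.1 v'.1 * starRingEnd ℂ v.2
            + K12g c f (0, 0) u.1 v.1 v'.1 * u'.2 + K12g c f (0, 0) u'.1 v.1 v'.1 * u.2)
      + s * K22g c f (0, 0) u.1 u'.1 v.1 v'.1 := by
  have hz := (JetB_z0 (c := c) h0 hl hτ).1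
  have hSS := JetB_S0 (c := c) h0 hl hτ hs
  have hbz : ((((((0 : B), τ0), cV c ((0 : B), τ0)) : (B × ℂ) × (B × ℂ)).1.1,
      ((((0 : B), τ0), cV c ((0 : B), τ0)) : (B × ℂ) × (B × ℂ)).2.1) : B × B) = (0, 0) := by
    have hc : (cV c ((0 : B), τ0)).1 = 0 := by
      show c 0 = 0
      exact map_zero c
    simp only [hc]
  have hzT : (((0 : B), τ0), cV c ((0 : B), τ0)) ∈ JetB_T S := hz.1
  unfold K22g
  rw [JetB_K4 hS hb hf _ _ _ _ hz]
  have hb4 := JetB_dd4 hS hb (0, cV c v') (0, cV c v) (u', 0) (u, 0) hzT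
  simp only [hbz] at hb4
  -- first derivatives of `w`
  have a1 : ∀ u : B × ℂ, dd (JetB_L f) (u, 0) ((0, τ0), cV c (0, τ0)) = u.2 := by
    intro u
    rw [JetB_dL hS hf _ hzT]
    have h2 := JetB_dd1 hS hf (u, 0) hzT
    simp only [hbz] at h2
    beta_reduce
    rw [h2]
    have h1 := JetB_pure_left hS hf hl u.1 0 h0
    have h4 : dd f (u.1, (0 : B × ℂ).1) (0, 0) = 0 := h1
    rw [h4, add_zero]
    show u.2 + (0 : ℂ) = u.2
    rw [add_zero]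
  have a3 : ∀ v : B × ℂ, dd (JetB_L f) (0, cV c v) ((0, τ0), cV c (0, τ0)) =
      starRingEnd ℂ v.2 := by
    intro v
    rw [JetB_dL hS hf _ hzT]
    have h2 := JetB_dd1 hS hf (0, cV c v) hzT
    simp only [hbz] at h2
    beta_reduce
    rw [h2]
    have h1 := JetB_pure_right hS hf hr (c v.1) 0 h0
    have h4 : dd f ((0 : B × ℂ).1, (cV c v).1) (0, 0) = 0 := h1
    rw [h4, add_zero]
    show (0 : ℂ) + starRingEnd ℂ v.2 = starRingEnd ℂ v.2
    rw [zero_add]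
  -- second derivatives of `w`
  have a12 : dd (dd (JetB_L f) (u', 0)) (u, 0) ((0, τ0), cV c (0, τ0)) = 0 := by
    rw [JetB_ddL hS hf _ _ hzT]
    have h2 := JetB_dd2 hS hf (u', 0) (u, 0) hzT
    simp only [hbz] at h2
    rw [h2]
    exact JetB_pure_left hS (MJC_dd_smooth hS hf (u'.1, 0))
      (fun x hx => JetB_pure_left hS hf hl u'.1 x hx) u.1 0 h0
  have a34 : dd (dd (JetB_L f) (0, cV c v')) (0, cV c v) ((0, τ0), cV c (0, τ0)) = 0 := by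
    rw [JetB_ddL hS hf _ _ hzT]
    have h2 := JetB_dd2 hS hf (0, cV c v') (0, cV c v) hzT
    simp only [hbz] at h2
    rw [h2]
    exact JetB_pure_right hS (MJC_dd_smooth hS hf (0, c v'.1))
      (fun x hx => JetB_pure_right hS hf hr (c v'.1) x hx) (c v.1) 0 h0
  have a13 : ∀ u v : B × ℂ, dd (dd (JetB_L f) (0, cV c v)) (u, 0) ((0, τ0), cV c (0, τ0)) =
      K11g c f (0, 0) u.1 v.1 := by
    intro u v
    rw [JetB_ddL hS hf _ _ hzT]
    have h2 := JetB_dd2 hS hf (0, cV c v) (u, 0) hzT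
    simp only [hbz] at h2
    rw [h2]
    rfl
  -- third derivatives
  have a123 : ∀ v : B × ℂ, dd (dd (dd (JetB_L f) (0, cV c v)) (u', 0)) (u, 0)
      ((0, τ0), cV c (0, τ0)) = K21g c f (0, 0) u.1 u'.1 v.1 := by
    intro v
    rw [JetB_dddL hS hf _ _ _ hzT]
    have h2 := JetB_dd3 hS hf (0, cV c v) (u', 0) (u, 0) hzT
    simp only [hbz] at h2
    rw [h2]
    rfl
  have a134 : ∀ u : B × ℂ, dd (dd (dd (JetB_L f) (0, cV c v')) (0, cV c v)) (u, 0)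
      ((0, τ0), cV c (0, τ0)) = K12g c f (0, 0) u.1 v.1 v'.1 := by
    intro u
    rw [JetB_dddL hS hf _ _ _ hzT]
    have h2 := JetB_dd3 hS hf (0, cV c v') (0, cV c v) (u, 0) hzT
    simp only [hbz] at h2
    rw [h2]
    rfl
  have a1234 : dd (dd (dd (dd (JetB_L f) (0, cV c v')) (0, cV c v)) (u', 0)) (u, 0)
      ((0, τ0), cV c (0, τ0)) = dd (dd (dd (dd f (0, c v'.1)) (0, c v.1)) (u'.1, 0)) (u.1, 0)
        (0, 0) := by
    rw [JetB_ddddL hS hf _ _ _ _ hzT]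
    have h2 := JetB_dd4 hS hf (0, cV c v') (0, cV c v) (u', 0) (u, 0) hzT
    simp only [hbz] at h2
    rw [h2]
    rfl
  have hb5 : dd (dd (dd (dd (fun z : (B × ℂ) × (B × ℂ) => b (z.1.1, z.2.1)) (0, cV c v'))
      (0, cV c v)) (u', 0)) (u, 0) ((0, τ0), cV c (0, τ0)) =
      dd (dd (dd (dd b (0, c v'.1)) (0, c v.1)) (u'.1, 0)) (u.1, 0) (0, 0) := hb4
  simp only [MJCR4, hSS, hb5, a1, a3, a12, a34, a13, a123, a134, a1234]
  ring

end P250
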