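import Mathlib.Analysis.Calculus.ContDiff.WithLp
import Vale.Agent.Lib.P250.G.GDefs
import Vale.Agent.Lib.P250.MJC

/-! # P250-G module LogJet: smoothness and jets of `bG` and `fG` at `0` -/

open scoped ContDiff
open Complex Metric Set

namespace P250

theorem cBm_conj (m : ℕ) (u : Bm m) : cBm m (I • u) = -(I • cBm m u) := by
  have h1 : ∀ a : ℂ, starRingEnd ℂ (I * a) = -(I * starRingEnd ℂ a) := by
    intro a
    rw [map_mul, Complex.conj_I, neg_mul]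
  refine Prod.ext (Prod.ext ?_ ?_) ?_
  · exact h1 u.1.1
  · exact h1 u.1.2
  · ext i
    exact h1 (u.2 i)

theorem cV_conj {B : Type*} [NormedAddCommGroup B] [NormedSpace ℂ B] {c : B →L[ℝ] B}
    (hc : ∀ u, c (I • u) = -(I • c u)) (u : B × ℂ) : cV c (I • u) = -(I • cV c u) := by
  have h1 : ∀ a : ℂ, starRingEnd ℂ (I * a) = -(I * starRingEnd ℂ a) := by
    intro a
    rw [map_mul, Complex.conj_I, neg_mul]
  refine Prod.ext ?_ ?_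
  · exact hc u.1
  · exact h1 u.2

/-- the quadratic form of the fibre -/
noncomputable def LJb {m : ℕ} (z : Bm m × Bm m) : ℂ := bil z.1.2 z.2.2

/-- the quadratic form of the base -/
noncomputable def LJq {m : ℕ} (z : Bm m × Bm m) : ℂ := z.1.1.1 * z.2.1.1 + z.1.1.2 * z.2.1.2

/-- polar form -/
noncomputable def LJbs {m : ℕ} (e z : Bm m × Bm m) : ℂ := bil e.1.2 z.2.2 + bil z.1.2 e.2.2

/-- polar form -/
noncomputable def LJqs {m : ℕ} (e z : Bm m × Bm m) : ℂ :=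
  e.1.1.1 * z.2.1.1 + z.1.1.1 * e.2.1.1 + (e.1.1.2 * z.2.1.2 + z.1.1.2 * e.2.1.2)

theorem LJb_smooth (m : ℕ) : ContDiff ℂ ∞ (LJb : Bm m × Bm m → ℂ) := by
  unfold LJb bil
  refine ContDiff.sum fun i _ => ?_
  have h1 : ContDiff ℂ ∞ (fun z : Bm m × Bm m => z.1.2 i) := by fun_prop
  have h2 : ContDiff ℂ ∞ (fun z : Bm m × Bm m => z.2.2 i) := by fun_prop
  exact h1.mul h2

theorem LJq_smooth (m : ℕ) : ContDiff ℂ ∞ (LJq : Bm m × Bm m → ℂ) := by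
  unfold LJq
  fun_prop

/-- derivatives of a quadratic form -/
theorem LJ_quad1 {V : Type*} [NormedAddCommGroup V] [NormedSpace ℂ V] {q : V → ℂ}
    (hq : ContDiff ℂ ∞ q) {s : V → V → ℂ}
    (h1 : ∀ (c : ℂ) (z e : V), q (z + c • e) = q z + c * s e z + c ^ 2 * q e) (e : V) :
    dd q e = s e := by
  funext z
  refine MJC_of_line (hq.differentiable (by simp) z) ?_
  have h2 : (fun c : ℂ => q (z + c • e)) = fun c => q z + c * s e z + c ^ 2 * q e := by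
    funext c
    exact h1 c z e
  rw [h2]
  have h3 : HasDerivAt (fun c : ℂ => c * s e z) (s e z) 0 := by
    simpa using (hasDerivAt_id (0 : ℂ)).mul_const (s e z)
  have h4 : HasDerivAt (fun c : ℂ => c ^ 2 * q e) 0 0 := by
    simpa using (hasDerivAt_pow 2 (0 : ℂ)).mul_const (q e)
  have h5 := (h3.const_add (q z)).add h4
  rw [add_zero] at h5
  exact h5

theorem LJ_quad2 {V : Type*} [NormedAddCommGroup V] [NormedSpace ℂ V] {q : V → ℂ}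
    (hq : ContDiff ℂ ∞ q) {s : V → V → ℂ}
    (h1 : ∀ (c : ℂ) (z e : V), q (z + c • e) = q z + c * s e z + c ^ 2 * q e)
    (h2 : ∀ (c : ℂ) (e z w : V), s e (z + c • w) = s e z + c * s e w) (e w : V) :
    dd (dd q e) w = fun _ => s e w := by
  have hd : ContDiffOn ℂ ∞ (dd q e) univ := MJC_dd_smooth isOpen_univ hq.contDiffOn e
  funext z
  refine MJC_of_line ((contDiffOn_univ.1 hd).differentiable (by simp) z) ?_
  rw [LJ_quad1 hq h1]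
  have h3 : (fun c : ℂ => s e (z + c • w)) = fun c => s e z + c * s e w := by
    funext c
    exact h2 c e z w
  rw [h3]
  have h4 : HasDerivAt (fun c : ℂ => c * s e w) (s e w) 0 := by
    simpa using (hasDerivAt_id (0 : ℂ)).mul_const (s e w)
  exact h4.const_add (s e z)

theorem LJ_quad3 {V : Type*} [NormedAddCommGroup V] [NormedSpace ℂ V] {q : V → ℂ}
    (hq : ContDiff ℂ ∞ q) {s : V → V → ℂ}
    (h1 : ∀ (c : ℂ) (z e : V), q (z + c • e) = q z + c * s e z + c ^ 2 * q e)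
    (h2 : ∀ (c : ℂ) (e z w : V), s e (z + c • w) = s e z + c * s e w) (e w t : V) :
    dd (dd (dd q e) w) t = fun _ => 0 := by
  rw [LJ_quad2 hq h1 h2]
  funext z
  unfold dd
  simp

theorem LJ_quad4 {V : Type*} [NormedAddCommGroup V] [NormedSpace ℂ V] {q : V → ℂ}
    (hq : ContDiff ℂ ∞ q) {s : V → V → ℂ}
    (h1 : ∀ (c : ℂ) (z e : V), q (z + c • e) = q z + c * s e z + c ^ 2 * q e)
    (h2 : ∀ (c : ℂ) (e z w : V), s e (z + c • w) = s e z + c * s e w) (e w t r : V) :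
    dd (dd (dd (dd q e) w) t) r = fun _ => 0 := by
  rw [LJ_quad3 hq h1 h2]
  funext z
  unfold dd
  simp

theorem LJb_line {m : ℕ} (c : ℂ) (z e : Bm m × Bm m) :
    LJb (z + c • e) = LJb z + c * LJbs e z + c ^ 2 * LJb e := by
  unfold LJb LJbs bil
  rw [← Finset.sum_add_distrib, Finset.mul_sum, Finset.mul_sum, ← Finset.sum_add_distrib,
    ← Finset.sum_add_distrib]
  refine Finset.sum_congr rfl fun i _ => ?_
  show (z.1.2 i + c * e.1.2 i) * (z.2.2 i + c * e.2.2 i) = _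
  ring

theorem LJbs_line {m : ℕ} (c : ℂ) (e z w : Bm m × Bm m) :
    LJbs e (z + c • w) = LJbs e z + c * LJbs e w := by
  unfold LJbs bil
  rw [← Finset.sum_add_distrib, ← Finset.sum_add_distrib, ← Finset.sum_add_distrib,
    Finset.mul_sum, ← Finset.sum_add_distrib]
  refine Finset.sum_congr rfl fun i _ => ?_
  show e.1.2 i * (z.2.2 i + c * w.2.2 i) + (z.1.2 i + c * w.1.2 i) * e.2.2 i = _
  ring

theorem LJq_line {m : ℕ} (c : ℂ) (z e : Bm m × Bm m) :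
    LJq (z + c • e) = LJq z + c * LJqs e z + c ^ 2 * LJq e := by
  unfold LJq LJqs
  show (z.1.1.1 + c * e.1.1.1) * (z.2.1.1 + c * e.2.1.1)
    + (z.1.1.2 + c * e.1.1.2) * (z.2.1.2 + c * e.2.1.2) = _
  ring

theorem LJqs_line {m : ℕ} (c : ℂ) (e z w : Bm m × Bm m) :
    LJqs e (z + c • w) = LJqs e z + c * LJqs e w := by
  unfold LJqs
  show e.1.1.1 * (z.2.1.1 + c * w.2.1.1) + (z.1.1.1 + c * w.1.1.1) * e.2.1.1
    + (e.1.1.2 * (z.2.1.2 + c * w.2.1.2) + (z.1.1.2 + c * w.1.1.2) * e.2.1.2) = _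
  ring

/-- the projection -/
noncomputable def LJpi (m : ℕ) : (Bm m × Bm m) →L[ℂ] ((ℂ × ℂ) × (ℂ × ℂ)) :=
  ((ContinuousLinearMap.fst ℂ (ℂ × ℂ) (Fb m)).comp (ContinuousLinearMap.fst ℂ (Bm m) (Bm m))).prod
    ((ContinuousLinearMap.fst ℂ (ℂ × ℂ) (Fb m)).comp (ContinuousLinearMap.snd ℂ (Bm m) (Bm m)))

theorem LJ_ball_open (r0 : ℝ) (m : ℕ) : IsOpen {z : Bm m × Bm m | (z.1.1, z.2.1) ∈
    ball (0 : (ℂ × ℂ) × (ℂ × ℂ)) r0} := by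
  apply isOpen_ball.preimage
  fun_prop

theorem SG_open (r0 : ℝ) (m : ℕ) : IsOpen (SG r0 m) := by
  have h1 : Continuous (LJb : Bm m × Bm m → ℂ) := (LJb_smooth m).continuous
  have h2 : IsOpen {z : Bm m × Bm m | ‖LJb z‖ < 1} := isOpen_lt h1.norm continuous_const
  exact (LJ_ball_open r0 m).inter h2

theorem LJ_pi_D {r0 : ℝ} {F : (ℂ × ℂ) × (ℂ × ℂ) → ℂ} (hF : ContDiffOn ℂ ∞ F (ball 0 r0)) {m : ℕ}
    (e : Bm m × Bm m) : MJCD (SG r0 m) (fun z => F (z.1.1, z.2.1)) e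
      (fun z => dd F (e.1.1, e.2.1) (z.1.1, z.2.1)) := by
  intro z hz
  have h0 : DifferentiableAt ℂ F (LJpi m z) :=
    (hF.contDiffAt (isOpen_ball.mem_nhds hz.1)).differentiableAt (by simp)
  exact ⟨(fderiv ℂ F (LJpi m z)).comp (LJpi m), h0.hasFDerivAt.comp z (LJpi m).hasFDerivAt, rfl⟩

theorem LJ_slit1 {r0 : ℝ} (hr1 : r0 ≤ 1 / 8) {m : ℕ} {z : Bm m × Bm m} (hz : z ∈ SG r0 m) :
    1 - LJq z ∈ slitPlane := by
  have h3 : ‖LJq z‖ < 1 / 2 := MJC_ball hr1 hz.1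
  left
  have := Complex.re_le_norm (LJq z)
  simp only [sub_re, one_re]
  linarith

theorem LJ_slit2 {r0 : ℝ} {m : ℕ} {z : Bm m × Bm m} (hz : z ∈ SG r0 m) :
    1 + LJb z ∈ slitPlane := by
  have h3 : ‖LJb z‖ < 1 := hz.2
  left
  have := Complex.abs_re_le_norm (LJb z)
  have h4 := neg_abs_le (LJb z).re
  simp only [add_re, one_re]
  linarith

theorem LJ_bG_eq (A : ℝ) {m : ℕ} : (bG A : Bm m × Bm m → ℂ) =
    fun z => (A : ℂ) * (-Complex.log (1 - LJq z)) := by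
  funext z
  unfold bG LJq
  rw [sub_sub]

theorem bG_smooth {A r0 : ℝ} (hr1 : r0 ≤ 1 / 8) (m : ℕ) :
    ContDiffOn ℂ ∞ (bG A : Bm m × Bm m → ℂ) (SG r0 m) := by
  rw [LJ_bG_eq]
  intro z hz
  apply ContDiffAt.contDiffWithinAt
  have h1 : ContDiffAt ℂ ∞ (fun z : Bm m × Bm m => 1 - LJq z) z :=
    contDiffAt_const.sub (LJq_smooth m).contDiffAt
  have h2 : ContDiffAt ℂ ∞ (fun z : Bm m × Bm m => Complex.log (1 - LJq z)) z :=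
    ContDiffAt.comp (g := Complex.log) (f := fun z : Bm m × Bm m => 1 - LJq z) z
      (Complex.contDiffAt_log (LJ_slit1 hr1 hz)) h1
  exact contDiffAt_const.mul h2.neg

theorem fG_smooth {r0 : ℝ} {fh : (ℂ × ℂ) × (ℂ × ℂ) → ℂ} (hf : ContDiffOn ℂ ∞ fh (ball 0 r0))
    (m : ℕ) : ContDiffOn ℂ ∞ (fG fh : Bm m × Bm m → ℂ) (SG r0 m) := by
  have h0 : ContDiff ℂ ∞ fun z : Bm m × Bm m => (z.1.1, z.2.1) := by fun_prop
  have h3 : ContDiffOn ℂ ∞ (fun z : Bm m × Bm m => fh (z.1.1, z.2.1)) (SG r0 m) :=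
    hf.comp h0.contDiffOn fun z hz => hz.1
  refine h3.add ?_
  intro z hz
  apply ContDiffAt.contDiffWithinAt
  have h1 : ContDiffAt ℂ ∞ (fun z : Bm m × Bm m => 1 + LJb z) z :=
    contDiffAt_const.add (LJb_smooth m).contDiffAt
  exact ContDiffAt.comp (g := Complex.log) (f := fun z : Bm m × Bm m => 1 + LJb z) z
      (Complex.contDiffAt_log (LJ_slit2 hz)) h1

/-! ### the derivatives of the two logarithms -/

theorem LJL_deriv {w : ℂ} (h : 1 + w ∈ slitPlane) :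
    HasDerivAt (fun w : ℂ => Complex.log (1 + w)) ((1 + w)⁻¹) w := by
  have h2 : HasDerivAt (fun w : ℂ => 1 + w) 1 w := by
    simpa using (hasDerivAt_id w).const_add 1
  have h3 := h2.clog h
  rw [one_div] at h3
  exact h3

theorem LJI_deriv {w : ℂ} (h : 1 + w ≠ 0) :
    HasDerivAt (fun w : ℂ => (1 + w)⁻¹) (-(1 + w)⁻¹ ^ 2) w := by
  have h2 : HasDerivAt (fun w : ℂ => 1 + w) 1 w := by
    simpa using (hasDerivAt_id w).const_add 1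
  have h3 := h2.inv h
  have h4 : -(1 : ℂ) / (1 + w) ^ 2 = -(1 + w)⁻¹ ^ 2 := by
    rw [inv_pow, neg_div, one_div]
  rw [← h4]
  exact h3

theorem LJI_deriv2 {w : ℂ} (h : 1 + w ≠ 0) :
    HasDerivAt (fun w : ℂ => -(1 + w)⁻¹ ^ 2) (2 * (1 + w)⁻¹ ^ 3) w := by
  have h2 := ((LJI_deriv h).pow 2).neg
  refine h2.congr_deriv ?_
  ring

theorem LJI_deriv3 {w : ℂ} (h : 1 + w ≠ 0) :
    HasDerivAt (fun w : ℂ => 2 * (1 + w)⁻¹ ^ 3) (-6 * (1 + w)⁻¹ ^ 4) w := by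
  have h2 := ((LJI_deriv h).pow 3).const_mul 2
  refine h2.congr_deriv ?_
  ring

/-- iterated derivatives of `bG` -/
theorem LJ_bG_dd {A r0 : ℝ} (hr1 : r0 ≤ 1 / 8) {m : ℕ} (e1 e2 e3 e4 : Bm m × Bm m) :
    EqOn (dd (dd (bG A) e4) e3) (fun z => (A : ℂ) * MJCR2 (fun z => (1 - LJq z)⁻¹)
      (fun z => (1 - LJq z)⁻¹ ^ 2) LJq e3 e4 z) (SG r0 m) ∧
    EqOn (dd (dd (dd (bG A) e4) e3) e2) (fun z => (A : ℂ) * MJCR3 (fun z => (1 - LJq z)⁻¹)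
      (fun z => (1 - LJq z)⁻¹ ^ 2) (fun z => 2 * (1 - LJq z)⁻¹ ^ 3) LJq e2 e3 e4 z) (SG r0 m) ∧
    EqOn (dd (dd (dd (dd (bG A) e4) e3) e2) e1) (fun z => (A : ℂ) * MJCR4
      (fun z => (1 - LJq z)⁻¹) (fun z => (1 - LJq z)⁻¹ ^ 2) (fun z => 2 * (1 - LJq z)⁻¹ ^ 3)
      (fun z => 6 * (1 - LJq z)⁻¹ ^ 4) LJq e1 e2 e3 e4 z) (SG r0 m) := by
  have hU := SG_open r0 m
  have hq : ContDiffOn ℂ ∞ LJq (SG r0 m) := (LJq_smooth m).contDiffOn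
  have q0 : ∀ e, MJCD (SG r0 m) (fun z => -Complex.log (1 - LJq z)) e
      (fun z => (1 - LJq z)⁻¹ * dd LJq e z) := fun e =>
    MJCD.comp hU hq (f := fun w => -Complex.log (1 - w)) (f' := fun w => (1 - w)⁻¹)
      (fun z hz => MJCB_deriv (LJ_slit1 hr1 hz)) e
  have q1 : ∀ e, MJCD (SG r0 m) (fun z => (1 - LJq z)⁻¹) e
      (fun z => (1 - LJq z)⁻¹ ^ 2 * dd LJq e z) := fun e =>
    MJCD.comp hU hq (f := fun w => (1 - w)⁻¹) (f' := fun w => (1 - w)⁻¹ ^ 2)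
      (fun z hz => MJCI_deriv (slitPlane_ne_zero (LJ_slit1 hr1 hz))) e
  have q2 : ∀ e, MJCD (SG r0 m) (fun z => (1 - LJq z)⁻¹ ^ 2) e
      (fun z => 2 * (1 - LJq z)⁻¹ ^ 3 * dd LJq e z) := fun e =>
    MJCD.comp hU hq (f := fun w => (1 - w)⁻¹ ^ 2) (f' := fun w => 2 * (1 - w)⁻¹ ^ 3)
      (fun z hz => MJCI_deriv2 (slitPlane_ne_zero (LJ_slit1 hr1 hz))) e
  have q3 : ∀ e, MJCD (SG r0 m) (fun z => 2 * (1 - LJq z)⁻¹ ^ 3) e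
      (fun z => 6 * (1 - LJq z)⁻¹ ^ 4 * dd LJq e z) := fun e =>
    MJCD.comp hU hq (f := fun w => 2 * (1 - w)⁻¹ ^ 3) (f' := fun w => 6 * (1 - w)⁻¹ ^ 4)
      (fun z hz => MJCI_deriv3 (slitPlane_ne_zero (LJ_slit1 hr1 hz))) e
  rw [LJ_bG_eq]
  have s1 := (MJCD.const_mul (A : ℂ) (q0 e4)).dd_eq
  have s2 := (MJC_dd_congr hU s1 e3).trans (MJCD.const_mul (A : ℂ) (MJCR1_D hU hq q1 e3 e4)).dd_eq
  have s3 := (MJC_dd_congr hU s2 e2).trans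
    (MJCD.const_mul (A : ℂ) (MJCR2_D hU hq q1 q2 e2 e3 e4)).dd_eq
  exact ⟨s2, s3, (MJC_dd_congr hU s3 e1).trans
    (MJCD.const_mul (A : ℂ) (MJCR3_D hU hq q1 q2 q3 e1 e2 e3 e4)).dd_eq⟩

/-- iterated derivatives of `fG` -/
theorem LJ_fG_dd {r0 : ℝ} {fh : (ℂ × ℂ) × (ℂ × ℂ) → ℂ} (hf : ContDiffOn ℂ ∞ fh (ball 0 r0))
    {m : ℕ} (e1 e2 e3 e4 : Bm m × Bm m) :
    EqOn (dd (dd (fG fh) e4) e3) (fun z =>
      dd (dd fh (e4.1.1, e4.2.1)) (e3.1.1, e3.2.1) (z.1.1, z.2.1)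
      + MJCR2 (fun z => (1 + LJb z)⁻¹) (fun z => -(1 + LJb z)⁻¹ ^ 2) LJb e3 e4 z) (SG r0 m) ∧
    EqOn (dd (dd (dd (fG fh) e4) e3) e2) (fun z =>
      dd (dd (dd fh (e4.1.1, e4.2.1)) (e3.1.1, e3.2.1)) (e2.1.1, e2.2.1) (z.1.1, z.2.1)
      + MJCR3 (fun z => (1 + LJb z)⁻¹) (fun z => -(1 + LJb z)⁻¹ ^ 2)
        (fun z => 2 * (1 + LJb z)⁻¹ ^ 3) LJb e2 e3 e4 z) (SG r0 m) ∧
    EqOn (dd (dd (dd (dd (fG fh) e4) e3) e2) e1) (fun z =>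
      dd (dd (dd (dd fh (e4.1.1, e4.2.1)) (e3.1.1, e3.2.1)) (e2.1.1, e2.2.1)) (e1.1.1, e1.2.1)
        (z.1.1, z.2.1)
      + MJCR4 (fun z => (1 + LJb z)⁻¹) (fun z => -(1 + LJb z)⁻¹ ^ 2)
        (fun z => 2 * (1 + LJb z)⁻¹ ^ 3) (fun z => -6 * (1 + LJb z)⁻¹ ^ 4)
        LJb e1 e2 e3 e4 z) (SG r0 m) := by
  have hU := SG_open r0 m
  have hq : ContDiffOn ℂ ∞ LJb (SG r0 m) := (LJb_smooth m).contDiffOn
  have q0 : ∀ e, MJCD (SG r0 m) (fun z => Complex.log (1 + LJb z)) e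
      (fun z => (1 + LJb z)⁻¹ * dd LJb e z) := fun e =>
    MJCD.comp hU hq (f := fun w => Complex.log (1 + w)) (f' := fun w => (1 + w)⁻¹)
      (fun z hz => LJL_deriv (LJ_slit2 hz)) e
  have q1 : ∀ e, MJCD (SG r0 m) (fun z => (1 + LJb z)⁻¹) e
      (fun z => -(1 + LJb z)⁻¹ ^ 2 * dd LJb e z) := fun e =>
    MJCD.comp hU hq (f := fun w => (1 + w)⁻¹) (f' := fun w => -(1 + w)⁻¹ ^ 2)
      (fun z hz => LJI_deriv (slitPlane_ne_zero (LJ_slit2 hz))) e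
  have q2 : ∀ e, MJCD (SG r0 m) (fun z => -(1 + LJb z)⁻¹ ^ 2) e
      (fun z => 2 * (1 + LJb z)⁻¹ ^ 3 * dd LJb e z) := fun e =>
    MJCD.comp hU hq (f := fun w => -(1 + w)⁻¹ ^ 2) (f' := fun w => 2 * (1 + w)⁻¹ ^ 3)
      (fun z hz => LJI_deriv2 (slitPlane_ne_zero (LJ_slit2 hz))) e
  have q3 : ∀ e, MJCD (SG r0 m) (fun z => 2 * (1 + LJb z)⁻¹ ^ 3) e
      (fun z => -6 * (1 + LJb z)⁻¹ ^ 4 * dd LJb e z) := fun e =>
    MJCD.comp hU hq (f := fun w => 2 * (1 + w)⁻¹ ^ 3) (f' := fun w => -6 * (1 + w)⁻¹ ^ 4)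
      (fun z hz => LJI_deriv3 (slitPlane_ne_zero (LJ_slit2 hz))) e
  have g1 := MJC_dd_smooth isOpen_ball hf (e4.1.1, e4.2.1)
  have g2 := MJC_dd_smooth isOpen_ball g1 (e3.1.1, e3.2.1)
  have g3 := MJC_dd_smooth isOpen_ball g2 (e2.1.1, e2.2.1)
  have s1 : EqOn (dd (fG fh) e4) _ (SG r0 m) := ((LJ_pi_D hf e4).add (q0 e4)).dd_eq
  have s2 := (MJC_dd_congr hU s1 e3).trans
    ((LJ_pi_D g1 e3).add (MJCR1_D hU hq q1 e3 e4)).dd_eq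
  have s3 := (MJC_dd_congr hU s2 e2).trans
    ((LJ_pi_D g2 e2).add (MJCR2_D hU hq q1 q2 e2 e3 e4)).dd_eq
  exact ⟨s2, s3, (MJC_dd_congr hU s3 e1).trans
    ((LJ_pi_D g3 e1).add (MJCR3_D hU hq q1 q2 q3 e1 e2 e3 e4)).dd_eq⟩

theorem LJ_mem {r0 : ℝ} (hr0 : 0 < r0) (m : ℕ) : ((0, 0) : Bm m × Bm m) ∈ SG r0 m := by
  refine ⟨mem_ball_self hr0, ?_⟩
  show ‖bil (0 : Fb m) 0‖ < 1
  simp [bil]

theorem LJ_q0 (m : ℕ) : LJq ((0, 0) : Bm m × Bm m) = 0 := by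
  simp [LJq]

theorem LJ_b0 (m : ℕ) : LJb ((0, 0) : Bm m × Bm m) = 0 := by
  simp [LJb, bil]

theorem LJ_dq0 {m : ℕ} (e : Bm m × Bm m) : dd LJq e ((0, 0) : Bm m × Bm m) = 0 := by
  rw [LJ_quad1 (LJq_smooth m) LJq_line]
  simp [LJqs]

theorem LJ_db0 {m : ℕ} (e : Bm m × Bm m) : dd LJb e ((0, 0) : Bm m × Bm m) = 0 := by
  rw [LJ_quad1 (LJb_smooth m) LJb_line]
  simp [LJbs, bil]

theorem LJ_ddq {m : ℕ} (e w z : Bm m × Bm m) : dd (dd LJq e) w z = LJqs e w := by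
  rw [LJ_quad2 (LJq_smooth m) LJq_line LJqs_line]

theorem LJ_ddb {m : ℕ} (e w z : Bm m × Bm m) : dd (dd LJb e) w z = LJbs e w := by
  rw [LJ_quad2 (LJb_smooth m) LJb_line LJbs_line]

theorem LJ_dddq {m : ℕ} (e w t z : Bm m × Bm m) : dd (dd (dd LJq e) w) t z = 0 := by
  rw [LJ_quad3 (LJq_smooth m) LJq_line LJqs_line]

theorem LJ_dddb {m : ℕ} (e w t z : Bm m × Bm m) : dd (dd (dd LJb e) w) t z = 0 := by
  rw [LJ_quad3 (LJb_smooth m) LJb_line LJbs_line]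

theorem LJ_ddddq {m : ℕ} (e w t r z : Bm m × Bm m) : dd (dd (dd (dd LJq e) w) t) r z = 0 := by
  rw [LJ_quad4 (LJq_smooth m) LJq_line LJqs_line]

theorem LJ_ddddb {m : ℕ} (e w t r z : Bm m × Bm m) : dd (dd (dd (dd LJb e) w) t) r z = 0 := by
  rw [LJ_quad4 (LJb_smooth m) LJb_line LJbs_line]

theorem LJqs_mix {m : ℕ} (u v : Bm m) : LJqs ((0, cBm m v) : Bm m × Bm m) (u, 0) = ip u.1 v.1 := by
  show 0 * 0 + u.1.1 * starRingEnd ℂ v.1.1 + (0 * 0 + u.1.2 * starRingEnd ℂ v.1.2) = _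
  unfold ip
  ring

theorem LJqs_left {m : ℕ} (u v : Bm m) : LJqs ((v, 0) : Bm m × Bm m) (u, 0) = 0 := by
  show v.1.1 * 0 + u.1.1 * 0 + (v.1.2 * 0 + u.1.2 * 0) = 0
  ring

theorem LJqs_right {m : ℕ} (u v : Bm m) : LJqs ((0, v) : Bm m × Bm m) (0, u) = 0 := by
  show 0 * u.1.1 + 0 * v.1.1 + (0 * u.1.2 + 0 * v.1.2) = 0
  ring

theorem LJbs_mix {m : ℕ} (u v : Bm m) : LJbs ((0, cBm m v) : Bm m × Bm m) (u, 0) = ipn u.2 v.2 := by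
  unfold LJbs bil ipn
  rw [← Finset.sum_add_distrib]
  refine Finset.sum_congr rfl fun i _ => ?_
  show 0 * 0 + u.2 i * starRingEnd ℂ (v.2 i) = _
  ring

theorem LJbs_left {m : ℕ} (u v : Bm m) : LJbs ((v, 0) : Bm m × Bm m) (u, 0) = 0 := by
  simp [LJbs, bil]

theorem LJbs_right {m : ℕ} (u v : Bm m) : LJbs ((0, v) : Bm m × Bm m) (0, u) = 0 := by
  simp [LJbs, bil]

theorem bG_11 (A : ℝ) {m : ℕ} (u v : Bm m) : K11g (cBm m) (bG A) (0, 0) u v = A * ip u.1 v.1 := by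
  unfold K11g
  rw [(LJ_bG_dd (A := A) (r0 := 1 / 8) le_rfl 0 0 (u, 0) (0, cBm m v)).1
    (LJ_mem (by norm_num) m)]
  simp only [MJCR2, LJ_q0, LJ_dq0, LJ_ddq, LJqs_mix]
  ring

theorem bG_21 (A : ℝ) {m : ℕ} (u u' v : Bm m) : K21g (cBm m) (bG A) (0, 0) u u' v = 0 := by
  unfold K21g
  rw [(LJ_bG_dd (A := A) (r0 := 1 / 8) le_rfl 0 (u, 0) (u', 0) (0, cBm m v)).2.1
    (LJ_mem (by norm_num) m)]
  simp only [MJCR3, LJ_q0, LJ_dq0, LJ_ddq, LJ_dddq, LJqs_mix]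
  ring

theorem bG_22 (A : ℝ) {m : ℕ} (u u' v v' : Bm m) : K22g (cBm m) (bG A) (0, 0) u u' v v' =
    A * (ip u.1 v.1 * ip u'.1 v'.1 + ip u.1 v'.1 * ip u'.1 v.1) := by
  unfold K22g
  rw [(LJ_bG_dd (A := A) (r0 := 1 / 8) le_rfl (u, 0) (u', 0) (0, cBm m v) (0, cBm m v')).2.2
    (LJ_mem (by norm_num) m)]
  simp only [MJCR4, LJ_q0, LJ_dq0, LJ_ddq, LJ_dddq, LJ_ddddq, LJqs_mix, LJqs_left, LJqs_right]
  ring

theorem fG_11 {r0 : ℝ} (hr0 : 0 < r0) {fh : (ℂ × ℂ) × (ℂ × ℂ) → ℂ}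
    (hf : ContDiffOn ℂ ∞ fh (ball 0 r0)) {m : ℕ} (u v : Bm m) :
    K11g (cBm m) (fG fh) (0, 0) u v = f11 fh u.1 v.1 + ipn u.2 v.2 := by
  unfold K11g
  rw [(LJ_fG_dd hf 0 0 (u, 0) (0, cBm m v)).1 (LJ_mem hr0 m)]
  simp only [MJCR2, LJ_b0, LJ_db0, LJ_ddb, LJbs_mix]
  have h : dd (dd fh ((((0 : Bm m), cBm m v) : Bm m × Bm m).1.1,
      (((0 : Bm m), cBm m v) : Bm m × Bm m).2.1)) (((u, (0 : Bm m)) : Bm m × Bm m).1.1,
      ((u, (0 : Bm m)) : Bm m × Bm m).2.1) ((((0 : Bm m), (0 : Bm m)) : Bm m × Bm m).1.1,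
      (((0 : Bm m), (0 : Bm m)) : Bm m × Bm m).2.1) = f11 fh u.1 v.1 := rfl
  rw [h]
  ring

theorem fG_21 {r0 : ℝ} (hr0 : 0 < r0) {fh : (ℂ × ℂ) × (ℂ × ℂ) → ℂ}
    (hf : ContDiffOn ℂ ∞ fh (ball 0 r0)) {m : ℕ} (u u' v : Bm m) :
    K21g (cBm m) (fG fh) (0, 0) u u' v = f21 fh u.1 u'.1 v.1 := by
  unfold K21g
  rw [(LJ_fG_dd hf 0 (u, 0) (u', 0) (0, cBm m v)).2.1 (LJ_mem hr0 m)]
  simp only [MJCR3, LJ_b0, LJ_db0, LJ_ddb, LJ_dddb]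
  have h : dd (dd (dd fh ((((0 : Bm m), cBm m v) : Bm m × Bm m).1.1,
      (((0 : Bm m), cBm m v) : Bm m × Bm m).2.1)) (((u', (0 : Bm m)) : Bm m × Bm m).1.1,
      ((u', (0 : Bm m)) : Bm m × Bm m).2.1)) (((u, (0 : Bm m)) : Bm m × Bm m).1.1,
      ((u, (0 : Bm m)) : Bm m × Bm m).2.1) ((((0 : Bm m), (0 : Bm m)) : Bm m × Bm m).1.1,
      (((0 : Bm m), (0 : Bm m)) : Bm m × Bm m).2.1) = f21 fh u.1 u'.1 v.1 := rfl
  rw [h]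
  ring

theorem fG_12 {r0 : ℝ} (hr0 : 0 < r0) {fh : (ℂ × ℂ) × (ℂ × ℂ) → ℂ}
    (hf : ContDiffOn ℂ ∞ fh (ball 0 r0)) {m : ℕ} (u v v' : Bm m) :
    K12g (cBm m) (fG fh) (0, 0) u v v' = f12 fh u.1 v.1 v'.1 := by
  unfold K12g
  rw [(LJ_fG_dd hf 0 (u, 0) (0, cBm m v) (0, cBm m v')).2.1 (LJ_mem hr0 m)]
  simp only [MJCR3, LJ_b0, LJ_db0, LJ_ddb, LJ_dddb]
  have h : dd (dd (dd fh ((((0 : Bm m), cBm m v') : Bm m × Bm m).1.1,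
      (((0 : Bm m), cBm m v') : Bm m × Bm m).2.1)) ((((0 : Bm m), cBm m v) : Bm m × Bm m).1.1,
      (((0 : Bm m), cBm m v) : Bm m × Bm m).2.1)) (((u, (0 : Bm m)) : Bm m × Bm m).1.1,
      ((u, (0 : Bm m)) : Bm m × Bm m).2.1) ((((0 : Bm m), (0 : Bm m)) : Bm m × Bm m).1.1,
      (((0 : Bm m), (0 : Bm m)) : Bm m × Bm m).2.1) = f12 fh u.1 v.1 v'.1 := rfl
  rw [h]
  ring

theorem fG_22 {r0 : ℝ} (hr0 : 0 < r0) {fh : (ℂ × ℂ) × (ℂ × ℂ) → ℂ}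
    (hf : ContDiffOn ℂ ∞ fh (ball 0 r0)) {m : ℕ} (u u' v v' : Bm m) :
    K22g (cBm m) (fG fh) (0, 0) u u' v v' = f22 fh u.1 u'.1 v.1 v'.1
      - (ipn u.2 v.2 * ipn u'.2 v'.2 + ipn u.2 v'.2 * ipn u'.2 v.2) := by
  unfold K22g
  rw [(LJ_fG_dd hf (u, 0) (u', 0) (0, cBm m v) (0, cBm m v')).2.2 (LJ_mem hr0 m)]
  simp only [MJCR4, LJ_b0, LJ_db0, LJ_ddb, LJ_dddb, LJ_ddddb, LJbs_mix, LJbs_left, LJbs_right]
  have h : dd (dd (dd (dd fh ((((0 : Bm m), cBm m v') : Bm m × Bm m).1.1,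
      (((0 : Bm m), cBm m v') : Bm m × Bm m).2.1)) ((((0 : Bm m), cBm m v) : Bm m × Bm m).1.1,
      (((0 : Bm m), cBm m v) : Bm m × Bm m).2.1)) (((u', (0 : Bm m)) : Bm m × Bm m).1.1,
      ((u', (0 : Bm m)) : Bm m × Bm m).2.1)) (((u, (0 : Bm m)) : Bm m × Bm m).1.1,
      ((u, (0 : Bm m)) : Bm m × Bm m).2.1) ((((0 : Bm m), (0 : Bm m)) : Bm m × Bm m).1.1,
      (((0 : Bm m), (0 : Bm m)) : Bm m × Bm m).2.1) = f22 fh u.1 u'.1 v.1 v'.1 := rfl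
  rw [h]
  ring

/-- the diagonal values -/
theorem PhiG_diag {r0 A : ℝ} (hr1 : r0 ≤ 1 / 8) {fh : (ℂ × ℂ) × (ℂ × ℂ) → ℂ}
    (hherm : ∀ x ∈ ball (0 : ℂ × ℂ) r0, ∀ y ∈ ball (0 : ℂ × ℂ) r0,
      starRingEnd ℂ (fh (x, y)) = fh (cj y, cj x)) {m : ℕ} {p : Bm m × ℂ}
    (hp : (p, cV (cBm m) p) ∈ Ugen (SG r0 m) (fG fh)) :
    (PhiG A fh p : ℂ) = Kgen (bG A) (fG fh) (p, cV (cBm m) p) := by
  obtain ⟨⟨hp1, hp3⟩, hp2⟩ := hp
  have hp1' : (p.1.1, cj p.1.1) ∈ ball (0 : (ℂ × ℂ) × (ℂ × ℂ)) r0 := hp1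
  have hx : p.1.1 ∈ ball (0 : ℂ × ℂ) r0 := by
    rw [mem_ball_zero_iff] at hp1' ⊢
    rw [Prod.norm_def] at hp1'
    exact lt_of_le_of_lt (le_max_left _ _) hp1'
  have hy : cj p.1.1 ∈ ball (0 : ℂ × ℂ) r0 := by
    rw [mem_ball_zero_iff] at hp1' ⊢
    rw [Prod.norm_def] at hp1'
    exact lt_of_le_of_lt (le_max_right _ _) hp1'
  have hcc : cj (cj p.1.1) = p.1.1 := by simp [cj]
  have hreal : ((fh (p.1.1, cj p.1.1)).re : ℂ) = fh (p.1.1, cj p.1.1) := by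
    have h1 := hherm p.1.1 hx (cj p.1.1) hy
    rw [hcc] at h1
    exact conj_eq_iff_re.1 h1
  have hbil : bil p.1.2 (cFb m p.1.2) = ((‖p.1.2‖ ^ 2 : ℝ) : ℂ) := by
    rw [EuclideanSpace.norm_sq_eq]
    push_cast
    unfold bil
    refine Finset.sum_congr rfl fun i _ => ?_
    show p.1.2 i * starRingEnd ℂ (p.1.2 i) = _
    rw [mul_conj']
  have hn : (0 : ℝ) < 1 + ‖p.1.2‖ ^ 2 := by positivity
  have hlog : Complex.exp (Complex.log (1 + bil p.1.2 (cFb m p.1.2))) =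
      ((1 + ‖p.1.2‖ ^ 2 : ℝ) : ℂ) := by
    rw [hbil]
    have h1 : (1 : ℂ) + ((‖p.1.2‖ ^ 2 : ℝ) : ℂ) = ((1 + ‖p.1.2‖ ^ 2 : ℝ) : ℂ) := by
      push_cast
      rfl
    rw [h1, Complex.exp_log]
    exact_mod_cast hn.ne'
  have hexp : Complex.exp (p.2 + starRingEnd ℂ p.2 + (fh (p.1.1, cj p.1.1)
      + Complex.log (1 + bil p.1.2 (cFb m p.1.2)))) =
      ((Real.exp (2 * p.2.re + (fh (p.1.1, cj p.1.1)).re) * (1 + ‖p.1.2‖ ^ 2) : ℝ) : ℂ) := by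
    rw [← add_assoc, Complex.exp_add, hlog, ← hreal, add_conj]
    push_cast
    simp
  have hb := MJC_ball hr1 hp1'
  have e1 : p.1.1.1 * (cj p.1.1).1 = ((‖p.1.1.1‖ ^ 2 : ℝ) : ℂ) := by
    simp only [cj]
    rw [mul_conj']
    push_cast
    rfl
  have e2 : p.1.1.2 * (cj p.1.1).2 = ((‖p.1.1.2‖ ^ 2 : ℝ) : ℂ) := by
    simp only [cj]
    rw [mul_conj']
    push_cast
    rfl
  have hb2 : 0 ≤ 1 - ‖p.1.1.1‖ ^ 2 - ‖p.1.1.2‖ ^ 2 := by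
    have hb' : ‖p.1.1.1 * (cj p.1.1).1 + p.1.1.2 * (cj p.1.1).2‖ < 1 / 2 := hb
    rw [e1, e2, ← ofReal_add, norm_real, Real.norm_eq_abs] at hb'
    have := le_abs_self (‖p.1.1.1‖ ^ 2 + ‖p.1.1.2‖ ^ 2)
    linarith
  have hp2' : ‖Complex.exp (p.2 + starRingEnd ℂ p.2 + (fh (p.1.1, cj p.1.1)
      + Complex.log (1 + bil p.1.2 (cFb m p.1.2))))‖ < 1 := hp2
  have hb3 : 0 ≤ 1 - Real.exp (2 * p.2.re + (fh (p.1.1, cj p.1.1)).re) * (1 + ‖p.1.2‖ ^ 2) := by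
    rw [hexp, norm_real, Real.norm_eq_abs] at hp2'
    have := le_abs_self (Real.exp (2 * p.2.re + (fh (p.1.1, cj p.1.1)).re) * (1 + ‖p.1.2‖ ^ 2))
    linarith
  show ((A * (-Real.log (1 - ‖p.1.1.1‖ ^ 2 - ‖p.1.1.2‖ ^ 2))
    - Real.log (1 - Real.exp (2 * p.2.re + (fh (p.1.1, cj p.1.1)).re) * (1 + ‖p.1.2‖ ^ 2)) : ℝ) : ℂ)
    = A * (-Complex.log (1 - p.1.1.1 * (cj p.1.1).1 - p.1.1.2 * (cj p.1.1).2))
    - Complex.log (1 - Complex.exp (p.2 + starRingEnd ℂ p.2 + (fh (p.1.1, cj p.1.1)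
      + Complex.log (1 + bil p.1.2 (cFb m p.1.2)))))
  rw [hexp, e1, e2, ofReal_sub, ofReal_mul, ofReal_neg, ofReal_log hb2, ofReal_log hb3]
  push_cast
  rfl

end P250
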