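import Vale.Agent.Lib.P250.G.GDefs
import Vale.Agent.Lib.P250.LCB
import Vale.Agent.Lib.P250.PotA

/-! # P250-G module PolA: PolarA on a general space `E` with a conjugate linear map `c`
(adapt the proofs of `PolarA.lean`) -/

open scoped ContDiff
open Complex Set

namespace P250

variable {E : Type*} [NormedAddCommGroup E] [NormedSpace ℂ E]

/-- Real derivatives of `X (p, c p)`. -/
theorem polAg_fderiv_diag {c : E →L[ℝ] E} {X : E × E → ℂ} {p : E}
    (hX : DifferentiableAt ℂ X (p, c p)) (u : E) :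
    fderiv ℝ (fun q : E => X (q, c q)) p u = dd X (u, 0) (p, c p) + dd X (0, c u) (p, c p) := by
  have h1 : HasFDerivAt X ((fderiv ℂ X (p, c p)).restrictScalars ℝ) (p, c p) :=
    hX.hasFDerivAt.restrictScalars ℝ
  have h2 : HasFDerivAt (fun q : E => ((q, c q) : E × E))
      ((ContinuousLinearMap.id ℝ E).prod c) p :=
    (hasFDerivAt_id p).prodMk c.hasFDerivAt
  have h3 : HasFDerivAt (fun q : E => X (q, c q)) _ p := HasFDerivAt.comp p h1 h2
  rw [h3.fderiv]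
  show fderiv ℂ X (p, c p) (u, c u) = _
  have h4 : ((u, c u) : E × E) = (u, 0) + (0, c u) := by simp
  rw [h4, map_add]
  rfl

theorem polAg_continuous_diag (c : E →L[ℝ] E) : Continuous (fun q : E => ((q, c q) : E × E)) :=
  continuous_id.prodMk c.continuous

theorem polAg_c_I_smul {c : E →L[ℝ] E} (hc : ∀ u, c (I • u) = -(I • c u)) (u : E) :
    c (I • u) = (-I) • c u := by
  rw [hc u, neg_smul]

theorem polAg_left_I (u : E) : (((I • u : E), (0 : E)) : E × E) = I • ((u, 0) : E × E) :=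
  Prod.ext rfl (smul_zero I).symm

theorem polAg_right_I {c : E →L[ℝ] E} (hc : ∀ u, c (I • u) = -(I • c u)) (v : E) :
    (((0 : E), c (I • v)) : E × E) = (-I) • ((0, c v) : E × E) :=
  Prod.ext (smul_zero (-I)).symm (polAg_c_I_smul hc v)

theorem polAg_dd_smooth {U : Set (E × E)} (hU : IsOpen U) {K : E × E → ℂ}
    (hK : ContDiffOn ℂ ∞ K U) (a : E × E) : ContDiffOn ℂ ∞ (dd K a) U := by
  have h1 : ContDiffOn ℂ ∞ (fderiv ℂ K) U := hK.fderiv_of_isOpen hU (by simp)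
  exact h1.clm_apply contDiffOn_const

theorem polAg_diffAt {U : Set (E × E)} (hU : IsOpen U) {K : E × E → ℂ}
    (hK : ContDiffOn ℂ ∞ K U) {z : E × E} (hz : z ∈ U) : DifferentiableAt ℂ K z :=
  (hK.contDiffAt (hU.mem_nhds hz)).differentiableAt (by simp)

theorem polAg_dd_comm {U : Set (E × E)} (hU : IsOpen U) {K : E × E → ℂ}
    (hK : ContDiffOn ℂ ∞ K U) {z : E × E} (hz : z ∈ U) (a b : E × E) :
    dd (dd K a) b z = dd (dd K b) a z := by
  have h : ContDiffAt ℂ ∞ K z := hK.contDiffAt (hU.mem_nhds hz)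
  have hsymm : IsSymmSndFDerivAt ℂ K z := h.isSymmSndFDerivAt (by
    rw [minSmoothness_of_isRCLikeNormedField]
    exact WithTop.coe_le_coe.mpr (le_top : (2 : ℕ∞) ≤ ⊤))
  have hd : DifferentiableAt ℂ (fderiv ℂ K) z :=
    (h.fderiv_right (m := 1) (by norm_cast)).differentiableAt (by simp)
  have key : ∀ a b, dd (dd K a) b z = fderiv ℂ (fderiv ℂ K) z b a := by
    intro a b
    show fderiv ℂ (fun z => fderiv ℂ K z a) z b = _
    rw [fderiv_clm_apply hd (differentiableAt_const a)]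
    simp
  rw [key, key]
  exact hsymm b a

theorem polAg_dd_congr {U : Set (E × E)} (hU : IsOpen U) {X Y : E × E → ℂ}
    (h : ∀ z ∈ U, X z = Y z) (a : E × E) : ∀ z ∈ U, dd X a z = dd Y a z := by
  intro z hz
  have h1 : X =ᶠ[nhds z] Y := Filter.eventually_of_mem (hU.mem_nhds hz) h
  show fderiv ℂ X z a = fderiv ℂ Y z a
  rw [h1.fderiv_eq]

theorem polAg_dd_smul (K : E × E → ℂ) (t : ℂ) (a z : E × E) :
    dd K (t • a) z = t * dd K a z := by
  show fderiv ℂ K z (t • a) = t * fderiv ℂ K z a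
  rw [map_smul, smul_eq_mul]

theorem polAg_dd_add {X Y : E × E → ℂ} {z : E × E} (hX : DifferentiableAt ℂ X z)
    (hY : DifferentiableAt ℂ Y z) (a : E × E) :
    dd (fun z => X z + Y z) a z = dd X a z + dd Y a z := by
  show fderiv ℂ (fun z => X z + Y z) z a = fderiv ℂ X z a + fderiv ℂ Y z a
  rw [fderiv_fun_add hX hY]
  rfl

theorem polAg_dd_half {X : E × E → ℂ} {z : E × E} (hX : DifferentiableAt ℂ X z)
    (a : E × E) : dd (fun z => X z / 2) a z = dd X a z / 2 := by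
  show fderiv ℂ (fun z => X z / 2) z a = fderiv ℂ X z a / 2
  have h := (hX.hasFDerivAt.mul_const (2⁻¹ : ℂ)).fderiv
  have e : (fun z => X z / 2) = fun z => X z * (2⁻¹ : ℂ) := by
    funext z
    exact div_eq_mul_inv _ _
  rw [e, h]
  simp [div_eq_mul_inv, mul_comm]

theorem polAg_smooth {c : E →L[ℝ] E} {U : Set (E × E)} (hU : IsOpen U) {K : E × E → ℂ}
    (hK : ContDiffOn ℂ ∞ K U) {Φ : E → ℝ} {p0 : E} (hp0 : (p0, c p0) ∈ U)
    (hΦ : ∀ᶠ p in nhds p0, (Φ p : ℂ) = K (p, c p)) : ContDiffAt ℝ ∞ Φ p0 := by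
  have h1 : ContDiffAt ℝ ∞ K (p0, c p0) :=
    (hK.contDiffAt (hU.mem_nhds hp0)).restrict_scalars ℝ
  have h2 : ContDiffAt ℝ ∞ (fun q : E => ((q, c q) : E × E)) p0 :=
    contDiffAt_id.prodMk c.contDiff.contDiffAt
  have h3 : ContDiffAt ℝ ∞ (fun q : E => K (q, c q)) p0 := ContDiffAt.comp p0 h1 h2
  have h4 : ContDiffAt ℝ ∞ (fun q : E => (K (q, c q)).re) p0 :=
    ContDiffAt.comp p0 Complex.reCLM.contDiff.contDiffAt h3
  exact h4.congr_of_eventuallyEq (hΦ.mono fun p hp => by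
    show Φ p = (K (p, c p)).re
    rw [← hp, ofReal_re])

theorem polAg_first {c : E →L[ℝ] E} {U : Set (E × E)} (hU : IsOpen U) {K : E × E → ℂ}
    (hK : ContDiffOn ℂ ∞ K U) {Φ : E → ℝ} {p0 : E} (hp0 : (p0, c p0) ∈ U)
    (hΦ : ∀ᶠ p in nhds p0, (Φ p : ℂ) = K (p, c p)) (v : E) :
    ((fderiv ℝ Φ p0 v : ℝ) : ℂ) =
      dd K (v, 0) (p0, c p0) + dd K (0, c v) (p0, c p0) := by
  rw [← polAg_fderiv_diag (polAg_diffAt hU hK hp0) v]
  have hΦd : DifferentiableAt ℝ Φ p0 := (polAg_smooth hU hK hp0 hΦ).differentiableAt (by simp)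
  have h1 : HasFDerivAt (fun p => ((Φ p : ℝ) : ℂ)) (Complex.ofRealCLM.comp (fderiv ℝ Φ p0)) p0 :=
    HasFDerivAt.comp p0 Complex.ofRealCLM.hasFDerivAt hΦd.hasFDerivAt
  have h2 : HasFDerivAt (fun q : E => K (q, c q)) (Complex.ofRealCLM.comp (fderiv ℝ Φ p0)) p0 :=
    h1.congr_of_eventuallyEq (hΦ.mono fun p hp => hp.symm)
  rw [h2.fderiv]
  rfl

theorem polAg_first_ev {c : E →L[ℝ] E} {U : Set (E × E)} (hU : IsOpen U) {K : E × E → ℂ}
    (hK : ContDiffOn ℂ ∞ K U) {Φ : E → ℝ} {p0 : E} (hp0 : (p0, c p0) ∈ U)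
    (hΦ : ∀ᶠ p in nhds p0, (Φ p : ℂ) = K (p, c p)) (v : E) :
    ∀ᶠ p in nhds p0, ((fderiv ℝ Φ p v : ℝ) : ℂ) =
      dd K (v, 0) (p, c p) + dd K (0, c v) (p, c p) := by
  have hU' : ∀ᶠ p in nhds p0, ((p, c p) : E × E) ∈ U :=
    (polAg_continuous_diag c).continuousAt.eventually_mem (hU.mem_nhds hp0)
  filter_upwards [hΦ.eventually_nhds, hU'] with p h1 h2
  exact polAg_first hU hK h2 h1 v

theorem polAg_second {c : E →L[ℝ] E} {U : Set (E × E)} (hU : IsOpen U) {K : E × E → ℂ}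
    (hK : ContDiffOn ℂ ∞ K U) {Φ : E → ℝ} {p0 : E} (hp0 : (p0, c p0) ∈ U)
    (hΦ : ∀ᶠ p in nhds p0, (Φ p : ℂ) = K (p, c p)) (u v : E) :
    ((fderiv ℝ (fderiv ℝ Φ) p0 u v : ℝ) : ℂ) =
      dd (dd K (v, 0)) (u, 0) (p0, c p0) + K11g c K (p0, c p0) u v +
        (K11g c K (p0, c p0) v u + dd (dd K (0, c v)) (0, c u) (p0, c p0)) := by
  have hsm := polAg_smooth hU hK hp0 hΦ
  have hd : DifferentiableAt ℝ (fderiv ℝ Φ) p0 :=
    (hsm.fderiv_right (m := 1) (by norm_cast)).differentiableAt (by simp)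
  have e1 : fderiv ℝ (fderiv ℝ Φ) p0 u v = fderiv ℝ (fun q => fderiv ℝ Φ q v) p0 u := by
    rw [fderiv_clm_apply hd (differentiableAt_const v)]
    simp
  rw [e1]
  have hX : ContDiffOn ℂ ∞ (fun z => dd K (v, 0) z + dd K (0, c v) z) U :=
    (polAg_dd_smooth hU hK _).add (polAg_dd_smooth hU hK _)
  rw [polAg_first hU hX hp0 (polAg_first_ev hU hK hp0 hΦ v) u]
  have hd1 := polAg_diffAt hU (polAg_dd_smooth hU hK (v, 0)) hp0
  have hd2 := polAg_diffAt hU (polAg_dd_smooth hU hK (0, c v)) hp0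
  rw [polAg_dd_add hd1 hd2, polAg_dd_add hd1 hd2, polAg_dd_comm hU hK hp0 (v, 0) (0, c u)]
  rfl

variable [FiniteDimensional ℂ E]

theorem polAg_metric_c {c : E →L[ℝ] E} (hc : ∀ u, c (I • u) = -(I • c u)) {U : Set (E × E)} (hU : IsOpen U) {K : E × E → ℂ}
    (hK : ContDiffOn ℂ ∞ K U) {Φ : E → ℝ} {p0 : E} (hp0 : (p0, c p0) ∈ U)
    (hΦ : ∀ᶠ p in nhds p0, (Φ p : ℂ) = K (p, c p)) (u v : E) :
    ((potMetric Φ p0 u v : ℝ) : ℂ) =
      (K11g c K (p0, c p0) u v + K11g c K (p0, c p0) v u) / 2 := by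
  rw [potMetric_apply]
  have h1 := polAg_second hU hK hp0 hΦ u v
  have h2 := polAg_second hU hK hp0 hΦ (I • u) (I • v)
  have hB : ∀ u v : E, K11g c K (p0, c p0) (I • u) (I • v) = K11g c K (p0, c p0) u v := by
    intro u v
    unfold K11g
    rw [polAg_left_I, polAg_dd_smul, polAg_dd_comm hU hK hp0, polAg_right_I hc, polAg_dd_smul, polAg_dd_comm hU hK hp0,
      ← mul_assoc, mul_neg, I_mul_I, neg_neg, one_mul]
  have hA : dd (dd K (I • v, 0)) (I • u, 0) (p0, c p0) =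
      -dd (dd K (v, 0)) (u, 0) (p0, c p0) := by
    rw [polAg_left_I u, polAg_dd_smul, polAg_dd_comm hU hK hp0, polAg_left_I v, polAg_dd_smul, polAg_dd_comm hU hK hp0,
      ← mul_assoc, I_mul_I, neg_one_mul]
  have hC : dd (dd K (0, c (I • v))) (0, c (I • u)) (p0, c p0) =
      -dd (dd K (0, c v)) (0, c u) (p0, c p0) := by
    rw [polAg_right_I hc u, polAg_dd_smul, polAg_dd_comm hU hK hp0, polAg_right_I hc v, polAg_dd_smul, polAg_dd_comm hU hK hp0,
      ← mul_assoc, neg_mul_neg, I_mul_I, neg_one_mul]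
  rw [hB, hB, hA, hC] at h2
  push_cast
  rw [h1, h2]
  ring

theorem polAg_herm_re {c : E →L[ℝ] E} (hc : ∀ u, c (I • u) = -(I • c u)) {U : Set (E × E)} (hU : IsOpen U) {K : E × E → ℂ}
    (hK : ContDiffOn ℂ ∞ K U) {Φ : E → ℝ} {p0 : E} (hp0 : (p0, c p0) ∈ U)
    (hΦ : ∀ᶠ p in nhds p0, (Φ p : ℂ) = K (p, c p)) (u v : E) :
    (K11g c K (p0, c p0) u v).re = (K11g c K (p0, c p0) v u).re := by
  have h1 := polAg_metric_c hc hU hK hp0 hΦ u (I • v)
  have e3 : K11g c K (p0, c p0) u (I • v) = -I * K11g c K (p0, c p0) u v := by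
    unfold K11g
    rw [polAg_dd_comm hU hK hp0, polAg_right_I hc, polAg_dd_smul, polAg_dd_comm hU hK hp0]
  have e4 : K11g c K (p0, c p0) (I • v) u = I * K11g c K (p0, c p0) v u := by
    unfold K11g
    rw [polAg_left_I, polAg_dd_smul]
  rw [e3, e4] at h1
  have h2 := congrArg Complex.im h1
  rw [Complex.ofReal_im] at h2
  have e5 : ((-I * K11g c K (p0, c p0) u v + I * K11g c K (p0, c p0) v u) / 2).im =
      (-(K11g c K (p0, c p0) u v).re + (K11g c K (p0, c p0) v u).re) / 2 := by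
    simp
  rw [e5] at h2
  linarith

theorem polar_metric_g {c : E →L[ℝ] E} (hc : ∀ u, c (I • u) = -(I • c u)) {U : Set (E × E)} (hU : IsOpen U) {K : E × E → ℂ}
    (hK : ContDiffOn ℂ ∞ K U) {Φ : E → ℝ} {p0 : E} (hp0 : (p0, c p0) ∈ U)
    (hΦ : ∀ᶠ p in nhds p0, (Φ p : ℂ) = K (p, c p)) (u v : E) :
    potMetric Φ p0 u v = (K11g c K (p0, c p0) u v).re := by
  have h1 := congrArg Complex.re (polAg_metric_c hc hU hK hp0 hΦ u v)
  have h2 := polAg_herm_re hc hU hK hp0 hΦ u v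
  have e5 : ((K11g c K (p0, c p0) u v + K11g c K (p0, c p0) v u) / 2).re =
      ((K11g c K (p0, c p0) u v).re + (K11g c K (p0, c p0) v u).re) / 2 := by
    simp
  rw [e5, Complex.ofReal_re] at h1
  linarith

/-- third derivatives -/
noncomputable def polT3g (K : E × E → ℂ) (a b d z : E × E) : ℂ := dd (dd (dd K d) b) a z

omit [FiniteDimensional ℂ E] in
theorem polAg_T3_swap12 {U : Set (E × E)} (hU : IsOpen U) {K : E × E → ℂ}
    (hK : ContDiffOn ℂ ∞ K U) {z : E × E} (hz : z ∈ U) (a b d : E × E) :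
    polT3g K a b d z = polT3g K b a d z :=
  polAg_dd_comm hU (polAg_dd_smooth hU hK d) hz b a

omit [FiniteDimensional ℂ E] in
theorem polAg_T3_swap23 {U : Set (E × E)} (hU : IsOpen U) {K : E × E → ℂ}
    (hK : ContDiffOn ℂ ∞ K U) {z : E × E} (hz : z ∈ U) (a b d : E × E) :
    polT3g K a b d z = polT3g K a d b z :=
  polAg_dd_congr hU (fun _ hz' => polAg_dd_comm hU hK hz' d b) a z hz

omit [FiniteDimensional ℂ E] in
theorem polAg_T3_smul (K : E × E → ℂ) (t : ℂ) (a b d z : E × E) :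
    polT3g K (t • a) b d z = t * polT3g K a b d z := polAg_dd_smul _ t a z

/-- derivatives of the metric -/
theorem polAg_dmetric {c : E →L[ℝ] E} (hc : ∀ u, c (I • u) = -(I • c u)) {U : Set (E × E)} (hU : IsOpen U) {K : E × E → ℂ}
    (hK : ContDiffOn ℂ ∞ K U) {Φ : E → ℝ} {p0 : E} (hp0 : (p0, c p0) ∈ U)
    (hΦ : ∀ᶠ p in nhds p0, (Φ p : ℂ) = K (p, c p))
    (hgd : DifferentiableAt ℝ (potMetric Φ) p0) (u v w : E) :
    ((fderiv ℝ (potMetric Φ) p0 u v w : ℝ) : ℂ) =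
      (polT3g K (u, 0) (v, 0) (0, c w) (p0, c p0) + polT3g K (u, 0) (w, 0) (0, c v) (p0, c p0)) / 2 +
      (polT3g K (0, c u) (v, 0) (0, c w) (p0, c p0) +
        polT3g K (0, c u) (w, 0) (0, c v) (p0, c p0)) / 2 := by
  have e1 : fderiv ℝ (potMetric Φ) p0 u v w = fderiv ℝ (fun q => potMetric Φ q v w) p0 u := by
    have h1 : DifferentiableAt ℝ (fun q => potMetric Φ q v) p0 :=
      hgd.clm_apply (differentiableAt_const v)
    rw [fderiv_clm_apply h1 (differentiableAt_const w)]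
    rw [fderiv_clm_apply hgd (differentiableAt_const v)]
    simp
  rw [e1]
  have hU' : ∀ᶠ p in nhds p0, ((p, c p) : E × E) ∈ U :=
    (polAg_continuous_diag c).continuousAt.eventually_mem (hU.mem_nhds hp0)
  have h1 : ContDiffOn ℂ ∞ (dd (dd K (0, c w)) (v, 0)) U :=
    polAg_dd_smooth hU (polAg_dd_smooth hU hK _) _
  have h2 : ContDiffOn ℂ ∞ (dd (dd K (0, c v)) (w, 0)) U :=
    polAg_dd_smooth hU (polAg_dd_smooth hU hK _) _
  have hX : ContDiffOn ℂ ∞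
      (fun z => (dd (dd K (0, c w)) (v, 0) z + dd (dd K (0, c v)) (w, 0) z) / 2) U :=
    (h1.add h2).div_const 2
  have hev : ∀ᶠ p in nhds p0, ((potMetric Φ p v w : ℝ) : ℂ) =
      (fun z => (dd (dd K (0, c w)) (v, 0) z + dd (dd K (0, c v)) (w, 0) z) / 2) (p, c p) := by
    filter_upwards [hΦ.eventually_nhds, hU'] with p h3 h4
    exact polAg_metric_c hc hU hK h4 h3 v w
  rw [polAg_first hU hX hp0 hev u]
  have hd1 := polAg_diffAt hU h1 hp0
  have hd2 := polAg_diffAt hU h2 hp0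
  rw [polAg_dd_half (hd1.fun_add hd2), polAg_dd_half (hd1.fun_add hd2), polAg_dd_add hd1 hd2,
    polAg_dd_add hd1 hd2]
  rfl

theorem polAg_gamma_c {c : E →L[ℝ] E} (hc : ∀ u, c (I • u) = -(I • c u)) {U : Set (E × E)} (hU : IsOpen U) {K : E × E → ℂ}
    (hK : ContDiffOn ℂ ∞ K U) {Φ : E → ℝ} {p0 : E} (hp0 : (p0, c p0) ∈ U)
    (hΦ : ∀ᶠ p in nhds p0, (Φ p : ℂ) = K (p, c p)) {M : Set E} (hM : IsOpen M) (hpM : p0 ∈ M)
    (hg : IsRiemannianMetric M (potMetric Φ)) {Γ : E → E →L[ℝ] E →L[ℝ] E}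
    (h : IsLeviCivita M (potMetric Φ) Γ) (u v w : E) :
    ((potMetric Φ p0 (Γ p0 u v) w : ℝ) : ℂ) =
      (polT3g K (0, c w) (u, 0) (v, 0) (p0, c p0) +
        polT3g K (w, 0) (0, c u) (0, c v) (p0, c p0)) / 2 := by
  have hgd : DifferentiableAt ℝ (potMetric Φ) p0 :=
    (hg.smooth.contDiffAt (hM.mem_nhds hpM)).differentiableAt (by simp)
  rw [koszul hM hg h hpM u v w]
  push_cast
  rw [polAg_dmetric hc hU hK hp0 hΦ hgd u v w, polAg_dmetric hc hU hK hp0 hΦ hgd v u w,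
    polAg_dmetric hc hU hK hp0 hΦ hgd w u v]
  have s12 := polAg_T3_swap12 hU hK hp0
  have s23 := polAg_T3_swap23 hU hK hp0
  have t1 : polT3g K (u, 0) (v, 0) (0, c w) (p0, c p0) =
      polT3g K (0, c w) (u, 0) (v, 0) (p0, c p0) := by
    rw [s23, s12]
  have t2 : polT3g K (u, 0) (w, 0) (0, c v) (p0, c p0) =
      polT3g K (w, 0) (u, 0) (0, c v) (p0, c p0) := s12 _ _ _
  have t3 : polT3g K (0, c u) (v, 0) (0, c w) (p0, c p0) =
      polT3g K (0, c w) (v, 0) (0, c u) (p0, c p0) := by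
    rw [s23, s12, s23]
  have t4 : polT3g K (0, c u) (w, 0) (0, c v) (p0, c p0) =
      polT3g K (w, 0) (0, c u) (0, c v) (p0, c p0) := s12 _ _ _
  have t5 : polT3g K (v, 0) (u, 0) (0, c w) (p0, c p0) =
      polT3g K (0, c w) (u, 0) (v, 0) (p0, c p0) := by
    rw [s12, t1]
  have t6 : polT3g K (v, 0) (w, 0) (0, c u) (p0, c p0) =
      polT3g K (w, 0) (v, 0) (0, c u) (p0, c p0) := s12 _ _ _
  have t7 : polT3g K (0, c v) (u, 0) (0, c w) (p0, c p0) =
      polT3g K (0, c w) (u, 0) (0, c v) (p0, c p0) := by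
    rw [s23, s12, s23]
  have t8 : polT3g K (0, c v) (w, 0) (0, c u) (p0, c p0) =
      polT3g K (w, 0) (0, c u) (0, c v) (p0, c p0) := by
    rw [s12, s23]
  rw [t1, t2, t3, t4, t5, t6, t7, t8]
  ring

theorem polar_gamma_g {c : E →L[ℝ] E} (hc : ∀ u, c (I • u) = -(I • c u)) {U : Set (E × E)} (hU : IsOpen U) {K : E × E → ℂ}
    (hK : ContDiffOn ℂ ∞ K U) {Φ : E → ℝ} {p0 : E} (hp0 : (p0, c p0) ∈ U)
    (hΦ : ∀ᶠ p in nhds p0, (Φ p : ℂ) = K (p, c p)) {M : Set E} (hM : IsOpen M) (hpM : p0 ∈ M)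
    (hg : IsRiemannianMetric M (potMetric Φ)) {Γ : E → E →L[ℝ] E →L[ℝ] E}
    (h : IsLeviCivita M (potMetric Φ) Γ) (u v w : E) :
    potMetric Φ p0 (Γ p0 u v) w = (K21g c K (p0, c p0) u v w).re := by
  have h1 := polAg_gamma_c hc hU hK hp0 hΦ hM hpM hg h u v w
  have h2 := polAg_gamma_c hc hU hK hp0 hΦ hM hpM hg h u v (I • w)
  rw [polAg_left_I, polAg_right_I hc, polAg_T3_smul, polAg_T3_smul] at h2
  have e1 : K21g c K (p0, c p0) u v w = polT3g K (0, c w) (u, 0) (v, 0) (p0, c p0) := by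
    show polT3g K (u, 0) (v, 0) (0, c w) (p0, c p0) = _
    rw [polAg_T3_swap23 hU hK hp0, polAg_T3_swap12 hU hK hp0]
  rw [e1]
  set a := polT3g K (0, c w) (u, 0) (v, 0) (p0, c p0)
  set b := polT3g K (w, 0) (0, c u) (0, c v) (p0, c p0)
  have h3 := congrArg Complex.re h1
  have h4 := congrArg Complex.im h2
  have e5 : ((a + b) / 2).re = (a.re + b.re) / 2 := by simp
  have e6 : ((-I * a + I * b) / 2).im = (-a.re + b.re) / 2 := by simp
  rw [e5, Complex.ofReal_re] at h3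
  rw [e6, Complex.ofReal_im] at h4
  linarith

/-- Real derivatives of `X (p, c p)`. -/
theorem fderiv_diag_g {c : E →L[ℝ] E} (hc : ∀ u, c (I • u) = -(I • c u))
    {X : E × E → ℂ} {p : E}
    (hX : DifferentiableAt ℂ X (p, c p)) (u : E) :
    fderiv ℝ (fun q : E => X (q, c q)) p u = dd X (u, 0) (p, c p) + dd X (0, c u) (p, c p) :=
  polAg_fderiv_diag hX u

end P250
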