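import Vale.Agent.Lib.P250.CurvNum
import Vale.Agent.Lib.P250.G.PolA

/-! # P250-G module PolB: the Kaehler curvature formula on a general space
(adapt the proof of `PolarB.lean`) -/

open scoped ContDiff
open Complex Set

namespace P250

variable {E : Type*} [NormedAddCommGroup E] [NormedSpace ℂ E] [FiniteDimensional ℂ E]

omit [FiniteDimensional ℂ E] in
private theorem PolBG_diag_diff (kk : E →L[ℝ] E) : Differentiable ℝ (fun q : E => (q, kk q)) :=
  differentiable_id.prodMk kk.differentiable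

omit [FiniteDimensional ℂ E] in
private theorem PolBG_ev {kk : E →L[ℝ] E} {U : Set (E × E)} (hU : IsOpen U) {p0 : E}
    (hp0 : (p0, kk p0) ∈ U) : ∀ᶠ q in nhds p0, (q, kk q) ∈ U := by
  have h1 : Filter.Tendsto (fun q : E => (q, kk q)) (nhds p0) (nhds (p0, kk p0)) :=
    (PolBG_diag_diff kk).continuous.tendsto p0
  exact h1.eventually (hU.mem_nhds hp0)

omit [FiniteDimensional ℂ E] in
private theorem PolBG_smooth {U : Set (E × E)} (hU : IsOpen U) {F : E × E → ℂ}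
    (hF : ContDiffOn ℂ ∞ F U) (w : E × E) : ContDiffOn ℂ ∞ (dd F w) U := by
  have h1 : ContDiffOn ℂ ∞ (fderiv ℂ F) U := hF.fderiv_of_isOpen hU (by simp)
  exact h1.clm_apply contDiffOn_const

omit [FiniteDimensional ℂ E] in
private theorem PolBG_da {U : Set (E × E)} (hU : IsOpen U) {F : E × E → ℂ}
    (hF : ContDiffOn ℂ ∞ F U) {z : E × E} (hz : z ∈ U) : DifferentiableAt ℂ F z :=
  (hF.contDiffAt (hU.mem_nhds hz)).differentiableAt (by simp)

omit [FiniteDimensional ℂ E] in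
private theorem PolBG_comm {U : Set (E × E)} (hU : IsOpen U) {F : E × E → ℂ}
    (hF : ContDiffOn ℂ ∞ F U) {z : E × E} (hz : z ∈ U) (a b : E × E) :
    dd (dd F a) b z = dd (dd F b) a z := by
  have hc := hF.contDiffAt (hU.mem_nhds hz)
  have h2i : (2 : WithTop ℕ∞) ≤ ∞ := by norm_cast
  have hs : IsSymmSndFDerivAt ℂ F z :=
    hc.isSymmSndFDerivAt (by rw [minSmoothness_of_isRCLikeNormedField]; exact h2i)
  have h1 : ContDiffOn ℂ ∞ (fderiv ℂ F) U := hF.fderiv_of_isOpen hU (by simp)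
  have hd : DifferentiableAt ℂ (fderiv ℂ F) z :=
    (h1.contDiffAt (hU.mem_nhds hz)).differentiableAt (by simp)
  have key : ∀ a b : E × E, dd (dd F a) b z = fderiv ℂ (fderiv ℂ F) z b a := by
    intro a b
    have h2 : HasFDerivAt (fun z => fderiv ℂ F z a) ((fderiv ℂ (fderiv ℂ F) z).flip a) z := by
      have h3 := hd.hasFDerivAt.clm_apply (hasFDerivAt_const a z)
      refine h3.congr_fderiv ?_
      ext <;> simp
    unfold dd
    rw [h2.fderiv]
    rfl
  rw [key, key]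
  exact hs b a

omit [FiniteDimensional ℂ E] in
private theorem PolBG_congr {U : Set (E × E)} (hU : IsOpen U) {F G : E × E → ℂ}
    (h : ∀ z ∈ U, F z = G z) (w : E × E) : ∀ z ∈ U, dd F w z = dd G w z := by
  intro z hz
  have h1 : F =ᶠ[nhds z] G := by
    filter_upwards [hU.mem_nhds hz] with y hy
    exact h y hy
  unfold dd
  rw [h1.fderiv_eq]

/-- fourth derivatives -/
private noncomputable def PolBG_D4 (K : E × E → ℂ) (z a b c d : E × E) : ℂ :=
  dd (dd (dd (dd K d) c) b) a z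

private theorem PolBG_s12 {U : Set (E × E)} (hU : IsOpen U) {K : E × E → ℂ}
    (hK : ContDiffOn ℂ ∞ K U) {z : E × E} (hz : z ∈ U) (a b c d : E × E) :
    PolBG_D4 K z a b c d = PolBG_D4 K z b a c d :=
  PolBG_comm hU (PolBG_smooth hU (PolBG_smooth hU hK d) c) hz b a

private theorem PolBG_s23 {U : Set (E × E)} (hU : IsOpen U) {K : E × E → ℂ}
    (hK : ContDiffOn ℂ ∞ K U) {z : E × E} (hz : z ∈ U) (a b c d : E × E) :
    PolBG_D4 K z a b c d = PolBG_D4 K z a c b d :=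
  PolBG_congr hU (fun _ hy => PolBG_comm hU (PolBG_smooth hU hK d) hy c b) a z hz

private theorem PolBG_s34 {U : Set (E × E)} (hU : IsOpen U) {K : E × E → ℂ}
    (hK : ContDiffOn ℂ ∞ K U) {z : E × E} (hz : z ∈ U) (a b c d : E × E) :
    PolBG_D4 K z a b c d = PolBG_D4 K z a b d c :=
  PolBG_congr hU (PolBG_congr hU (fun _ hy => PolBG_comm hU hK hy d c) b) a z hz

private theorem PolBG_real_diff {kk : E →L[ℝ] E} {U : Set (E × E)} (hU : IsOpen U) {X : E × E → ℂ}
    (hX : ContDiffOn ℂ ∞ X U) {q : E} (hq : (q, kk q) ∈ U) :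
    DifferentiableAt ℝ (fun q : E => X (q, kk q)) q := by
  have h1 : DifferentiableAt ℝ X (q, kk q) := (PolBG_da hU hX hq).restrictScalars ℝ
  exact DifferentiableAt.comp q (g := X) (f := fun q : E => (q, kk q)) h1 (PolBG_diag_diff kk q)

/-- first real derivative of the real part on the diagonal -/
private theorem PolBG_re {kk : E →L[ℝ] E} (hk : ∀ u, kk (I • u) = -(I • kk u)) {U : Set (E × E)} (hU : IsOpen U) {X : E × E → ℂ}
    (hX : ContDiffOn ℂ ∞ X U) {q : E} (hq : (q, kk q) ∈ U) (a : E) :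
    fderiv ℝ (fun q : E => (X (q, kk q)).re) q a =
      (dd X (a, 0) (q, kk q) + dd X (0, kk a) (q, kk q)).re := by
  rw [← fderiv_diag_g hk (PolBG_da hU hX hq) a]
  have h1 := (PolBG_real_diff hU hX hq).hasFDerivAt
  have h2 : HasFDerivAt (fun q : E => (X (q, kk q)).re)
      (Complex.reCLM.comp (fderiv ℝ (fun q : E => X (q, kk q)) q)) q :=
    Complex.reCLM.hasFDerivAt.comp q h1
  rw [h2.fderiv]
  rfl

private theorem PolBG_add {U : Set (E × E)} (hU : IsOpen U) {X Y : E × E → ℂ}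
    (hX : ContDiffOn ℂ ∞ X U) (hY : ContDiffOn ℂ ∞ Y U) {z : E × E} (hz : z ∈ U)
    (w : E × E) : dd (fun z => X z + Y z) w z = dd X w z + dd Y w z := by
  have h1 := (PolBG_da hU hX hz).hasFDerivAt.add (PolBG_da hU hY hz).hasFDerivAt
  have h2 : HasFDerivAt (fun z => X z + Y z) (fderiv ℂ X z + fderiv ℂ Y z) z := h1
  unfold dd
  rw [h2.fderiv]
  rfl

/-- second real derivative of the real part on the diagonal -/
private theorem PolBG_re2 {kk : E →L[ℝ] E} (hk : ∀ u, kk (I • u) = -(I • kk u)) {U : Set (E × E)} (hU : IsOpen U) {X : E × E → ℂ}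
    (hX : ContDiffOn ℂ ∞ X U) {p0 : E} (hp0 : (p0, kk p0) ∈ U) (a b : E) :
    fderiv ℝ (fun q : E => fderiv ℝ (fun q' : E => (X (q', kk q')).re) q b) p0 a =
      (dd (dd X (b, 0)) (a, 0) (p0, kk p0) + dd (dd X (0, kk b)) (a, 0) (p0, kk p0) +
        (dd (dd X (b, 0)) (0, kk a) (p0, kk p0) +
          dd (dd X (0, kk b)) (0, kk a) (p0, kk p0))).re := by
  have h1 : (fun q : E => fderiv ℝ (fun q' : E => (X (q', kk q')).re) q b) =ᶠ[nhds p0]
      fun q : E => ((fun z => dd X (b, 0) z + dd X (0, kk b) z) (q, kk q)).re := by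
    filter_upwards [PolBG_ev hU hp0] with q hq
    exact PolBG_re hk hU hX hq b
  have hb1 := PolBG_smooth hU hX ((b, 0) : E × E)
  have hb2 := PolBG_smooth hU hX ((0, kk b) : E × E)
  have hs : ContDiffOn ℂ ∞ (fun z => dd X (b, 0) z + dd X (0, kk b) z) U := hb1.add hb2
  rw [h1.fderiv_eq, PolBG_re hk hU hs hp0 a, PolBG_add hU hb1 hb2 hp0, PolBG_add hU hb1 hb2 hp0]

/-- conjugate pairs -/
private structure PolBG_Pair (kk : E →L[ℝ] E) (U : Set (E × E)) (p0 : E) (X Y : E × E → ℂ) : Prop where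
  sx : ContDiffOn ℂ ∞ X U
  sy : ContDiffOn ℂ ∞ Y U
  eq : ∀ᶠ q in nhds p0, Y (q, kk q) = starRingEnd ℂ (X (q, kk q))

private theorem PolBG_pair_step {kk : E →L[ℝ] E} (hk : ∀ u, kk (I • u) = -(I • kk u)) {U : Set (E × E)} (hU : IsOpen U) {p0 : E}
    (hp0 : (p0, kk p0) ∈ U) {X Y : E × E → ℂ} (h : PolBG_Pair kk U p0 X Y) (a : E) :
    PolBG_Pair kk U p0 (dd X (a, 0)) (dd Y (0, kk a)) ∧
      PolBG_Pair kk U p0 (dd X (0, kk a)) (dd Y (a, 0)) := by
  have key : ∀ᶠ q in nhds p0, ∀ b : E, dd Y (b, 0) (q, kk q) + dd Y (0, kk b) (q, kk q) =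
      starRingEnd ℂ (dd X (b, 0) (q, kk q) + dd X (0, kk b) (q, kk q)) := by
    filter_upwards [PolBG_ev hU hp0, h.eq.eventually_nhds] with q hq hqe b
    rw [← fderiv_diag_g hk (PolBG_da hU h.sx hq) b, ← fderiv_diag_g hk (PolBG_da hU h.sy hq) b]
    have h1 := (PolBG_real_diff hU h.sx hq).hasFDerivAt
    have h2 : HasFDerivAt (fun q : E => starRingEnd ℂ (X (q, kk q)))
        ((Complex.conjCLE : ℂ →L[ℝ] ℂ).comp (fderiv ℝ (fun q : E => X (q, kk q)) q)) q :=
      (Complex.conjCLE : ℂ →L[ℝ] ℂ).hasFDerivAt.comp q h1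
    have h3 : (fun q : E => Y (q, kk q)) =ᶠ[nhds q]
        fun q : E => starRingEnd ℂ (X (q, kk q)) := hqe
    rw [h3.fderiv_eq, h2.fderiv]
    rfl
  have key2 : ∀ᶠ q in nhds p0, dd Y (0, kk a) (q, kk q) =
      starRingEnd ℂ (dd X (a, 0) (q, kk q)) ∧
      dd Y (a, 0) (q, kk q) = starRingEnd ℂ (dd X (0, kk a) (q, kk q)) := by
    filter_upwards [key] with q hq
    have e1 := hq a
    have e2 := hq (I • a)
    have hl : ∀ (F : E × E → ℂ), dd F (I • a, 0) (q, kk q) = I * dd F (a, 0) (q, kk q) := by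
      intro F
      unfold dd
      have : ((I • a, 0) : E × E) = I • ((a, 0) : E × E) := by
        simp
      rw [this, map_smul, smul_eq_mul]
    have hr : ∀ (F : E × E → ℂ), dd F (0, kk (I • a)) (q, kk q) =
        -(I * dd F (0, kk a) (q, kk q)) := by
      intro F
      unfold dd
      have : ((0, kk (I • a)) : E × E) = -(I • ((0, kk a) : E × E)) := by
        rw [hk]
        simp
      rw [this, map_neg, map_smul, smul_eq_mul]
    rw [hl, hl, hr, hr] at e2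
    simp only [map_add, map_mul, map_neg, Complex.conj_I] at e1 e2
    have hI : I * I = -1 := Complex.I_mul_I
    constructor
    · linear_combination (1 / 2 : ℂ) * e1 + (1 / 2 : ℂ) * I * e2 +
        (1 / 2 : ℂ) * (dd Y (0, kk a) (q, kk q) - dd Y (a, 0) (q, kk q)
          - starRingEnd ℂ (dd X (a, 0) (q, kk q)) + starRingEnd ℂ (dd X (0, kk a) (q, kk q))) * hI
    · linear_combination (1 / 2 : ℂ) * e1 - (1 / 2 : ℂ) * I * e2 -
        (1 / 2 : ℂ) * (dd Y (0, kk a) (q, kk q) - dd Y (a, 0) (q, kk q)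
          - starRingEnd ℂ (dd X (a, 0) (q, kk q)) + starRingEnd ℂ (dd X (0, kk a) (q, kk q))) * hI
  exact ⟨⟨PolBG_smooth hU h.sx _, PolBG_smooth hU h.sy _, key2.mono fun q hq => hq.1⟩,
    ⟨PolBG_smooth hU h.sx _, PolBG_smooth hU h.sy _, key2.mono fun q hq => hq.2⟩⟩

omit [FiniteDimensional ℂ E] in
private theorem PolBG_pair_at {kk : E →L[ℝ] E} {U : Set (E × E)} {p0 : E} {X Y : E × E → ℂ}
    (h : PolBG_Pair kk U p0 X Y) : (Y (p0, kk p0)).re = (X (p0, kk p0)).re := by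
  rw [h.eq.self_of_nhds, Complex.conj_re]

/-- The Kaehler curvature formula. -/
private theorem PolBG_main {kk : E →L[ℝ] E} (hk : ∀ u, kk (I • u) = -(I • kk u)) {U : Set (E × E)} (hU : IsOpen U) {K : E × E → ℂ}
    (hK : ContDiffOn ℂ ∞ K U) {Φ : E → ℝ} {p0 : E} (hp0 : (p0, kk p0) ∈ U)
    (hΦ : ∀ᶠ p in nhds p0, (Φ p : ℂ) = K (p, kk p)) {M : Set E} (hM : IsOpen M) (hpM : p0 ∈ M)
    (hg : IsRiemannianMetric M (potMetric Φ)) {Γ : E → E →L[ℝ] E →L[ℝ] E}
    (h : IsLeviCivita M (potMetric Φ) Γ) (u v : E) :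
    curvNum (potMetric Φ) Γ p0 u v =
      (1 / 2 : ℝ) * (K22g kk K (p0, kk p0) u u v v).re + (1 / 2 : ℝ) * (K22g kk K (p0, kk p0) v v u u).re
      - (K22g kk K (p0, kk p0) u v u v).re
      + potMetric Φ p0 (Γ p0 u v) (Γ p0 u v) - potMetric Φ p0 (Γ p0 u u) (Γ p0 v v) := by
  rw [curvNum_formula hM hg h hpM u v]
  -- the metric near the point
  have hmet : ∀ c d : E, (fun q : E => potMetric Φ q c d) =ᶠ[nhds p0]
      fun q : E => ((dd (dd K (0, kk d)) (c, 0)) (q, kk q)).re := by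
    intro c d
    filter_upwards [PolBG_ev hU hp0, hΦ.eventually_nhds] with q hq hqe
    exact polar_metric_g hk hU hK hq hqe c d
  have hsnd : ∀ a b c d : E,
      fderiv ℝ (fun q => fderiv ℝ (fun q' => potMetric Φ q' c d) q b) p0 a =
      (PolBG_D4 K (p0, kk p0) (a, 0) (b, 0) (c, 0) (0, kk d) +
        PolBG_D4 K (p0, kk p0) (a, 0) (0, kk b) (c, 0) (0, kk d) +
        (PolBG_D4 K (p0, kk p0) (0, kk a) (b, 0) (c, 0) (0, kk d) +
          PolBG_D4 K (p0, kk p0) (0, kk a) (0, kk b) (c, 0) (0, kk d))).re := by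
    intro a b c d
    have h1 : (fun q => fderiv ℝ (fun q' => potMetric Φ q' c d) q b) =ᶠ[nhds p0]
        fun q => fderiv ℝ (fun q' : E => ((dd (dd K (0, kk d)) (c, 0)) (q', kk q')).re) q b := by
      filter_upwards [(hmet c d).eventuallyEq_nhds] with q hq
      rw [hq.fderiv_eq]
    rw [h1.fderiv_eq]
    exact PolBG_re2 hk hU (PolBG_smooth hU (PolBG_smooth hU hK _) _) hp0 a b
  rw [hsnd u v u v, hsnd u u v v, hsnd v v u u]
  -- symmetry
  have s12 := fun a b c d => PolBG_s12 hU hK hp0 a b c d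
  have s23 := fun a b c d => PolBG_s23 hU hK hp0 a b c d
  have s34 := fun a b c d => PolBG_s34 hU hK hp0 a b c d
  set D := PolBG_D4 K (p0, kk p0) with hD
  set hu : E × E := (u, 0) with hhu
  set hv : E × E := (v, 0) with hhv
  set ku : E × E := (0, kk u) with hku
  set kv : E × E := (0, kk v) with hkv
  have hK1 : K22g kk K (p0, kk p0) u u v v = D hu hu kv kv := rfl
  have hK2 : K22g kk K (p0, kk p0) v v u u = D hv hv ku ku := rfl
  have hK3 : K22g kk K (p0, kk p0) u v u v = D hu hv ku kv := rfl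
  rw [hK1, hK2, hK3]
  -- conjugation
  have hpair : PolBG_Pair kk U p0 K K := by
    refine ⟨hK, hK, ?_⟩
    filter_upwards [hΦ] with q hq
    rw [← hq, Complex.conj_ofReal]
  have c1 : (D ku ku hv hv).re = (D hu hu kv kv).re := by
    have p1 := (PolBG_pair_step hk hU hp0 hpair v).2
    have p2 := (PolBG_pair_step hk hU hp0 p1 v).2
    have p3 := (PolBG_pair_step hk hU hp0 p2 u).1
    have p4 := (PolBG_pair_step hk hU hp0 p3 u).1
    exact PolBG_pair_at p4
  have c2 : (D ku hu hv hv).re = (D hu ku kv kv).re := by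
    have p1 := (PolBG_pair_step hk hU hp0 hpair v).2
    have p2 := (PolBG_pair_step hk hU hp0 p1 v).2
    have p3 := (PolBG_pair_step hk hU hp0 p2 u).2
    have p4 := (PolBG_pair_step hk hU hp0 p3 u).1
    exact PolBG_pair_at p4
  have c3 : (D kv hv hu hu).re = (D hv kv ku ku).re := by
    have p1 := (PolBG_pair_step hk hU hp0 hpair u).2
    have p2 := (PolBG_pair_step hk hU hp0 p1 u).2
    have p3 := (PolBG_pair_step hk hU hp0 p2 v).2
    have p4 := (PolBG_pair_step hk hU hp0 p3 v).1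
    exact PolBG_pair_at p4
  -- reordering
  have t1 : D hu hv hu kv = D hu hu hv kv := s23 _ _ _ _
  have t2 : D hu kv hu kv = D hu hu kv kv := s23 _ _ _ _
  have t3 : D ku hv hu kv = D hu hv ku kv :=
    (s12 _ _ _ _).trans ((s23 _ _ _ _).trans (s12 _ _ _ _))
  have t4 : D ku kv hu kv = D hu ku kv kv := (s23 _ _ _ _).trans (s12 _ _ _ _)
  have t5 : D hu ku hv kv = D hu hv ku kv := s23 _ _ _ _
  have t6 : D ku hu hv kv = D hu hv ku kv := (s12 _ _ _ _).trans (s23 _ _ _ _)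
  have t7 : D ku ku hv kv = D hv kv ku ku :=
    (s23 _ _ _ _).trans ((s12 _ _ _ _).trans ((s34 _ _ _ _).trans (s23 _ _ _ _)))
  have t8 : D hv hv hu ku = D ku hu hv hv :=
    (s34 _ _ _ _).trans ((s23 _ _ _ _).trans ((s12 _ _ _ _).trans ((s34 _ _ _ _).trans
      (s23 _ _ _ _))))
  have t9 : D hv kv hu ku = D hu hv ku kv :=
    (s23 _ _ _ _).trans ((s12 _ _ _ _).trans (s34 _ _ _ _))
  have t10 : D kv hv hu ku = D hu hv ku kv := (s12 _ _ _ _).trans t9
  have t11 : D kv kv hu ku = D hu ku kv kv :=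
    (s23 _ _ _ _).trans ((s12 _ _ _ _).trans ((s34 _ _ _ _).trans (s23 _ _ _ _)))
  have t12 : D kv hv hu hu = D hu hu hv kv :=
    (s12 _ _ _ _).trans ((s23 _ _ _ _).trans ((s34 _ _ _ _).trans ((s12 _ _ _ _).trans
      (s23 _ _ _ _))))
  have t13 : D ku ku hv hv = D hv hv ku ku :=
    (s23 _ _ _ _).trans ((s12 _ _ _ _).trans ((s34 _ _ _ _).trans (s23 _ _ _ _)))
  rw [t1, t2, t3, t4, t5, t6, t7, t8, t9, t10, t11]
  rw [t12] at c3
  rw [t13] at c1
  simp only [Complex.add_re]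
  linarith

theorem polar_curv_g {c : E →L[ℝ] E} (hc : ∀ u, c (I • u) = -(I • c u)) {U : Set (E × E)}
    (hU : IsOpen U) {K : E × E → ℂ} (hK : ContDiffOn ℂ ∞ K U) {Φ : E → ℝ} {p0 : E}
    (hp0 : (p0, c p0) ∈ U) (hΦ : ∀ᶠ p in nhds p0, (Φ p : ℂ) = K (p, c p)) {M : Set E}
    (hM : IsOpen M) (hpM : p0 ∈ M) (hg : IsRiemannianMetric M (potMetric Φ))
    {Γ : E → E →L[ℝ] E →L[ℝ] E} (h : IsLeviCivita M (potMetric Φ) Γ) (u v : E) :
    curvNum (potMetric Φ) Γ p0 u v =
      (1 / 2 : ℝ) * (K22g c K (p0, c p0) u u v v).re + (1 / 2 : ℝ) * (K22g c K (p0, c p0) v v u u).re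
      - (K22g c K (p0, c p0) u v u v).re
      + potMetric Φ p0 (Γ p0 u v) (Γ p0 u v) - potMetric Φ p0 (Γ p0 u u) (Γ p0 v v) :=
  PolBG_main hc hU hK hp0 hΦ hM hpM hg h u v

end P250
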