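import Mathlib.Algebra.Ring.IsFormallyReal
import Vale.Agent.Lib.P250.G.AlgG4
import Vale.Agent.Lib.P250.G.JetA
import Vale.Agent.Lib.P250.G.JetB
import Vale.Agent.Lib.P250.G.LogJet
import Vale.Agent.Lib.P250.G.PolB
import Vale.Agent.Lib.P250.MCA
import Vale.Agent.Lib.P250.MCB

/-! # P250-G module MCG: pinching at the normalised point, general fibre dimension
(adapt `MCC.lean`; the frame `L` acts on the `ℂ × ℂ` part only) -/

open scoped ContDiff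
open Complex Metric Set

namespace P250

private theorem mcg_ip_self (ξ : ℂ × ℂ) : ip ξ ξ = ((‖ξ.1‖ ^ 2 + ‖ξ.2‖ ^ 2 : ℝ) : ℂ) := by
  unfold ip
  rw [Complex.mul_conj, Complex.mul_conj, Complex.normSq_eq_norm_sq, Complex.normSq_eq_norm_sq]
  push_cast
  ring

private theorem mcg_ipn_self {m : ℕ} (v : Fb m) : ipn v v = ((‖v‖ ^ 2 : ℝ) : ℂ) := by
  unfold ipn
  rw [EuclideanSpace.norm_sq_eq]
  push_cast
  refine Finset.sum_congr rfl fun i _ => ?_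
  rw [Complex.mul_conj, Complex.normSq_eq_norm_sq]
  push_cast
  rfl

private theorem mcg_ipn_sub {m : ℕ} (v v' w : Fb m) : ipn (v - v') w = ipn v w - ipn v' w := by
  unfold ipn
  rw [← Finset.sum_sub_distrib]
  refine Finset.sum_congr rfl fun i _ => ?_
  rw [PiLp.sub_apply]
  ring

private theorem mcg_g11_sub {A s c1 c2 : ℝ} {m : ℕ} (u u' v : TV m) :
    g11 A s c1 c2 (u - u') v = g11 A s c1 c2 u v - g11 A s c1 c2 u' v := by
  unfold g11 m11 ip cdiag pr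
  simp only [Prod.fst_sub, Prod.snd_sub]
  rw [mcg_ipn_sub]
  ring

private theorem mcg_g11_pos {A s c1 c2 : ℝ} (hA : 0 < A) (hs : 0 < s) (h1 : 0 < c1) (h2 : 0 < c2)
    {m : ℕ} (u : TV m) (h : (g11 A s c1 c2 u u).re = 0) : u = 0 := by
  have key : g11 A s c1 c2 u u = ((A * (‖u.1.1.1‖ ^ 2 + ‖u.1.1.2‖ ^ 2)
      + s * (c1 * ‖u.1.1.1‖ ^ 2 + c2 * ‖u.1.1.2‖ ^ 2) + s * (1 + s) * ‖u.2‖ ^ 2
      + s * ‖u.1.2‖ ^ 2 : ℝ) : ℂ) := by
    unfold g11 m11 cdiag pr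
    simp only
    rw [mcg_ip_self, mcg_ipn_self]
    have e : ∀ z : ℂ, z * starRingEnd ℂ z = ((‖z‖ ^ 2 : ℝ) : ℂ) := fun z => by
      rw [Complex.mul_conj, Complex.normSq_eq_norm_sq]
    rw [mul_assoc (c1 : ℂ), mul_assoc (c2 : ℂ), e, e, e]
    push_cast
    ring
  rw [key, Complex.ofReal_re] at h
  have p1 : 0 ≤ A * (‖u.1.1.1‖ ^ 2 + ‖u.1.1.2‖ ^ 2) := by positivity
  have p2 : 0 ≤ s * (c1 * ‖u.1.1.1‖ ^ 2 + c2 * ‖u.1.1.2‖ ^ 2) := by positivity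
  have p3 : 0 ≤ s * (1 + s) * ‖u.2‖ ^ 2 := by positivity
  have p4 : 0 ≤ s * ‖u.1.2‖ ^ 2 := by positivity
  have q1 : A * (‖u.1.1.1‖ ^ 2 + ‖u.1.1.2‖ ^ 2) = 0 := by linarith
  have q3 : s * (1 + s) * ‖u.2‖ ^ 2 = 0 := by linarith
  have q4 : s * ‖u.1.2‖ ^ 2 = 0 := by linarith
  have r1 : ‖u.1.1.1‖ ^ 2 + ‖u.1.1.2‖ ^ 2 = 0 := by
    rcases mul_eq_zero.mp q1 with h | h
    · exact absurd h hA.ne'
    · exact h
  have r3 : ‖u.2‖ ^ 2 = 0 := by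
    rcases mul_eq_zero.mp q3 with h | h
    · exact absurd h (by positivity)
    · exact h
  have r4 : ‖u.1.2‖ ^ 2 = 0 := by
    rcases mul_eq_zero.mp q4 with h | h
    · exact absurd h hs.ne'
    · exact h
  have s1 : ‖u.1.1.1‖ ^ 2 = 0 := by nlinarith [sq_nonneg ‖u.1.1.1‖, sq_nonneg ‖u.1.1.2‖]
  have s2 : ‖u.1.1.2‖ ^ 2 = 0 := by nlinarith [sq_nonneg ‖u.1.1.1‖, sq_nonneg ‖u.1.1.2‖]
  have t1 : u.1.1.1 = 0 := by simpa using s1
  have t2 : u.1.1.2 = 0 := by simpa using s2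
  have t3 : u.2 = 0 := by simpa using r3
  have t4 : u.1.2 = 0 := by simpa using r4
  exact Prod.ext (Prod.ext (Prod.ext t1 t2) t4) t3

theorem model_pinched_g (r0 C0 κ : ℝ) (hr0 : 0 < r0) (hr1 : r0 ≤ 1 / 8) (hC0 : 0 < C0)
    (hκ : 0 < κ) : ∃ A0 : ℝ, 0 < A0 ∧ ∀ A : ℝ, A0 ≤ A → ∃ a b : ℝ, 0 < a ∧ a ≤ b ∧
    ∀ fh : (ℂ × ℂ) × (ℂ × ℂ) → ℂ, ContDiffOn ℂ ∞ fh (ball 0 r0) →
    (∀ z ∈ ball (0 : (ℂ × ℂ) × (ℂ × ℂ)) r0, ‖fh z‖ ≤ C0) →
    (∀ x ∈ ball (0 : ℂ × ℂ) r0, ∀ y ∈ ball (0 : ℂ × ℂ) r0,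
      starRingEnd ℂ (fh (x, y)) = fh (cj y, cj x)) →
    (∀ x ∈ ball (0 : ℂ × ℂ) r0, fh (x, 0) = 0) → (∀ y ∈ ball (0 : ℂ × ℂ) r0, fh (0, y) = 0) →
    (∀ ξ : ℂ × ℂ, κ * (‖ξ.1‖ ^ 2 + ‖ξ.2‖ ^ 2) ≤ (f11 fh ξ ξ).re) →
    ∀ {m : ℕ} (τ0 : ℂ), τ0.re < 0 → ∀ (M : Set (Bm m × ℂ)), IsOpen M → (0, τ0) ∈ M →
    IsRiemannianMetric M (potMetric (PhiG A fh)) →
    ∀ Γ : Bm m × ℂ → (Bm m × ℂ) →L[ℝ] (Bm m × ℂ) →L[ℝ] (Bm m × ℂ),
    IsLeviCivita M (potMetric (PhiG A fh)) Γ → ∀ u v : Bm m × ℂ,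
      -b * area2 (potMetric (PhiG A fh)) (0, τ0) u v ≤
        curvNum (potMetric (PhiG A fh)) Γ (0, τ0) u v ∧
      curvNum (potMetric (PhiG A fh)) Γ (0, τ0) u v ≤
        -a * area2 (potMetric (PhiG A fh)) (0, τ0) u v := by
  obtain ⟨C1, hC1, hjets⟩ := jets_arrays r0 C0 hr0 hC0
  obtain ⟨A0, hA0, hA⟩ := model_algebra_g κ (max C1 κ) hκ (le_max_right _ _)
  refine ⟨A0, hA0, fun A hAA => ?_⟩
  obtain ⟨a, b, ha, hab, halg⟩ := hA A hAA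
  refine ⟨a, b, ha, hab, ?_⟩
  intro fh hf hbd hherm hl hr hlow m τ0 hτ M hM hpM hg Γ hΓ u v
  have hAp : 0 < A := hA0.trans_le hAA
  obtain ⟨hlin, hsm, hh, hup, h12, harr⟩ := hjets fh hf hbd hherm
  obtain ⟨L, c1, c2, hL, hdiag⟩ := exists_unitary_frame (f11 fh) hlin hsm hh
  obtain ⟨a3, a4, hs3, hb3, hs4, hs4', hb4, hf21, hf22⟩ := harr L hL
  -- bounds of the eigenvalues
  have hnorm : ∀ ξ : ℂ × ℂ, ‖(L.symm ξ).1‖ ^ 2 + ‖(L.symm ξ).2‖ ^ 2 = ‖ξ.1‖ ^ 2 + ‖ξ.2‖ ^ 2 := by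
    intro ξ
    have h1 := hL (L.symm ξ) (L.symm ξ)
    rw [LinearEquiv.apply_symm_apply, mcg_ip_self, mcg_ip_self] at h1
    exact_mod_cast h1.symm
  have hc1v : f11 fh (L.symm (1, 0)) (L.symm (1, 0)) = (c1 : ℂ) := by
    rw [hdiag, LinearEquiv.apply_symm_apply]
    simp [cdiag]
  have hc2v : f11 fh (L.symm (0, 1)) (L.symm (0, 1)) = (c2 : ℂ) := by
    rw [hdiag, LinearEquiv.apply_symm_apply]
    simp [cdiag]
  have hc1 : κ ≤ c1 := by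
    have := hlow (L.symm (1, 0))
    rw [hnorm, hc1v] at this
    simpa using this
  have hc2 : κ ≤ c2 := by
    have := hlow (L.symm (0, 1))
    rw [hnorm, hc2v] at this
    simpa using this
  have hc1' : c1 ≤ max C1 κ := by
    have := hup (L.symm (1, 0))
    rw [hnorm, hc1v, Complex.norm_real] at this
    have h2 : c1 ≤ C1 := (le_abs_self c1).trans (by simpa using this)
    exact h2.trans (le_max_left _ _)
  have hc2' : c2 ≤ max C1 κ := by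
    have := hup (L.symm (0, 1))
    rw [hnorm, hc2v, Complex.norm_real] at this
    have h2 : c2 ≤ C1 := (le_abs_self c2).trans (by simpa using this)
    exact h2.trans (le_max_left _ _)
  -- the point
  set p0 : Bm m × ℂ := (0, τ0) with hp0
  have hT : Real.exp (2 * τ0.re) < 1 := by
    rw [Real.exp_lt_one_iff]
    linarith
  obtain ⟨s, hs⟩ : ∃ s : ℝ, s = Real.exp (2 * τ0.re) / (1 - Real.exp (2 * τ0.re)) := ⟨_, rfl⟩
  have hspos : 0 < s := by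
    rw [hs]
    exact div_pos (Real.exp_pos _) (by linarith)
  have hS := SG_open r0 m
  have hcj := cV_conj (cBm_conj m)
  have hbil0 : ∀ w : Fb m, bil (0 : Fb m) w = 0 := fun w => by simp [bil]
  have hbil0' : ∀ w : Fb m, bil w (0 : Fb m) = 0 := fun w => by simp [bil]
  have h0S : ((0 : Bm m), (0 : Bm m)) ∈ SG r0 m := by
    refine ⟨mem_ball_self hr0, ?_⟩
    change ‖bil (0 : Fb m) 0‖ < 1
    rw [hbil0]
    simp
  have hbs := bG_smooth (A := A) hr1 m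
  have hfs := fG_smooth hf m
  have hl' : ∀ x : Bm m, (x, 0) ∈ SG r0 m → fG fh (x, 0) = 0 := by
    intro x hx
    have hx1 : x.1 ∈ ball (0 : ℂ × ℂ) r0 := by
      have h1 := hx.1
      rw [mem_ball_zero_iff] at h1 ⊢
      exact (norm_fst_le (x.1, (0 : Bm m).1)).trans_lt h1
    change fh (x.1, 0) + Complex.log (1 + bil x.2 0) = 0
    rw [hl x.1 hx1, hbil0']
    simp
  have hr' : ∀ y : Bm m, (0, y) ∈ SG r0 m → fG fh (0, y) = 0 := by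
    intro y hy
    have hy1 : y.1 ∈ ball (0 : ℂ × ℂ) r0 := by
      have h1 := hy.1
      rw [mem_ball_zero_iff] at h1 ⊢
      exact (norm_snd_le ((0 : Bm m).1, y.1)).trans_lt h1
    change fh (0, y.1) + Complex.log (1 + bil 0 y.2) = 0
    rw [hr y.1 hy1, hbil0]
    simp
  have hU : IsOpen (Ugen (SG r0 m) (fG fh)) := Ugen_open hS hfs
  have hpU : (p0, cV (cBm m) p0) ∈ Ugen (SG r0 m) (fG fh) := by
    have h00 : (cV (cBm m) p0) = (0, starRingEnd ℂ τ0) := by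
      change (cBm m 0, starRingEnd ℂ τ0) = _
      rw [map_zero]
    rw [h00]
    refine ⟨h0S, ?_⟩
    change ‖Complex.exp (τ0 + starRingEnd ℂ τ0 + fG fh ((0 : Bm m), (0 : Bm m)))‖ < 1
    rw [hl' 0 h0S, add_zero, Complex.add_conj, Complex.norm_exp]
    simpa using hT
  have hK := Kgen_smooth hS hbs hfs
  have hΦ : ∀ᶠ p in nhds p0, (PhiG A fh p : ℂ) = Kgen (bG A) (fG fh) (p, cV (cBm m) p) := by
    have hc : Continuous (fun p : Bm m × ℂ => (p, cV (cBm m) p)) :=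
      continuous_id.prodMk (cV (cBm m)).continuous
    have hopen : IsOpen ((fun p : Bm m × ℂ => (p, cV (cBm m) p)) ⁻¹' Ugen (SG r0 m) (fG fh)) :=
      hU.preimage hc
    filter_upwards [hopen.mem_nhds hpU] with p hp
    exact PhiG_diag hr1 hherm hp
  -- the frame
  let L3 : Bm m × ℂ → Bm m × ℂ := fun w => ((L w.1.1, w.1.2), w.2)
  have hF11 : ∀ w w' : Bm m × ℂ, K11g (cBm m) (fG fh) (0, 0) w.1 w'.1 =
      cg c1 c2 (L3 w) (L3 w') := by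
    intro w w'
    rw [fG_11 hr0 hf, hdiag]
    rfl
  have hF21 : ∀ w w' w'' : Bm m × ℂ, K21g (cBm m) (fG fh) (0, 0) w.1 w'.1 w''.1 =
      c21 a3 (L3 w).1.1 (L3 w').1.1 (L3 w'').1.1 := by
    intro w w' w''
    rw [fG_21 hr0 hf, hf21]
  have hF12 : ∀ w w' w'' : Bm m × ℂ, K12g (cBm m) (fG fh) (0, 0) w.1 w'.1 w''.1 =
      starRingEnd ℂ (c21 a3 (L3 w').1.1 (L3 w'').1.1 (L3 w).1.1) := by
    intro w w' w''
    rw [fG_12 hr0 hf, h12, hf21]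
  have hF22 : ∀ w w' x x' : Bm m × ℂ, K22g (cBm m) (fG fh) (0, 0) w.1 w'.1 x.1 x'.1 =
      c22 a4 (L3 w).1.1 (L3 w').1.1 (L3 x).1.1 (L3 x').1.1
      - (ipn (L3 w).1.2 (L3 x).1.2 * ipn (L3 w').1.2 (L3 x').1.2
        + ipn (L3 w).1.2 (L3 x').1.2 * ipn (L3 w').1.2 (L3 x).1.2) := by
    intro w w' x x'
    rw [fG_22 hr0 hf, hf22]
  have hB11 : ∀ w w' : Bm m × ℂ, K11g (cBm m) (bG A) (0, 0) w.1 w'.1 =
      A * ip (L3 w).1.1 (L3 w').1.1 := by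
    intro w w'
    rw [bG_11, ← hL]
  have hB22 : ∀ w w' x x' : Bm m × ℂ, K22g (cBm m) (bG A) (0, 0) w.1 w'.1 x.1 x'.1 =
      A * (ip (L3 w).1.1 (L3 x).1.1 * ip (L3 w').1.1 (L3 x').1.1
        + ip (L3 w).1.1 (L3 x').1.1 * ip (L3 w').1.1 (L3 x).1.1) := by
    intro w w' x x'
    rw [bG_22, ← hL w.1.1 x.1.1, ← hL w'.1.1 x'.1.1, ← hL w.1.1 x'.1.1, ← hL w'.1.1 x.1.1]
  have hm11 : ∀ w w' : Bm m × ℂ, K11g (cV (cBm m)) (Kgen (bG A) (fG fh)) (p0, cV (cBm m) p0) w w' =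
      g11 A s c1 c2 (L3 w) (L3 w') := by
    intro w w'
    rw [hp0, Kgen_11 hS h0S hbs hfs hl' hr' hτ hs w w', hB11, hF11]
    unfold g11 m11 cg pr
    simp only [L3]
    ring
  have hmet : ∀ w w' : Bm m × ℂ, potMetric (PhiG A fh) p0 w w' =
      (g11 A s c1 c2 (L3 w) (L3 w')).re := by
    intro w w'
    rw [polar_metric_g hcj hU hK hpU hΦ, hm11]
  have hm21 : ∀ w w' w'' : Bm m × ℂ,
      K21g (cV (cBm m)) (Kgen (bG A) (fG fh)) (p0, cV (cBm m) p0) w w' w'' =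
      g21 s c1 c2 a3 (L3 w) (L3 w') (L3 w'') := by
    intro w w' w''
    rw [hp0, Kgen_21 hS h0S hbs hfs hl' hr' hτ hs w w' w'', bG_21, hF11, hF11, hF21]
    unfold g21
    simp only [L3]
    ring
  have hm22 : ∀ w w' x x' : Bm m × ℂ,
      K22g (cV (cBm m)) (Kgen (bG A) (fG fh)) (p0, cV (cBm m) p0) w w' x x' =
      g22 A s c1 c2 a3 a4 (L3 w) (L3 w') (L3 x) (L3 x') := by
    intro w w' x x'
    rw [hp0, Kgen_22 hS h0S hbs hfs hl' hr' hτ hs w w' x x', hB22, hF11, hF11, hF11, hF11,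
      hF21, hF21, hF12, hF12, hF22]
    rfl
  have hc1p : 0 < c1 := hκ.trans_le hc1
  have hc2p : 0 < c2 := hκ.trans_le hc2
  have hsurj : ∀ y : Bm m × ℂ, ∃ w : Bm m × ℂ, L3 w = y := by
    intro y
    refine ⟨((L.symm y.1.1, y.1.2), y.2), ?_⟩
    change ((L (L.symm y.1.1), y.1.2), y.2) = y
    rw [LinearEquiv.apply_symm_apply]
  have hGam : ∀ w w' : Bm m × ℂ, L3 (Γ p0 w w') = gGam A s c1 c2 a3 (L3 w) (L3 w') := by
    intro w w'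
    have hzero : ∀ y : Bm m × ℂ,
        (g11 A s c1 c2 (L3 (Γ p0 w w') - gGam A s c1 c2 a3 (L3 w) (L3 w')) y).re = 0 := by
      intro y
      obtain ⟨x, rfl⟩ := hsurj y
      rw [mcg_g11_sub, Complex.sub_re, ← hmet, polar_gamma_g hcj hU hK hpU hΦ hM hpM hg hΓ, hm21,
        g11_gGam hAp hspos hc1p hc2p, sub_self]
    have := mcg_g11_pos hAp hspos hc1p hc2p _ (hzero _)
    exact sub_eq_zero.mp this
  have hcurv : curvNum (potMetric (PhiG A fh)) Γ p0 u v =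
      gN A s c1 c2 a3 a4 (L3 u) (L3 v) := by
    rw [polar_curv_g hcj hU hK hpU hΦ hM hpM hg hΓ, hm22, hm22, hm22, hmet, hmet, hGam, hGam, hGam]
    rfl
  have harea : area2 (potMetric (PhiG A fh)) p0 u v = gArea A s c1 c2 (L3 u) (L3 v) := by
    unfold area2 gArea
    rw [hmet, hmet, hmet]
  rw [hcurv, harea]
  exact halg s c1 c2 hspos hc1 hc2 hc1' hc2' a3 a4 hs3
    (fun i j k => (hb3 i j k).trans (le_max_left _ _)) hs4 hs4'
    (fun i j k l => (hb4 i j k l).trans (le_max_left _ _)) (L3 u) (L3 v)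

end P250
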