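import Mathlib.Analysis.CStarAlgebra.Module.Constructions
import Mathlib.Analysis.InnerProductSpace.Calculus
import Mathlib.Analysis.SpecialFunctions.Complex.LogDeriv
import Mathlib.FieldTheory.IsSepClosed
import Mathlib.LinearAlgebra.FreeModule.PID
import Vale.Agent.Lib.P250.ChartsB
import Vale.Agent.Lib.P250.G.GDefs

/-! # P250-G module PinG1: local coordinates (adapt `PinA.lean`) -/

open scoped ContDiff
open Complex Metric Set

namespace P250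

private theorem PinG1_norm_snd {r0 : ℝ} (hr1 : r0 ≤ 1 / 8) {x : ℂ × ℂ}
    (hx : x ∈ ball (0 : ℂ × ℂ) r0) : ‖x.1‖ < 1 / 8 ∧ ‖x.2‖ < 1 / 8 ∧ ‖x‖ < 1 / 8 := by
  rw [mem_ball_zero_iff] at hx
  have h1 := norm_fst_le x
  have h2 := norm_snd_le x
  exact ⟨by linarith, by linarith, by linarith⟩

private theorem PinG1_re_pos {r0 : ℝ} (hr1 : r0 ≤ 1 / 8) {x : ℂ × ℂ}
    (hx : x ∈ ball (0 : ℂ × ℂ) r0) : 0 < (1 + x.2).re := by
  have h2 := (PinG1_norm_snd hr1 hx).2.1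
  have h3 := (Complex.abs_re_le_norm x.2)
  have h4 := neg_abs_le x.2.re
  rw [Complex.add_re, Complex.one_re]
  linarith

private theorem PinG1_ne {r0 : ℝ} (hr1 : r0 ≤ 1 / 8) {x : ℂ × ℂ}
    (hx : x ∈ ball (0 : ℂ × ℂ) r0) : 1 + x.2 ≠ 0 := by
  intro h
  have := PinG1_re_pos hr1 hx
  rw [h] at this
  simp at this

private theorem PinG1_mem {r0 : ℝ} {x : ℂ × ℂ} (hx : x ∈ ball (0 : ℂ × ℂ) r0) :
    (x, cj x) ∈ ball (0 : (ℂ × ℂ) × (ℂ × ℂ)) r0 := by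
  rw [mem_ball_zero_iff] at hx ⊢
  have h : ‖cj x‖ = ‖x‖ := by
    simp [cj, Prod.norm_def]
  rw [Prod.norm_def]
  simp only [h, max_self]
  exact hx

private theorem PinG1_cj_smooth : ContDiff ℝ ∞ cj :=
  (Complex.conjCLE.contDiff.comp contDiff_fst).prodMk (Complex.conjCLE.contDiff.comp contDiff_snd)

private theorem PinG1_gam_smooth {r0 : ℝ} (hr1 : r0 ≤ 1 / 8) (y0 : ℂ × ℂ) :
    ContDiffOn ℂ ∞ (gam y0) (ball 0 r0) := by
  have hd : ContDiffOn ℂ ∞ (fun x : ℂ × ℂ => 1 + x.2) (ball 0 r0) :=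
    (contDiff_const.add contDiff_snd).contDiffOn
  have h1 : ContDiffOn ℂ ∞ (fun x : ℂ × ℂ => (Real.sqrt (rho y0) : ℂ) * x.1 / (1 + x.2))
      (ball 0 r0) :=
    ContDiffOn.div (contDiff_const.mul contDiff_fst).contDiffOn hd fun x hx => PinG1_ne hr1 hx
  have h2 : ContDiffOn ℂ ∞ (fun x : ℂ × ℂ => 2 * I * (rho y0 : ℂ) * x.2 / (1 + x.2))
      (ball 0 r0) :=
    ContDiffOn.div (contDiff_const.mul contDiff_snd).contDiffOn hd fun x hx => PinG1_ne hr1 hx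
  have h3 : ContDiffOn ℂ ∞ (fun x : ℂ × ℂ =>
      2 * I * starRingEnd ℂ y0.1 * (Real.sqrt (rho y0) : ℂ) * x.1 / (1 + x.2))
      (ball 0 r0) :=
    ContDiffOn.div (contDiff_const.mul contDiff_fst).contDiffOn hd fun x hx => PinG1_ne hr1 hx
  exact (contDiffOn_const.add h1).prodMk ((contDiffOn_const.sub h2).add h3)

/-- the left inverse of `gam y0` -/
private noncomputable def PinG1_S (y0 : ℂ × ℂ) (y : ℂ × ℂ) : ℂ × ℂ :=
  (((y.1 - y0.1) / (Real.sqrt (rho y0) : ℂ)) /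
      (1 - (y.2 - y0.2 - 2 * I * starRingEnd ℂ y0.1 * (y.1 - y0.1)) / (-2 * I * (rho y0 : ℂ))),
    ((y.2 - y0.2 - 2 * I * starRingEnd ℂ y0.1 * (y.1 - y0.1)) / (-2 * I * (rho y0 : ℂ))) /
      (1 - (y.2 - y0.2 - 2 * I * starRingEnd ℂ y0.1 * (y.1 - y0.1)) / (-2 * I * (rho y0 : ℂ))))

private theorem PinG1_v {y0 : ℂ × ℂ} (hy0 : y0 ∈ U2) {x : ℂ × ℂ} (hx : 1 + x.2 ≠ 0) :
    ((gam y0 x).2 - y0.2 - 2 * I * starRingEnd ℂ y0.1 * ((gam y0 x).1 - y0.1)) /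
      (-2 * I * (rho y0 : ℂ)) = x.2 / (1 + x.2) ∧
    ((gam y0 x).1 - y0.1) / (Real.sqrt (rho y0) : ℂ) = x.1 / (1 + x.2) := by
  have hr : 0 < rho y0 := hy0
  have hr' : (rho y0 : ℂ) ≠ 0 := by exact_mod_cast hr.ne'
  have hs : (Real.sqrt (rho y0) : ℂ) ≠ 0 := by exact_mod_cast (Real.sqrt_pos.2 hr).ne'
  have hI : I ≠ 0 := Complex.I_ne_zero
  constructor
  · simp only [gam]
    field_simp
    ring
  · simp only [gam]
    field_simp
    ring

private theorem PinG1_one_sub {x : ℂ × ℂ} (hx : 1 + x.2 ≠ 0) :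
    1 - x.2 / (1 + x.2) = 1 / (1 + x.2) := by
  field_simp
  ring

private theorem PinG1_S_gam {y0 : ℂ × ℂ} (hy0 : y0 ∈ U2) {x : ℂ × ℂ} (hx : 1 + x.2 ≠ 0) :
    PinG1_S y0 (gam y0 x) = x := by
  obtain ⟨h1, h2⟩ := PinG1_v hy0 hx
  unfold PinG1_S
  rw [h1, h2, PinG1_one_sub hx]
  refine Prod.ext ?_ ?_
  · show x.1 / (1 + x.2) / (1 / (1 + x.2)) = x.1
    field_simp
  · show x.2 / (1 + x.2) / (1 / (1 + x.2)) = x.2
    field_simp

private theorem PinG1_S_diff {y0 : ℂ × ℂ} (hy0 : y0 ∈ U2) {x : ℂ × ℂ} (hx : 1 + x.2 ≠ 0) :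
    DifferentiableAt ℂ (PinG1_S y0) (gam y0 x) := by
  obtain ⟨h1, h2⟩ := PinG1_v hy0 hx
  have hv : DifferentiableAt ℂ (fun y : ℂ × ℂ =>
      (y.2 - y0.2 - 2 * I * starRingEnd ℂ y0.1 * (y.1 - y0.1)) / (-2 * I * (rho y0 : ℂ)))
      (gam y0 x) := by fun_prop
  have hu : DifferentiableAt ℂ (fun y : ℂ × ℂ => (y.1 - y0.1) / (Real.sqrt (rho y0) : ℂ))
      (gam y0 x) := by fun_prop
  have hne : 1 - ((gam y0 x).2 - y0.2 - 2 * I * starRingEnd ℂ y0.1 * ((gam y0 x).1 - y0.1)) /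
      (-2 * I * (rho y0 : ℂ)) ≠ 0 := by
    rw [h1, PinG1_one_sub hx]
    exact one_div_ne_zero hx
  have hd : DifferentiableAt ℂ (fun y : ℂ × ℂ => 1 -
      (y.2 - y0.2 - 2 * I * starRingEnd ℂ y0.1 * (y.1 - y0.1)) / (-2 * I * (rho y0 : ℂ)))
      (gam y0 x) := (differentiableAt_const (1 : ℂ)).sub hv
  have hi := hd.fun_inv hne
  have e1 : PinG1_S y0 = fun y : ℂ × ℂ =>
      (((y.1 - y0.1) / (Real.sqrt (rho y0) : ℂ)) *
        (1 - (y.2 - y0.2 - 2 * I * starRingEnd ℂ y0.1 * (y.1 - y0.1)) / (-2 * I * (rho y0 : ℂ)))⁻¹,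
      ((y.2 - y0.2 - 2 * I * starRingEnd ℂ y0.1 * (y.1 - y0.1)) / (-2 * I * (rho y0 : ℂ))) *
        (1 - (y.2 - y0.2 - 2 * I * starRingEnd ℂ y0.1 * (y.1 - y0.1)) /
          (-2 * I * (rho y0 : ℂ)))⁻¹) := by
    funext y
    simp only [PinG1_S, div_eq_mul_inv]
  rw [e1]
  exact (hu.mul hi).prodMk (hv.mul hi)

/-- For a unit vector `ε0` of `ℂ^(m+1)` there is a linear isometry of `ℂ^m` onto its orthogonal
complement. -/
theorem exists_perp_isometry {m : ℕ} (ε0 : Fb (m + 1)) (h : ‖ε0‖ = 1) :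
    ∃ ι : Fb m →ₗᵢ[ℂ] Fb (m + 1), ∀ v, inner ℂ ε0 (ι v) = 0 := by
  have hne : ε0 ≠ 0 := by
    intro h0
    rw [h0, norm_zero] at h
    exact one_ne_zero h.symm
  have : Fact (Module.finrank ℂ (Fb (m + 1)) = m + 1) := ⟨by simp⟩
  have hK : Module.finrank ℂ ((ℂ ∙ ε0)ᗮ : Submodule ℂ (Fb (m + 1))) = m :=
    Submodule.finrank_orthogonal_span_singleton hne
  let b := (stdOrthonormalBasis ℂ ((ℂ ∙ ε0)ᗮ : Submodule ℂ (Fb (m + 1)))).reindex (finCongr hK)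
  refine ⟨((ℂ ∙ ε0)ᗮ : Submodule ℂ (Fb (m + 1))).subtypeₗᵢ.comp b.repr.symm.toLinearIsometry,
    fun v => ?_⟩
  have h1 : ((b.repr.symm v : ((ℂ ∙ ε0)ᗮ : Submodule ℂ (Fb (m + 1)))) : Fb (m + 1)) ∈
      ((ℂ ∙ ε0)ᗮ : Submodule ℂ (Fb (m + 1))) := (b.repr.symm v).2
  exact Submodule.mem_orthogonal_singleton_iff_inner_right.1 h1

private theorem PinG1_norm {m : ℕ} {ε0 : Fb (m + 1)} (h : ‖ε0‖ = 1) {ι : Fb m →ₗᵢ[ℂ] Fb (m + 1)}
    (hι : ∀ v, inner ℂ ε0 (ι v) = 0) (v : Fb m) : ‖ε0 + ι v‖ ^ 2 = 1 + ‖v‖ ^ 2 := by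
  rw [norm_add_sq (𝕜 := ℂ), hι, h, ι.norm_map]
  simp

/-- Local coordinates `F (x, v, τ) = (gam y0 x, exp (τ - h x) • (ε0 + ι v))`, `ε0 = ζ0/‖ζ0‖`;
`‖ε0 + ι v‖² = 1 + ‖v‖²`. -/
theorem local_coord_g {A e δ r0 C0 : ℝ} {N m : ℕ} (he : 0 < e) (he1 : e < 1) (hδ : 0 < δ)
    (hr0 : 0 < r0) (hr1 : r0 ≤ 1 / 8) {y0 : ℂ × ℂ} (hy0 : y0 ∈ U2) {h : ℂ × ℂ → ℂ}
    {fh : (ℂ × ℂ) × (ℂ × ℂ) → ℂ} (hNF : NF e δ N r0 C0 y0 h fh) {ζ0 : Fb (m + 1)} (hζ : ζ0 ≠ 0)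
    (hp : ((y0, ζ0) : VH m) ∈ MG e δ N m) :
    ∃ (M' : Set (Bm m × ℂ)) (F : Bm m × ℂ → VH m) (k : Bm m × ℂ → ℂ) (τ0 : ℂ), IsOpen M' ∧
      τ0.re < 0 ∧ (0, τ0) ∈ M' ∧ ContDiffOn ℂ ∞ F M' ∧ MapsTo F M' (MG e δ N m) ∧
      F (0, τ0) = (y0, ζ0) ∧ (∀ q ∈ M', Function.Bijective (fderiv ℝ F q)) ∧
      ContDiffOn ℂ ∞ k M' ∧ ContDiffOn ℝ ∞ (PhiG A fh) M' ∧
      (∀ q ∈ M', PotG A e δ N m (F q) = PhiG A fh q + (k q).re) := by
  have hζn : 0 < ‖ζ0‖ := norm_pos_iff.2 hζ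
  obtain ⟨ε0, hε0⟩ : ∃ ε0 : Fb (m + 1), ε0 = ((‖ζ0‖ : ℂ))⁻¹ • ζ0 := ⟨_, rfl⟩
  have hε1 : ‖ε0‖ = 1 := by
    rw [hε0, norm_smul, norm_inv, Complex.norm_real, Real.norm_eq_abs, abs_of_pos hζn,
      inv_mul_cancel₀ hζn.ne']
  obtain ⟨ι, hι⟩ := exists_perp_isometry ε0 hε1
  have hnorm := PinG1_norm hε1 hι
  -- the domain
  let B : Set (Bm m × ℂ) := {q | q.1.1 ∈ ball (0 : ℂ × ℂ) r0}
  let φ : Bm m × ℂ → ℝ := fun q => 2 * q.2.re + (fh (q.1.1, cj q.1.1)).re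
  let ψ : Bm m × ℂ → ℝ := fun q => Real.exp (φ q) * (1 + ‖q.1.2‖ ^ 2)
  let M' : Set (Bm m × ℂ) := B ∩ ψ ⁻¹' Iio 1
  let F : Bm m × ℂ → VH m := fun q =>
    (gam y0 q.1.1, Complex.exp (q.2 - h q.1.1) • (ε0 + ι q.1.2))
  let k : Bm m × ℂ → ℂ := fun q => A * (2 * Complex.log (1 + q.1.1.2) - (Real.log (rho y0) : ℂ))
  have hc11 : ContDiff ℂ ∞ (fun q : Bm m × ℂ => q.1.1) := contDiff_fst.comp contDiff_fst
  have hc11r : ContDiff ℝ ∞ (fun q : Bm m × ℂ => q.1.1) := contDiff_fst.comp contDiff_fst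
  have hc12 : ContDiff ℂ ∞ (fun q : Bm m × ℂ => q.1.2) := contDiff_snd.comp contDiff_fst
  have hc12r : ContDiff ℝ ∞ (fun q : Bm m × ℂ => q.1.2) := contDiff_snd.comp contDiff_fst
  have hBo : IsOpen B := isOpen_ball.preimage (continuous_fst.comp continuous_fst)
  have hφ : ContDiffOn ℝ ∞ φ B := by
    have h1 : ContDiffOn ℝ ∞ (fun q : Bm m × ℂ => fh (q.1.1, cj q.1.1)) B := by
      have h2 : ContDiffOn ℝ ∞ fh (ball 0 r0) := hNF.f_smooth.restrict_scalars ℝ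
      have h3 : ContDiff ℝ ∞ (fun q : Bm m × ℂ => (q.1.1, cj q.1.1)) :=
        hc11r.prodMk (PinG1_cj_smooth.comp hc11r)
      exact h2.comp h3.contDiffOn fun q hq => PinG1_mem hq
    have h2 : ContDiffOn ℝ ∞ (fun q : Bm m × ℂ => (fh (q.1.1, cj q.1.1)).re) B :=
      Complex.reCLM.contDiff.comp_contDiffOn h1
    have h3 : ContDiff ℝ ∞ (fun q : Bm m × ℂ => 2 * q.2.re) :=
      contDiff_const.mul (Complex.reCLM.contDiff.comp contDiff_snd)
    exact h3.contDiffOn.add h2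
  have hψ : ContDiffOn ℝ ∞ ψ B := by
    have h1 : ContDiff ℝ ∞ (fun q : Bm m × ℂ => 1 + ‖q.1.2‖ ^ 2) :=
      contDiff_const.add (hc12r.norm_sq ℂ)
    exact hφ.exp.mul h1.contDiffOn
  have hMo : IsOpen M' := hψ.continuousOn.isOpen_inter_preimage hBo isOpen_Iio
  have hMB : ∀ q ∈ M', q.1.1 ∈ ball (0 : ℂ × ℂ) r0 := fun q hq => hq.1
  have hhs : ContDiffOn ℂ ∞ (fun q : Bm m × ℂ => h q.1.1) M' :=
    hNF.h_smooth.comp hc11.contDiffOn hMB
  have hιs : ContDiff ℂ ∞ (fun q : Bm m × ℂ => ε0 + ι q.1.2) :=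
    contDiff_const.add (ι.toContinuousLinearMap.contDiff.comp hc12)
  have hFs : ContDiffOn ℂ ∞ F M' := by
    refine ContDiffOn.prodMk ?_ ?_
    · exact (PinG1_gam_smooth hr1 y0).comp hc11.contDiffOn hMB
    · exact (contDiff_snd.contDiffOn.sub hhs).cexp.smul hιs.contDiffOn
  -- the norm of the last coordinate
  have hT : ∀ q : Bm m × ℂ, q.1.1 ∈ ball (0 : ℂ × ℂ) r0 →
      ‖(F q).2‖ ^ 2 * Real.exp (phiL e δ N 0 (F q).1) = ψ q := by
    intro q hq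
    have h1 : ‖(F q).2‖ ^ 2 = Real.exp (2 * (q.2 - h q.1.1).re) * (1 + ‖q.1.2‖ ^ 2) := by
      show ‖Complex.exp (q.2 - h q.1.1) • (ε0 + ι q.1.2)‖ ^ 2 = _
      rw [norm_smul, mul_pow, hnorm, Complex.norm_exp, ← Real.exp_nat_mul]
      push_cast
      rfl
    have h2 : phiL e δ N 0 (F q).1 = 2 * (h q.1.1).re + (fh (q.1.1, cj q.1.1)).re :=
      hNF.decomp _ hq
    have h3 : ψ q = Real.exp (2 * (q.2 - h q.1.1).re) *
        Real.exp (2 * (h q.1.1).re + (fh (q.1.1, cj q.1.1)).re) * (1 + ‖q.1.2‖ ^ 2) := by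
      rw [← Real.exp_add]
      simp only [ψ, φ, Complex.sub_re]
      congr 2
      ring
    rw [h1, h2, h3]
    ring
  have h0B : (0 : ℂ × ℂ) ∈ ball (0 : ℂ × ℂ) r0 := mem_ball_self hr0
  have hf0 : fh ((0 : ℂ × ℂ), cj 0) = 0 := by
    have h1 : cj (0 : ℂ × ℂ) = 0 := by simp [cj]
    rw [h1]
    exact hNF.f_left 0 h0B
  -- the base point
  obtain ⟨τ0, hτ0⟩ : ∃ τ0 : ℂ, τ0 = (Real.log ‖ζ0‖ : ℂ) + h 0 := ⟨_, rfl⟩
  have hτ : τ0.re < 0 := by
    have h1 := hp.2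
    have h2 : phiL e δ N 0 y0 = 2 * (h 0).re := by
      have h3 := hNF.decomp 0 h0B
      rw [gam_zero, hf0] at h3
      simpa using h3
    change ‖ζ0‖ ^ 2 * Real.exp (phiL e δ N 0 y0) < 1 at h1
    rw [h2] at h1
    have h4 : ‖ζ0‖ ^ 2 * Real.exp (2 * (h 0).re) = Real.exp (2 * τ0.re) := by
      rw [hτ0, Complex.add_re, Complex.ofReal_re, mul_add, Real.exp_add]
      congr 1
      rw [two_mul, Real.exp_add, Real.exp_log hζn]
      ring
    rw [h4, Real.exp_lt_one_iff] at h1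
    linarith
  refine ⟨M', F, k, τ0, hMo, hτ, ?_, hFs, ?_, ?_, ?_, ?_, ?_, ?_⟩
  · refine ⟨h0B, ?_⟩
    show Real.exp (2 * τ0.re + (fh ((0 : ℂ × ℂ), cj 0)).re) * (1 + ‖(0 : Fb m)‖ ^ 2) < 1
    rw [hf0, norm_zero]
    have h1 : Real.exp (2 * τ0.re + (0 : ℂ).re) < 1 := by
      rw [Real.exp_lt_one_iff, Complex.zero_re]
      linarith
    have h2 : (1 : ℝ) + 0 ^ 2 = 1 := by norm_num
    rw [h2, mul_one]
    exact h1
  · intro q hq
    have hq1 := PinG1_norm_snd hr1 hq.1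
    refine ⟨gam_mem hy0 (by linarith [hq1.2.2]), ?_⟩
    rw [hT q hq.1]
    exact hq.2
  · refine Prod.ext ?_ ?_
    · exact gam_zero y0
    · show Complex.exp (τ0 - h 0) • (ε0 + ι 0) = ζ0
      rw [hτ0, add_sub_cancel_right, ← Complex.ofReal_exp, Real.exp_log hζn, map_zero, add_zero,
        hε0, smul_smul, mul_inv_cancel₀ (by exact_mod_cast hζn.ne'), one_smul]
  · intro q hq
    have hx := PinG1_ne hr1 hq.1
    have hFdC : DifferentiableAt ℂ F q :=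
      (hFs.contDiffAt (hMo.mem_nhds hq)).differentiableAt (by simp)
    have hhdC : DifferentiableAt ℂ (fun q : Bm m × ℂ => h q.1.1) q :=
      (hhs.contDiffAt (hMo.mem_nhds hq)).differentiableAt (by simp)
    -- first coordinates
    have hSd : DifferentiableAt ℂ (fun p : VH m => PinG1_S y0 p.1) (F q) := by
      have h1 : DifferentiableAt ℂ (PinG1_S y0) (F q).1 := PinG1_S_diff hy0 hx
      exact h1.comp (F q) differentiableAt_fst
    have hcomp := hSd.hasFDerivAt.comp q hFdC.hasFDerivAt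
    have heq : ((fun p : VH m => PinG1_S y0 p.1) ∘ F) =ᶠ[nhds q]
        (fun p : Bm m × ℂ => p.1.1) := by
      filter_upwards [hMo.mem_nhds hq] with p hp'
      exact PinG1_S_gam hy0 (PinG1_ne hr1 hp'.1)
    have hfst : HasFDerivAt (fun p : Bm m × ℂ => p.1.1)
        ((ContinuousLinearMap.fst ℂ (ℂ × ℂ) (Fb m)).comp
          (ContinuousLinearMap.fst ℂ (Bm m) ℂ)) q :=
      ((ContinuousLinearMap.fst ℂ (ℂ × ℂ) (Fb m)).comp
          (ContinuousLinearMap.fst ℂ (Bm m) ℂ)).hasFDerivAt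
    have h1 := (hcomp.congr_of_eventuallyEq heq.symm).unique hfst
    have hinj : Function.Injective (fderiv ℂ F q) := by
      rw [injective_iff_map_eq_zero]
      intro v hv
      have hv1 : v.1.1 = 0 := by
        have h2 := congrArg (fun L => L v) h1
        simp only [ContinuousLinearMap.comp_apply, hv, map_zero] at h2
        exact h2.symm
      -- last coordinate
      have h3 : HasFDerivAt (fun p : Bm m × ℂ => Complex.exp (p.2 - h p.1.1))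
          (Complex.exp (q.2 - h q.1.1) • (ContinuousLinearMap.snd ℂ (Bm m) ℂ -
            fderiv ℂ (fun q : Bm m × ℂ => h q.1.1) q)) q :=
        (hasFDerivAt_snd.sub hhdC.hasFDerivAt).cexp
      have h3' : HasFDerivAt (fun p : Bm m × ℂ => ε0 + ι p.1.2)
          (ι.toContinuousLinearMap.comp ((ContinuousLinearMap.snd ℂ (ℂ × ℂ) (Fb m)).comp
            (ContinuousLinearMap.fst ℂ (Bm m) ℂ))) q :=
        (ι.toContinuousLinearMap.comp ((ContinuousLinearMap.snd ℂ (ℂ × ℂ) (Fb m)).comp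
            (ContinuousLinearMap.fst ℂ (Bm m) ℂ))).hasFDerivAt.const_add ε0
      have h3'' := h3.smul h3'
      have h4 : HasFDerivAt (fun p : Bm m × ℂ => (F p).2)
          ((ContinuousLinearMap.snd ℂ (ℂ × ℂ) (Fb (m + 1))).comp (fderiv ℂ F q)) q :=
        hFdC.hasFDerivAt.snd
      have h5 := congrArg (fun L => L v) (h4.unique h3'')
      simp only [ContinuousLinearMap.comp_apply, hv, map_zero] at h5
      have h6 : fderiv ℂ (fun q : Bm m × ℂ => h q.1.1) q v = 0 := by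
        have hhq : DifferentiableAt ℂ h q.1.1 :=
          (hNF.h_smooth.contDiffAt (isOpen_ball.mem_nhds hq.1)).differentiableAt (by simp)
        have h7 : HasFDerivAt (fun q : Bm m × ℂ => h q.1.1)
            ((fderiv ℂ h q.1.1).comp ((ContinuousLinearMap.fst ℂ (ℂ × ℂ) (Fb m)).comp
              (ContinuousLinearMap.fst ℂ (Bm m) ℂ))) q :=
          hhq.hasFDerivAt.comp q ((ContinuousLinearMap.fst ℂ (ℂ × ℂ) (Fb m)).comp
              (ContinuousLinearMap.fst ℂ (Bm m) ℂ)).hasFDerivAt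
        rw [h7.fderiv]
        show fderiv ℂ h q.1.1 v.1.1 = 0
        rw [hv1, map_zero]
      have h8 : (0 : Fb (m + 1)) = Complex.exp (q.2 - h q.1.1) • ι v.1.2 +
          (Complex.exp (q.2 - h q.1.1) * (v.2 - fderiv ℂ (fun q : Bm m × ℂ => h q.1.1) q v)) •
            (ε0 + ι q.1.2) := h5
      rw [h6, sub_zero] at h8
      have hexp := Complex.exp_ne_zero (q.2 - h q.1.1)
      have h9 : v.2 = 0 := by
        have h10 := congrArg (fun w => inner ℂ ε0 w) h8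
        simp only [inner_zero_right, inner_add_right, inner_smul_right, hι, mul_zero, add_zero,
          zero_add] at h10
        have h11 : inner ℂ ε0 ε0 = (1 : ℂ) := by
          rw [inner_self_eq_norm_sq_to_K, hε1]
          simp
        rw [h11, mul_one] at h10
        exact (mul_eq_zero.1 h10.symm).resolve_left hexp
      rw [h9, mul_zero, zero_smul, add_zero] at h8
      have h12 : ι v.1.2 = 0 := (smul_eq_zero.1 h8.symm).resolve_left hexp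
      have h13 : v.1.2 = 0 := by
        have h14 := ι.norm_map v.1.2
        rw [h12, norm_zero] at h14
        exact norm_eq_zero.1 h14.symm
      exact Prod.ext (Prod.ext hv1 h13) h9
    have hfr : Module.finrank ℂ (Bm m × ℂ) = Module.finrank ℂ (VH m) := by
      simp only [Module.finrank_prod, finrank_euclideanSpace, Fintype.card_fin,
        Module.finrank_self]
      ring
    have hsurj : Function.Surjective (fderiv ℂ F q) :=
      (LinearMap.injective_iff_surjective_of_finrank_eq_finrank (f :=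
        (fderiv ℂ F q : (Bm m × ℂ) →ₗ[ℂ] VH m)) hfr).1 hinj
    have hR : fderiv ℝ F q = (fderiv ℂ F q).restrictScalars ℝ :=
      (hFdC.hasFDerivAt.restrictScalars ℝ).fderiv
    rw [hR]
    exact ⟨hinj, hsurj⟩
  · have h1 : ContDiffOn ℂ ∞ (fun q : Bm m × ℂ => Complex.log (1 + q.1.1.2)) M' := by
      have h2 : ContDiff ℂ ∞ (fun q : Bm m × ℂ => 1 + q.1.1.2) :=
        contDiff_const.add (contDiff_snd.comp hc11)
      intro q hq
      have h3 : ContDiffAt ℂ ∞ Complex.log (1 + q.1.1.2) :=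
        Complex.contDiffAt_log (Or.inl (PinG1_re_pos hr1 hq.1))
      exact (h3.comp q h2.contDiffAt).contDiffWithinAt
    exact contDiffOn_const.mul ((contDiffOn_const.mul h1).sub contDiffOn_const)
  · have h1 : ContDiffOn ℝ ∞ (fun q : Bm m × ℂ => 1 - ‖q.1.1.1‖ ^ 2 - ‖q.1.1.2‖ ^ 2) M' := by
      have e1 : ContDiff ℝ ∞ (fun q : Bm m × ℂ => ‖q.1.1.1‖ ^ 2) :=
        (contDiff_fst.comp hc11r).norm_sq ℝ
      have e2 : ContDiff ℝ ∞ (fun q : Bm m × ℂ => ‖q.1.1.2‖ ^ 2) :=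
        (contDiff_snd.comp hc11r).norm_sq ℝ
      exact ((contDiff_const.sub e1).sub e2).contDiffOn
    have h2 : ContDiffOn ℝ ∞ (fun q : Bm m × ℂ => 1 - ψ q) M' :=
      contDiffOn_const.sub (hψ.mono inter_subset_left)
    have h3 : ∀ q ∈ M', 1 - ‖q.1.1.1‖ ^ 2 - ‖q.1.1.2‖ ^ 2 ≠ 0 := by
      intro q hq
      have h4 := PinG1_norm_snd hr1 hq.1
      have h5 := norm_nonneg q.1.1.1
      have h6 := norm_nonneg q.1.1.2
      nlinarith [h4.1, h4.2.1]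
    have h4 : ∀ q ∈ M', 1 - ψ q ≠ 0 := by
      intro q hq
      have h5 : ψ q < 1 := hq.2
      linarith
    have h5 := (contDiffOn_const (c := A)).mul (h1.log h3).neg
    exact h5.sub (h2.log h4)
  · intro q hq
    have hx := PinG1_norm_snd hr1 hq.1
    have h1 : 1 - ‖(F q).2‖ ^ 2 * Real.exp (phiL e δ N 0 (F q).1) = 1 - ψ q := by
      rw [hT q hq.1]
    have h2 : rho (F q).1 = rho y0 * (1 - ‖q.1.1.1‖ ^ 2 - ‖q.1.1.2‖ ^ 2) / ‖1 + q.1.1.2‖ ^ 2 :=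
      rho_gam hy0 (by linarith [hx.2.2])
    have h3 : 0 < 1 - ‖q.1.1.1‖ ^ 2 - ‖q.1.1.2‖ ^ 2 := by
      have h5 := norm_nonneg q.1.1.1
      have h6 := norm_nonneg q.1.1.2
      nlinarith [hx.1, hx.2.1]
    have hr : 0 < rho y0 := hy0
    have h4 : 0 < ‖1 + q.1.1.2‖ := norm_pos_iff.2 (PinG1_ne hr1 hq.1)
    have h5 : Real.log (rho (F q).1) = Real.log (rho y0) +
        Real.log (1 - ‖q.1.1.1‖ ^ 2 - ‖q.1.1.2‖ ^ 2) - 2 * Real.log ‖1 + q.1.1.2‖ := by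
      rw [h2, Real.log_div (mul_pos hr h3).ne' (pow_pos h4 2).ne', Real.log_mul hr.ne' h3.ne',
        Real.log_pow]
      push_cast
      ring
    have h6 : (k q).re = A * (2 * Real.log ‖1 + q.1.1.2‖ - Real.log (rho y0)) := by
      show ((A : ℂ) * (2 * Complex.log (1 + q.1.1.2) - (Real.log (rho y0) : ℂ))).re = _
      rw [Complex.re_ofReal_mul, Complex.sub_re, Complex.ofReal_re]
      have h7 : (2 * Complex.log (1 + q.1.1.2)).re = 2 * (Complex.log (1 + q.1.1.2)).re := by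
        simp
      rw [h7, Complex.log_re]
    unfold PotG PhiG
    rw [h1, h5, h6]
    ring

end P250
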