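import Vale.Agent.Lib.P250.G.HarG2
import Vale.Agent.Lib.P250.G.MCG
import Vale.Agent.Lib.P250.G.PinG1
import Vale.Agent.Lib.P250.LCA
import Vale.Agent.Lib.P250.PullB

/-! # P250-G module PinG2: pinching off the zero section and everywhere
(adapt `PinB.lean`, `PinC.lean`) -/

open scoped ContDiff
open Complex Metric Set

namespace P250

/-- The metric in local coordinates. -/
private theorem pinG2_pull {A e δ : ℝ} {N m : ℕ} (he : 0 < e) (he1 : e < 1) (hδ : 0 < δ)
    {fh : (ℂ × ℂ) × (ℂ × ℂ) → ℂ} {M' : Set (Bm m × ℂ)} {F : Bm m × ℂ → VH m}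
    {k : Bm m × ℂ → ℂ} (hM' : IsOpen M')
    (hF : ContDiffOn ℂ ∞ F M') (hmap : MapsTo F M' (MG e δ N m)) (hk : ContDiffOn ℂ ∞ k M')
    (hΦ : ContDiffOn ℝ ∞ (PhiG A fh) M')
    (hdec : ∀ q ∈ M', PotG A e δ N m (F q) = PhiG A fh q + (k q).re) (q : Bm m × ℂ)
    (hq : q ∈ M') (u v : Bm m × ℂ) :
    potMetric (PhiG A fh) q u v =
      potMetric (PotG A e δ N m) (F q) (fderiv ℝ F q u) (fderiv ℝ F q v) := by
  have h1 := potMetric_comp (MG_open N m he he1 hδ) hM' (PotG_smooth (A := A) N m he he1 hδ) hF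
    hmap hq u v
  have h2 : (fun q' => PotG A e δ N m (F q')) =ᶠ[nhds q] fun q' => PhiG A fh q' + (k q').re := by
    filter_upwards [hM'.mem_nhds hq] with q' hq'
    exact hdec q' hq'
  rw [potMetric_congr h2, potMetric_add_re hM' hΦ hk hq] at h1
  exact h1

theorem pinched_off_zero_g {e δ : ℝ} {N : ℕ} (m : ℕ) (hN : 0 < N) (he : 0 < e) (he1 : e < 1)
    (hδ : 0 < δ) : ∃ A a b : ℝ, 0 < A ∧ 0 < a ∧ a ≤ b ∧
    ∀ Γ : VH m → VH m →L[ℝ] VH m →L[ℝ] VH m,
    IsLeviCivita (MG e δ N m) (potMetric (PotG A e δ N m)) Γ →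
    ∀ p ∈ MG e δ N m, p.2 ≠ 0 → ∀ u v : VH m,
      -b * area2 (potMetric (PotG A e δ N m)) p u v ≤
        curvNum (potMetric (PotG A e δ N m)) Γ p u v ∧
      curvNum (potMetric (PotG A e δ N m)) Γ p u v ≤
        -a * area2 (potMetric (PotG A e δ N m)) p u v := by
  obtain ⟨r0, hr0, hr1, hNF⟩ := exists_NF
  obtain ⟨C0, hC0, hNF⟩ := hNF e δ N he he1 hδ
  have hκ : (0 : ℝ) < N * δ := by positivity
  obtain ⟨A0, hA0, hmodel⟩ := model_pinched_g r0 C0 (N * δ) hr0 hr1 hC0 hκ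
  obtain ⟨a, b, ha, hab, hmodel⟩ := hmodel A0 le_rfl
  refine ⟨A0, a, b, hA0, ha, hab, ?_⟩
  intro Γ hΓ p hp hp2 u v
  obtain ⟨h, fh, hnf⟩ := hNF p.1 hp.1
  obtain ⟨M', F, k, τ0, hM', hτ0, hq0, hF, hmap, hFq, hbij, hk, hΦ, hdec⟩ :=
    local_coord_g (A := A0) he he1 hδ hr0 hr1 hp.1 hnf hp2 (by exact hp)
  have hK := PotG_kahler (A := A0) N m hA0 he he1 hδ
  have hg := hK.toIsRiemannianMetric
  have hpull := pinG2_pull he he1 hδ hM' hF hmap hk hΦ hdec
  -- the model metric is Riemannian on `M'`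
  have hg' : IsRiemannianMetric M' (potMetric (PhiG A0 fh)) := by
    refine ⟨potMetric_smooth hM' hΦ, ?_, ?_⟩
    · intro q hq w w'
      rw [hpull q hq, hpull q hq, hg.symm _ (hmap hq)]
    · intro q hq w hw
      rw [hpull q hq]
      refine hg.pos _ (hmap hq) _ fun h0 => hw ?_
      exact (hbij q hq).1 (by rw [h0, map_zero])
  obtain ⟨Γ', hΓ'⟩ := exists_leviCivita hM' hg'
  obtain ⟨u', hu'⟩ := (hbij _ hq0).2 u
  obtain ⟨v', hv'⟩ := (hbij _ hq0).2 v
  have hcurv := curvNum_pullback (MG_open N m he he1 hδ) hM' hg hg' hΓ hΓ'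
    (hF.restrict_scalars ℝ) hmap hbij hpull hq0 u' v'
  have hmain := hmodel fh hnf.f_smooth hnf.f_bound hnf.f_herm hnf.f_left hnf.f_right hnf.levi τ0
    hτ0 M' hM' hq0 hg' Γ' hΓ' u' v'
  have harea : area2 (potMetric (PhiG A0 fh)) (0, τ0) u' v' =
      area2 (potMetric (PotG A0 e δ N m)) p u v := by
    unfold area2
    rw [hpull _ hq0, hpull _ hq0, hpull _ hq0, hFq, hu', hv']
  rw [harea, hcurv, hFq, hu', hv'] at hmain
  exact hmain

private theorem pinG2_area_cont {E : Type*} [NormedAddCommGroup E] [NormedSpace ℂ E] {M : Set E}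
    {g : E → E →L[ℝ] E →L[ℝ] ℝ} (hg : ContinuousOn g M) (u v : E) :
    ContinuousOn (fun x => area2 g x u v) M := by
  have h : ∀ a b : E, ContinuousOn (fun x => g x a b) M := fun a b =>
    (hg.clm_apply continuousOn_const).clm_apply continuousOn_const
  unfold area2
  exact ((h u u).mul (h v v)).sub ((h u v).pow 2)

private theorem pinG2_curv_cont {E : Type*} [NormedAddCommGroup E] [NormedSpace ℂ E] {M : Set E}
    {g : E → E →L[ℝ] E →L[ℝ] ℝ} {Γ : E → E →L[ℝ] E →L[ℝ] E} (hM : IsOpen M)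
    (hg : ContinuousOn g M) (hΓ : ContDiffOn ℝ ∞ Γ M) (u v : E) :
    ContinuousOn (fun x => curvNum g Γ x u v) M := by
  have h0 : ContinuousOn Γ M := hΓ.continuousOn
  have h1 : ContinuousOn (fun x => fderiv ℝ Γ x) M :=
    hΓ.continuousOn_fderiv_of_isOpen hM (by simp)
  have hd : ∀ a b c : E, ContinuousOn (fun x => fderiv ℝ Γ x a b c) M := fun a b c =>
    ((h1.clm_apply continuousOn_const).clm_apply continuousOn_const).clm_apply continuousOn_const
  have hG : ∀ a b : E, ContinuousOn (fun x => Γ x a b) M := fun a b =>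
    (h0.clm_apply continuousOn_const).clm_apply continuousOn_const
  have hGG : ∀ a b c : E, ContinuousOn (fun x => Γ x a (Γ x b c)) M := fun a b c =>
    (h0.clm_apply continuousOn_const).clm_apply (hG b c)
  have hR : ContinuousOn (fun x => curvatureTensor Γ x u v v) M := by
    unfold curvatureTensor
    exact (((hd u v v).sub (hd v u v)).add (hGG u v v)).sub (hGG v u v)
  unfold curvNum
  exact (hg.clm_apply hR).clm_apply continuousOn_const

private theorem pinG2_neBot {E : Type*} [NormedAddCommGroup E] [NormedSpace ℂ E] [Nontrivial E] :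
    (nhdsWithin (0 : E) {(0 : E)}ᶜ).NeBot :=
  Module.punctured_nhds_neBot ℂ E 0

theorem pinched_all_g {A a b e δ : ℝ} {N m : ℕ} (hA : 0 < A) (he : 0 < e) (he1 : e < 1)
    (hδ : 0 < δ) {Γ : VH m → VH m →L[ℝ] VH m →L[ℝ] VH m}
    (hΓ : IsLeviCivita (MG e δ N m) (potMetric (PotG A e δ N m)) Γ)
    (h : ∀ p ∈ MG e δ N m, p.2 ≠ 0 → ∀ u v : VH m,
      -b * area2 (potMetric (PotG A e δ N m)) p u v ≤
        curvNum (potMetric (PotG A e δ N m)) Γ p u v ∧
      curvNum (potMetric (PotG A e δ N m)) Γ p u v ≤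
        -a * area2 (potMetric (PotG A e δ N m)) p u v)
    {p : VH m} (hp : p ∈ MG e δ N m) (u v : VH m) :
    -b * area2 (potMetric (PotG A e δ N m)) p u v ≤
      curvNum (potMetric (PotG A e δ N m)) Γ p u v ∧
    curvNum (potMetric (PotG A e δ N m)) Γ p u v ≤
      -a * area2 (potMetric (PotG A e δ N m)) p u v := by
  by_cases hp2 : p.2 ≠ 0
  · exact h p hp hp2 u v
  have hp0 : p.2 = 0 := not_not.mp hp2
  have hM : IsOpen (MG e δ N m) := MG_open N m he he1 hδ
  have hgc : ContinuousOn (potMetric (PotG A e δ N m)) (MG e δ N m) :=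
    (PotG_kahler N m hA he he1 hδ).smooth.continuousOn
  have hmem : MG e δ N m ∈ nhds p := hM.mem_nhds hp
  have h1 : Filter.Tendsto (fun x => area2 (potMetric (PotG A e δ N m)) x u v) (nhds p)
      (nhds (area2 (potMetric (PotG A e δ N m)) p u v)) :=
    (pinG2_area_cont hgc u v).continuousAt hmem
  have h2 : Filter.Tendsto (fun x => curvNum (potMetric (PotG A e δ N m)) Γ x u v) (nhds p)
      (nhds (curvNum (potMetric (PotG A e δ N m)) Γ p u v)) :=
    (pinG2_curv_cont hM hgc hΓ.smooth u v).continuousAt hmem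
  have : (nhdsWithin (0 : Fb (m + 1)) {(0 : Fb (m + 1))}ᶜ).NeBot := pinG2_neBot
  -- the path
  have hpath : Filter.Tendsto (fun ζ : Fb (m + 1) => ((p.1, ζ) : VH m))
      (nhdsWithin 0 {(0 : Fb (m + 1))}ᶜ) (nhds p) := by
    have hc : Continuous fun ζ : Fb (m + 1) => ((p.1, ζ) : VH m) := by fun_prop
    have h3 := hc.tendsto (0 : Fb (m + 1))
    have h4 : ((p.1, (0 : Fb (m + 1))) : VH m) = p := by
      rw [← hp0]
    rw [h4] at h3
    exact h3.mono_left nhdsWithin_le_nhds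
  have hev : ∀ᶠ ζ : Fb (m + 1) in nhdsWithin 0 {(0 : Fb (m + 1))}ᶜ,
      ((p.1, ζ) : VH m) ∈ MG e δ N m ∧ ζ ≠ 0 := by
    filter_upwards [hpath.eventually hmem, self_mem_nhdsWithin] with ζ h3 h4
    exact ⟨h3, h4⟩
  constructor
  · refine le_of_tendsto_of_tendsto ((h1.const_mul (-b)).comp hpath) (h2.comp hpath) ?_
    filter_upwards [hev] with ζ hζ
    exact (h _ hζ.1 hζ.2 u v).1
  · refine le_of_tendsto_of_tendsto (h2.comp hpath) ((h1.const_mul (-a)).comp hpath) ?_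
    filter_upwards [hev] with ζ hζ
    exact (h _ hζ.1 hζ.2 u v).2

end P250
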