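import Vale.Agent.Lib.P250.Complete
import Vale.Agent.Lib.P250.G.HarG3
import Vale.Agent.Lib.P250.G.HarG4
import Vale.Agent.Lib.P250.G.JBG
import Vale.Agent.Lib.P250.G.OneG
import Vale.Agent.Lib.P250.G.PinG2
import Vale.Agent.Lib.P250.PinC
import Vale.Agent.Lib.P250.Trans

/-! # P250-G: assembly in all dimensions `n ≥ 3` -/

open scoped ContDiff
open Complex Metric Set

namespace P250

theorem hartogs_geometry_g {e δ : ℝ} {N : ℕ} (m : ℕ) (hN : 0 < N) (he : 0 < e) (he1 : e < 1)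
    (hδ : 0 < δ) : ∃ (A : ℝ) (Γ : VH m → VH m →L[ℝ] VH m →L[ℝ] VH m), 0 < A ∧
    IsKahlerMetric (MG e δ N m) (potMetric (PotG A e δ N m)) ∧
    IsLeviCivita (MG e δ N m) (potMetric (PotG A e δ N m)) Γ ∧
    IsNegativelyPinched (MG e δ N m) (potMetric (PotG A e δ N m)) Γ := by
  obtain ⟨A, a, b, hA, ha, hab, hmain⟩ := pinched_off_zero_g m hN he he1 hδ
  have hK := PotG_kahler (A := A) N m hA he he1 hδ
  obtain ⟨Γ, hΓ⟩ := exists_leviCivita (MG_open N m he he1 hδ) hK.toIsRiemannianMetric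
  refine ⟨A, Γ, hA, hK, hΓ, a, b, ha, hab, fun p hp u v huv => ?_⟩
  have h1 := pinched_all_g hA he he1 hδ hΓ (hmain Γ hΓ) hp u v
  have h2 := area2_pos hK.toIsRiemannianMetric hp huv
  have h3 : sectionalCurvature (potMetric (PotG A e δ N m)) Γ p u v =
      curvNum (potMetric (PotG A e δ N m)) Γ p u v /
        area2 (potMetric (PotG A e δ N m)) p u v := rfl
  rw [h3, le_div_iff₀ h2, div_le_iff₀ h2]
  exact h1

theorem not_biholomorphic_g {e δ : ℝ} {N m : ℕ} (he : 0 < e) (he1 : e < 1) (hδ : 0 < δ)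
    (hno : ∀ J : ℂ × ℂ → ℂ, DifferentiableOn ℂ J U2 → (∀ y ∈ U2, J y ≠ 0) →
      ∀ CJ : ℝ, ¬ (∀ y ∈ U2, ‖J y‖ ^ 2 ≤
        CJ * (rho y)⁻¹ ^ 3 * Real.exp (((m + 1 : ℕ) : ℝ) * phiL e δ N 0 y)))
    {D : Set (VH m)} (hD : IsOpen D) (hb : Bornology.IsBounded D) :
    ¬ AreBiholomorphic (MG e δ N m) D := by
  rintro ⟨f, h, hf, hh, hfm, hhm, hl, hr⟩
  obtain ⟨K, hK⟩ := hb.exists_norm_le
  obtain ⟨CJ, hCJ⟩ := J_bound_g N m he he1 hδ K
  have hopen := MG_open N m he he1 hδ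
  refine hno (JacG f) (JacG_differentiable N m he he1 hδ hf) (fun y hy => ?_) CJ
    (hCJ f hf (fun p hp => hK _ (hfm hp)))
  have hp : ((y, 0) : VH m) ∈ MG e δ N m := ⟨hy, by simp⟩
  have h1 : HasFDerivAt f (fderiv ℂ f (y, 0)) (y, 0) :=
    (hf.differentiableAt (hopen.mem_nhds hp)).hasFDerivAt
  have h2 : HasFDerivAt h (fderiv ℂ h (f (y, 0))) (f (y, 0)) :=
    (hh.differentiableAt (hD.mem_nhds (hfm hp))).hasFDerivAt
  have h3 := h2.comp (y, 0) h1
  have h4 : HasFDerivAt (h ∘ f) (ContinuousLinearMap.id ℂ (VH m)) (y, 0) := by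
    refine (hasFDerivAt_id (𝕜 := ℂ) ((y, 0) : VH m)).congr_of_eventuallyEq ?_
    filter_upwards [hopen.mem_nhds hp] with q hq using hl hq
  have h5 := h3.unique h4
  intro h0
  have h6 : (fderiv ℂ h (f (y, 0))).det * (fderiv ℂ f (y, 0)).det = 1 := by
    have := congrArg (fun T : VH m →L[ℂ] VH m => LinearMap.det
      (T : VH m →ₗ[ℂ] VH m)) h5
    simpa [ContinuousLinearMap.det, ContinuousLinearMap.coe_comp, LinearMap.det_comp] using this
  rw [show (fderiv ℂ f (y, 0)).det = 0 from h0, mul_zero] at h6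
  exact zero_ne_one h6

theorem main_VH (m : ℕ) : ∃ (M : Set (VH m)) (g : VH m → VH m →L[ℝ] VH m →L[ℝ] ℝ)
    (Γ : VH m → VH m →L[ℝ] VH m →L[ℝ] VH m), IsOpen M ∧ ContractibleSpace M ∧
    IsKahlerMetric M g ∧ IsLeviCivita M g Γ ∧ IsGeodesicallyComplete M Γ ∧
    IsNegativelyPinched M g Γ ∧
    ∀ D : Set (VH m), IsOpen D → Bornology.IsBounded D → ¬ AreBiholomorphic M D := by
  obtain ⟨e, δ, N, he, he1, hδ, hN, hno⟩ := no_J_all
  obtain ⟨A, Γ, hA, hK, hΓ, hp⟩ := hartogs_geometry_g m hN he he1 hδ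
  obtain ⟨C, hC⟩ := kexhG_lip (A := A) N m hA he he1 hδ
  refine ⟨MG e δ N m, potMetric (PotG A e δ N m), Γ, MG_open N m he he1 hδ,
    MG_contractible N m he he1 hδ, hK, hΓ, ?_, hp, fun D hD hb =>
      not_biholomorphic_g he he1 hδ (hno (m + 1) (by omega)) hD hb⟩
  exact geodesicallyComplete_of_exhaustion (MG_open N m he he1 hδ) hK.toIsRiemannianMetric hΓ
    (kexhG e δ N m) C (kexhG_smooth N m he he1 hδ) hC (kexhG_compact N m he he1 hδ)

/-- complex linear coordinates -/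
noncomputable def eG (m : ℕ) : EuclideanSpace ℂ (Fin (m + 3)) ≃L[ℂ] VH m :=
  ContinuousLinearEquiv.ofFinrankEq (by
    simp [Module.finrank_prod]; omega)

theorem main_EG (n : ℕ) (hn : 3 ≤ n) : ∃ (M : Set (EuclideanSpace ℂ (Fin n)))
    (g : EuclideanSpace ℂ (Fin n) → EuclideanSpace ℂ (Fin n) →L[ℝ] EuclideanSpace ℂ (Fin n) →L[ℝ] ℝ)
    (Γ : EuclideanSpace ℂ (Fin n) → EuclideanSpace ℂ (Fin n) →L[ℝ]
      EuclideanSpace ℂ (Fin n) →L[ℝ] EuclideanSpace ℂ (Fin n)),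
    IsOpen M ∧ IsConnected M ∧ SimplyConnectedSpace M ∧
    IsKahlerMetric M g ∧ IsLeviCivita M g Γ ∧ IsGeodesicallyComplete M Γ ∧
    IsNegativelyPinched M g Γ ∧
    ∀ D : Set (EuclideanSpace ℂ (Fin n)), IsOpen D → Bornology.IsBounded D →
      ¬ AreBiholomorphic M D := by
  obtain ⟨m, rfl⟩ : ∃ m, n = m + 3 := ⟨n - 3, by omega⟩
  obtain ⟨M, g, Γ, hM, hc, hK, hΓ, hcomp, hp, hno⟩ := main_VH m
  obtain ⟨g', Γ', hM', hc', hK', hΓ', hcomp', hp'⟩ := transfer (eG m) hM hc hK hΓ hcomp hp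
  refine ⟨eG m ⁻¹' M, g', Γ', hM', ?_, inferInstance, hK', hΓ', hcomp', hp', ?_⟩
  · exact isConnected_iff_connectedSpace.mpr inferInstance
  · rintro D hD hb ⟨f, h, hf, hh, hfm, hhm, hl, hr⟩
    refine hno (eG m '' D) ((eG m).toHomeomorph.isOpenMap D hD) ?_
      ⟨fun q => eG m (f ((eG m).symm q)), fun q => eG m (h ((eG m).symm q)), ?_, ?_, ?_, ?_, ?_, ?_⟩
    · exact (eG m : EuclideanSpace ℂ (Fin (m + 3)) →L[ℂ] VH m).lipschitz.isBounded_image hb
    · refine (eG m).differentiable.comp_differentiableOn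
        (hf.comp (eG m).symm.differentiable.differentiableOn ?_)
      intro q hq
      simpa using hq
    · refine (eG m).differentiable.comp_differentiableOn
        (hh.comp (eG m).symm.differentiable.differentiableOn ?_)
      rintro q ⟨q', hq', rfl⟩
      simpa using hq'
    · intro q hq
      exact ⟨_, hfm (by simpa using hq : (eG m).symm q ∈ eG m ⁻¹' M), rfl⟩
    · rintro q ⟨q', hq', rfl⟩
      have := hhm hq'
      simpa using this
    · intro q hq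
      have := hl (by simpa using hq : (eG m).symm q ∈ eG m ⁻¹' M)
      simp [this]
    · rintro q ⟨q', hq', rfl⟩
      have := hr hq'
      simp [this]

end P250
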